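import Mathlib

/-! Algebra of an aspherical presentation: vanishing of the second cohomology of the Cayley
complex and triviality of local systems. -/

set_option autoImplicit false

namespace Crest.Agent.GSC.Topo

variable {P J G : Type} [Group G]

/-- value of a letter -/
def lv (gen : P → G) : P × Bool → G
  | (s, true) => gen s
  | (s, false) => (gen s)⁻¹

/-- end point of a word -/
def endp (gen : P → G) : G → List (P × Bool) → G
  | g, [] => g
  | g, x :: l => endp gen (g * lv gen x) l

/-- value of a cochain on a letter -/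
def lc {A : Type} [AddCommGroup A] (gen : P → G) (u : G → P → A) (g : G) : P × Bool → A
  | (s, true) => u g s
  | (s, false) => - u (g * (gen s)⁻¹) s

/-- value of a cochain on a word -/
def csum {A : Type} [AddCommGroup A] (gen : P → G) (u : G → P → A) : G → List (P × Bool) → A
  | _, [] => 0
  | g, x :: l => lc gen u g x + csum gen u (g * lv gen x) l

theorem csum_map {A B : Type} [AddCommGroup A] [AddCommGroup B] (f : A →+ B) (gen : P → G)
    (u : G → P → A) : ∀ (l : List (P × Bool)) (g : G),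
      csum gen (fun g s => f (u g s)) g l = f (csum gen u g l)
  | [], _ => by simp [csum]
  | (s, b) :: l, g => by
    cases b <;> simp [csum, lc, csum_map f gen u l]

theorem mk_cons (x : P × Bool) (l : List (P × Bool)) :
    FreeGroup.mk (x :: l) = lv FreeGroup.of x * FreeGroup.mk l := by
  obtain ⟨s, b⟩ := x
  cases b
  · show _ = (FreeGroup.mk [(s, true)])⁻¹ * _
    rw [FreeGroup.inv_mk, FreeGroup.mul_mk]; rfl
  · show _ = (FreeGroup.mk [(s, true)]) * _
    rw [FreeGroup.mul_mk]; rfl

theorem map_lv (pi : FreeGroup P →* G) (x : P × Bool) :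
    pi (lv FreeGroup.of x) = lv (fun s => pi (FreeGroup.of s)) x := by
  obtain ⟨s, b⟩ := x
  cases b <;> simp [lv]

theorem endp_eq (pi : FreeGroup P →* G) : ∀ (l : List (P × Bool)) (g : G),
    endp (fun s => pi (FreeGroup.of s)) g l = g * pi (FreeGroup.mk l)
  | [], g => by
    show g = g * pi 1
    simp
  | x :: l, g => by rw [endp, endp_eq pi l, mk_cons, map_mul, map_lv, mul_assoc]

section
variable (r : J → FreeGroup P) (pi : FreeGroup P →* G)

/-- product of a sequence of conjugates of relators -/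
def sev (l : List (FreeGroup P × J × Bool)) : FreeGroup P :=
  (l.map fun x => x.1 * (if x.2.2 then r x.2.1 else (r x.2.1)⁻¹) * x.1⁻¹).prod

/-- the chain of a sequence -/
noncomputable def scl (l : List (FreeGroup P × J × Bool)) : G × J →₀ ℤ :=
  (l.map fun x => Finsupp.single (pi x.1, x.2.1) (if x.2.2 then (1 : ℤ) else -1)).sum

/-- `x` is a product of conjugates of relators with chain `c` -/
def Ex (x : FreeGroup P) (c : G × J →₀ ℤ) : Prop := ∃ l, sev r l = x ∧ scl pi l = c

variable {r pi}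

theorem Ex.one : Ex r pi 1 0 := ⟨[], rfl, rfl⟩

theorem Ex.mul {x y : FreeGroup P} {c d : G × J →₀ ℤ} (h : Ex r pi x c) (k : Ex r pi y d) :
    Ex r pi (x * y) (c + d) := by
  obtain ⟨l, rfl, rfl⟩ := h
  obtain ⟨m, rfl, rfl⟩ := k
  exact ⟨l ++ m, by simp [sev], by simp [scl]⟩

theorem Ex.single (u : FreeGroup P) (i : J) (b : Bool) :
    Ex r pi (u * (if b then r i else (r i)⁻¹) * u⁻¹)
      (Finsupp.single (pi u, i) (if b then (1 : ℤ) else -1)) :=
  ⟨[(u, i, b)], by simp [sev], by simp [scl]⟩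

theorem Ex.inv {x : FreeGroup P} {c : G × J →₀ ℤ} (h : Ex r pi x c) : Ex r pi x⁻¹ (-c) := by
  obtain ⟨l, rfl, rfl⟩ := h
  induction l with
  | nil => simpa [sev, scl] using Ex.one
  | cons a l ih =>
    obtain ⟨u, i, b⟩ := a
    have := ih.mul (Ex.single (r := r) (pi := pi) u i (!b))
    convert this using 1
    · cases b <;> simp [sev, mul_assoc]
    · cases b <;> simp [scl, Finsupp.single_neg, add_comm]

theorem Ex.of_mem {x : FreeGroup P} (h : x ∈ Subgroup.normalClosure (Set.range r)) :
    ∃ c, Ex r pi x c := by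
  induction h using Subgroup.closure_induction with
  | mem x hx =>
    obtain ⟨_, ⟨i, rfl⟩, hc⟩ := Group.mem_conjugatesOfSet_iff.1 hx
    obtain ⟨u, rfl⟩ := isConj_iff.1 hc
    exact ⟨_, Ex.single u i true⟩
  | one => exact ⟨_, Ex.one⟩
  | mul x y _ _ hx hy =>
    obtain ⟨c, hc⟩ := hx
    obtain ⟨d, hd⟩ := hy
    exact ⟨_, hc.mul hd⟩
  | inv x _ hx =>
    obtain ⟨c, hc⟩ := hx
    exact ⟨_, hc.inv⟩

theorem exists_cochain (hsurj : Function.Surjective pi)
    (hker : pi.ker = Subgroup.normalClosure (Set.range r))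
    (asph : ∀ l, sev r l = 1 → scl pi l = 0) (w : J → List (P × Bool))
    (hw : ∀ i, FreeGroup.mk (w i) = r i) {A : Type} [AddCommGroup A] (o : G → J → A) :
    ∃ u : G → P → A, ∀ g i, csum (fun s => pi (FreeGroup.of s)) u g (w i) = o g i := by
  choose σ hσ using hsurj
  have h1 : ∀ g s, ∃ c, Ex r pi (σ g * FreeGroup.of s * (σ (g * pi (FreeGroup.of s)))⁻¹) c := by
    intro g s
    apply Ex.of_mem
    rw [← hker, MonoidHom.mem_ker]
    simp [hσ]
  choose c hc using h1
  have h2 : ∀ (l : List (P × Bool)) (g : G),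
      Ex r pi (σ g * FreeGroup.mk l * (σ (endp (fun s => pi (FreeGroup.of s)) g l))⁻¹)
        (csum (fun s => pi (FreeGroup.of s)) c g l) := by
    intro l
    induction l with
    | nil =>
      intro g
      have : FreeGroup.mk ([] : List (P × Bool)) = 1 := rfl
      simpa [this, endp, csum] using Ex.one
    | cons x l ih =>
      intro g
      have hx : Ex r pi (σ g * lv FreeGroup.of x * (σ (g * lv (fun s => pi (FreeGroup.of s)) x))⁻¹)
          (lc (fun s => pi (FreeGroup.of s)) c g x) := by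
        obtain ⟨s, b⟩ := x
        cases b
        · have := (hc (g * (pi (FreeGroup.of s))⁻¹) s).inv
          convert this using 1
          · simp [lv, mul_assoc]
          · rfl
        · exact hc g s
      convert hx.mul (ih (g * lv (fun s => pi (FreeGroup.of s)) x)) using 1
      · rw [mk_cons, endp]
        group
      · rfl
  have h3 : ∀ g i, csum (fun s => pi (FreeGroup.of s)) c g (w i) = Finsupp.single (g, i) 1 := by
    intro g i
    have hr : pi (r i) = 1 := by
      rw [← MonoidHom.mem_ker, hker]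
      exact Subgroup.subset_normalClosure ⟨i, rfl⟩
    have a := (h2 (w i) g).mul (Ex.single (σ g) i false)
    rw [endp_eq, hw, hr, mul_one] at a
    obtain ⟨l, hl, hl'⟩ := a
    rw [asph l (by rw [hl]; simp), hσ] at hl'
    simp only [Bool.false_eq_true, if_false, Finsupp.single_neg] at hl'
    exact (eq_of_sub_eq_zero (by rw [sub_eq_add_neg, ← hl']))
  let O : (G × J →₀ ℤ) →+ A := (Finsupp.linearCombination ℤ fun z => o z.1 z.2).toAddMonoidHom
  refine ⟨fun g s => O (c g s), fun g i => ?_⟩
  rw [csum_map, h3]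
  simp [O]

/-- action of a word -/
def actL {Ω : Type} (T : P → Equiv.Perm Ω) : List (P × Bool) → Ω → Ω
  | [], ω => ω
  | x :: l, ω => actL T l (lv T x ω)

theorem actL_eq {Ω : Type} (T : P → Equiv.Perm Ω) : ∀ (l : List (P × Bool)) (ω : Ω),
    actL T l ω = (FreeGroup.lift (fun s => (T s)⁻¹) (FreeGroup.mk l))⁻¹ ω
  | [], ω => by
    show ω = (FreeGroup.lift (fun s => (T s)⁻¹) 1)⁻¹ ω
    simp
  | (s, b) :: l, ω => by
    rw [actL, actL_eq T l, mk_cons, map_mul, mul_inv_rev, Equiv.Perm.mul_apply]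
    cases b <;> simp [lv]

theorem exists_section (hsurj : Function.Surjective pi)
    (hker : pi.ker = Subgroup.normalClosure (Set.range r)) (w : J → List (P × Bool))
    (hw : ∀ i, FreeGroup.mk (w i) = r i) (X : G → Type)
    (τ : ∀ g s, X g ≃ X (g * pi (FreeGroup.of s))) (x0 : X 1)
    (hτ : ∀ i ω, actL (fun s => (Equiv.sigmaCongr (Equiv.mulRight (pi (FreeGroup.of s)))
      (fun g => τ g s) : Equiv.Perm (Σ g, X g))) (w i) ω = ω) :
    ∃ c : ∀ g, X g, ∀ g s, c (g * pi (FreeGroup.of s)) = τ g s (c g) := by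
  set T : P → Equiv.Perm (Σ g, X g) := fun s => Equiv.sigmaCongr
    (Equiv.mulRight (pi (FreeGroup.of s))) (fun g => τ g s) with hT
  let Ψ : FreeGroup P →* Equiv.Perm (Σ g, X g) := FreeGroup.lift fun s => (T s)⁻¹
  have hΨ : pi.ker ≤ Ψ.ker := by
    rw [hker]
    apply Subgroup.normalClosure_le_normal
    rintro _ ⟨i, rfl⟩
    rw [SetLike.mem_coe, MonoidHom.mem_ker, ← inv_eq_one]
    ext1 ω
    rw [← hw, ← actL_eq]
    exact hτ i ω
  have hT1 : ∀ s ω, (T s ω).1 = ω.1 * pi (FreeGroup.of s) := fun s ω => rfl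
  have hfst : ∀ x ω, ((Ψ x)⁻¹ ω).1 = ω.1 * pi x := by
    intro x
    induction x using FreeGroup.induction_on with
    | C1 => simp
    | of s => intro ω; simp [Ψ, hT1]
    | inv_of s ih =>
      intro ω
      have := ih ((Ψ (FreeGroup.of s)) ω)
      rw [← Equiv.Perm.mul_apply, inv_mul_cancel, Equiv.Perm.one_apply] at this
      rw [map_inv, inv_inv, this]
      simp
    | mul x y hx hy =>
      intro ω
      rw [map_mul, mul_inv_rev, Equiv.Perm.mul_apply, hy, hx, map_mul, mul_assoc]
  choose σ hσ using hsurj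
  have h1 : ∀ g, ∃ c : X g, (Ψ (σ g))⁻¹ ⟨1, x0⟩ = ⟨g, c⟩ := by
    intro g
    have := hfst (σ g) ⟨1, x0⟩
    rw [hσ, one_mul] at this
    generalize (Ψ (σ g))⁻¹ ⟨1, x0⟩ = z at this
    obtain ⟨g', c⟩ := z
    cases this
    exact ⟨c, rfl⟩
  choose c hc using h1
  refine ⟨c, fun g s => ?_⟩
  have e : Ψ (σ (g * pi (FreeGroup.of s))) = Ψ (σ g * FreeGroup.of s) := by
    rw [← mul_inv_eq_one, ← map_inv, ← map_mul]
    apply hΨ
    simp [MonoidHom.mem_ker, hσ]
  have := hc (g * pi (FreeGroup.of s))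
  rw [e, map_mul, mul_inv_rev, Equiv.Perm.mul_apply, hc] at this
  simp only [Ψ, FreeGroup.lift_apply_of, inv_inv] at this
  exact (eq_of_heq (Sigma.mk.inj this).2).symm

end

end Crest.Agent.GSC.Topo
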