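import Mathlib

/-! Products of conjugates (algebraic planarity). -/

set_option autoImplicit false

namespace Crest.Agent.GSC

section Cj
variable {G H : Type*} [Group G] [Group H]

/-- `CjP l x`: `x` is a product of conjugates of the members of `l` (in order). -/
inductive CjP : List G → G → Prop
  | nil : CjP [] 1
  | cons (a g : G) {l : List G} {x : G} : CjP l x → CjP (a :: l) (g * a * g⁻¹ * x)

/-- `1` is a product of conjugates of the members of `l`. -/
def Cj (l : List G) : Prop := CjP l 1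

theorem CjP.nil_iff {x : G} : CjP [] x ↔ x = 1 :=
  ⟨fun h => by cases h; rfl, fun h => h ▸ CjP.nil⟩

theorem CjP.cons_iff {a x : G} {l : List G} :
    CjP (a :: l) x ↔ ∃ g y, CjP l y ∧ x = g * a * g⁻¹ * y :=
  ⟨fun h => by cases h with | cons _ g h => exact ⟨g, _, h, rfl⟩,
   fun ⟨g, _, h, e⟩ => e ▸ CjP.cons a g h⟩

theorem CjP.conj {l : List G} {x : G} (h : CjP l x) (k : G) : CjP l (k * x * k⁻¹) := by
  induction h with
  | nil => simpa using CjP.nil
  | cons a g _ ih =>
    exact CjP.cons_iff.2 ⟨k * g, _, ih, by group⟩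

theorem CjP.append {l l' : List G} {x y : G} (h : CjP l x) (h' : CjP l' y) :
    CjP (l ++ l') (x * y) := by
  induction h with
  | nil => simpa using h'
  | cons a g _ ih => exact CjP.cons_iff.2 ⟨g, _, ih, by group⟩

theorem CjP.perm {l l' : List G} (p : l.Perm l') : ∀ {x : G}, CjP l x → CjP l' x := by
  induction p with
  | nil => exact fun h => h
  | cons a _ ih =>
    intro x h
    obtain ⟨g, y, hy, rfl⟩ := CjP.cons_iff.1 h
    exact CjP.cons a g (ih hy)
  | swap a b l =>
    intro x h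
    obtain ⟨g, y, hy, rfl⟩ := CjP.cons_iff.1 h
    obtain ⟨g', y', hy', rfl⟩ := CjP.cons_iff.1 hy
    exact CjP.cons_iff.2 ⟨g * b * g⁻¹ * g', _, CjP.cons b g hy', by group⟩
  | trans _ _ ih1 ih2 => exact fun h => ih2 (ih1 h)

theorem CjP.map {l : List G} {x : G} (f : G →* H) (h : CjP l x) : CjP (l.map f) (f x) := by
  induction h with
  | nil => simpa using CjP.nil
  | cons a g _ ih => exact CjP.cons_iff.2 ⟨f g, _, ih, by simp⟩

theorem CjP.of_isConj {ι : Type*} {a b : ι → G} :
    ∀ {fs : List ι} {x : G}, (∀ f ∈ fs, IsConj (a f) (b f)) → CjP (fs.map a) x →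
      CjP (fs.map b) x
  | [], _, _, h => h
  | f :: fs, x, hc, h => by
    obtain ⟨g, y, hy, rfl⟩ := CjP.cons_iff.1 h
    obtain ⟨c, hc'⟩ := isConj_iff.1 (hc f (by simp))
    refine CjP.cons_iff.2 ⟨g * c⁻¹, y,
      CjP.of_isConj (fun f' hf' => hc f' (by simp [hf'])) hy, ?_⟩
    rw [← hc']; group

theorem CjP.comm {M : Type*} [CommGroup M] {l : List G} {x : G} (f : G →* M) (h : CjP l x) :
    f x = (l.map f).prod := by
  induction h with
  | nil => simp
  | cons a g _ ih => simp [ih]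

theorem Cj.cons_iff {a : G} {l : List G} : Cj (a :: l) ↔ CjP l a⁻¹ := by
  constructor
  · intro h
    obtain ⟨g, y, hy, e⟩ := CjP.cons_iff.1 h
    have := hy.conj g⁻¹
    have e2 : g⁻¹ * y * g⁻¹⁻¹ = a⁻¹ := by
      have : y = (g * a * g⁻¹)⁻¹ := eq_inv_of_mul_eq_one_right e.symm
      rw [this]; group
    rwa [e2] at this
  · intro h
    exact CjP.cons_iff.2 ⟨1, _, h, by group⟩

theorem Cj.perm {l l' : List G} (p : l.Perm l') (h : Cj l) : Cj l' := CjP.perm p h

theorem Cj.map {l : List G} (f : G →* H) (h : Cj l) : Cj (l.map f) := by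
  simpa [Cj] using CjP.map f h

theorem Cj.append {l l' : List G} (h : Cj l) (h' : Cj l') : Cj (l ++ l') := by
  simpa [Cj] using CjP.append h h'

theorem Cj.nil : Cj ([] : List G) := CjP.nil

theorem Cj.of_isConj {a b : G} {l : List G} (hc : IsConj a b) (h : Cj (a :: l)) :
    Cj (b :: l) := by
  obtain ⟨c, rfl⟩ := isConj_iff.1 hc
  rw [Cj.cons_iff] at h ⊢
  have := h.conj c
  convert this using 1; group

theorem Cj.one_cons {l : List G} : Cj (1 :: l) ↔ Cj l := by
  rw [Cj.cons_iff]; simp [Cj]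

theorem Cj.of_mul {a b : G} {l : List G} (h : Cj (a * b :: l)) : Cj (a :: b :: l) := by
  rw [Cj.cons_iff] at h ⊢
  exact CjP.cons_iff.2 ⟨1, _, h, by group⟩

theorem Cj.exists_mul {a b : G} {l : List G} (h : Cj (a :: b :: l)) :
    ∃ g, Cj (a * (g * b * g⁻¹) :: l) := by
  rw [Cj.cons_iff] at h
  obtain ⟨g, y, hy, e⟩ := CjP.cons_iff.1 h
  refine ⟨g, Cj.cons_iff.2 ?_⟩
  convert hy using 1
  rw [mul_inv_rev, e]; group

theorem Cj.cancel {a : G} {l l' : List G} (h : Cj (a⁻¹ :: l)) (h' : Cj (a :: l')) :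
    Cj (l ++ l') := by
  rw [Cj.cons_iff] at h h'
  simpa [Cj] using h.append h'

theorem Cj.mul {a b : G} {l l' : List G} (h : Cj (a :: l)) (h' : Cj (b :: l')) :
    Cj (a * b :: (l ++ l')) := by
  rw [Cj.cons_iff] at h h' ⊢
  rw [mul_inv_rev]
  exact CjP.perm List.perm_append_comm (h'.append h)

theorem Cj.pair (a : G) : Cj [a⁻¹, a] := by
  rw [Cj.cons_iff]
  exact CjP.cons_iff.2 ⟨1, 1, CjP.nil, by group⟩

theorem Cj.inv {l : List G} (h : Cj l) : Cj (l.map fun a => a⁻¹) := by
  have : ∀ {l : List G} {x : G}, CjP l x → CjP (l.map fun a => a⁻¹) x⁻¹ := by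
    intro l x h
    induction h with
    | nil => simpa using CjP.nil
    | @cons a g l x _ ih =>
      refine CjP.cons_iff.2 ⟨x⁻¹ * g, _, ih, by group⟩
  simpa [Cj] using this h

/-- the embedding at level one of the wreath product with `ℤˣ` -/
def lev1 : G →* (G ≀ᵣ ℤˣ) where
  toFun a := ⟨fun q => if q = 1 then a else 1, 1⟩
  map_one' := by ext <;> simp
  map_mul' a b := by
    ext q
    · by_cases h : q = 1 <;> simp [h]
    · simp

/-- the level swap -/
def swp : G ≀ᵣ ℤˣ := ⟨1, -1⟩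

theorem CjP.wreath {ι : Type*} (a : ι → G) :
    ∀ {fs : List ι} {z : G ≀ᵣ ℤˣ}, CjP (fs.map fun f => lev1 (a f)) z →
      ∃ f1 f2 : List ι, fs.Perm (f1 ++ f2) ∧ z.right = 1 ∧
        CjP (f1.map a) (z.left 1) ∧ CjP (f2.map a) (z.left (-1))
  | [], z, h => by
    rw [List.map_nil, CjP.nil_iff] at h
    subst h
    exact ⟨[], [], by simp, rfl, CjP.nil, CjP.nil⟩
  | f :: fs, z, h => by
    obtain ⟨g, y, hy, rfl⟩ := CjP.cons_iff.1 h
    obtain ⟨f1, f2, hp, hr, h1, h2⟩ := CjP.wreath a hy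
    rcases Int.units_eq_one_or g.right with hg | hg
    · refine ⟨f :: f1, f2, by simpa using hp, by simp [lev1, hr], ?_, ?_⟩
      · refine CjP.cons_iff.2 ⟨g.left 1, _, h1, ?_⟩
        simp [lev1, hg]
      · convert h2 using 1
        simp [lev1, hg]
    · refine ⟨f1, f :: f2, ?_, by simp [lev1, hr], ?_, ?_⟩
      · exact (hp.cons f).trans List.perm_middle.symm
      · convert h1 using 1
        simp [lev1, hg]
      · refine CjP.cons_iff.2 ⟨g.left (-1), _, h2, ?_⟩
        simp [lev1, hg]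

/-- the splitting principle -/
theorem Cj.split_of_hom {ι : Type*} {a : ι → G} {fs : List ι} {w x y : G}
    (θ : G →* G ≀ᵣ ℤˣ) (hw : θ w = swp * lev1 x * swp⁻¹ * lev1 y)
    (hf : ∀ f ∈ fs, IsConj (θ (a f)) (lev1 (a f))) (h : Cj (w :: fs.map a)) :
    ∃ f1 f2 : List ι, fs.Perm (f1 ++ f2) ∧ Cj (x :: f1.map a) ∧ Cj (y :: f2.map a) := by
  have h1 := (Cj.cons_iff.1 h).map θ
  rw [List.map_map] at h1
  have h2 := CjP.of_isConj (a := θ ∘ a) (b := fun f => lev1 (a f)) hf h1
  obtain ⟨f1, f2, hp, -, h3, h4⟩ := CjP.wreath a h2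
  refine ⟨f2, f1, hp.trans List.perm_append_comm, Cj.cons_iff.2 ?_, Cj.cons_iff.2 ?_⟩
  · convert h4 using 1
    simp [hw, lev1, swp]
  · convert h3 using 1
    simp [hw, lev1, swp]

end Cj

section Words
variable {E : Type*}
open FreeGroup (mk of lift invRev mul_mk inv_mk)

/-- the inverse letter -/
def bar (x : E × Bool) : E × Bool := (x.1, !x.2)

@[simp] theorem bar_bar (x : E × Bool) : bar (bar x) = x := by simp [bar]
@[simp] theorem bar_fst (x : E × Bool) : (bar x).1 = x.1 := rfl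
@[simp] theorem bar_snd (x : E × Bool) : (bar x).2 = !x.2 := rfl
theorem bar_ne (x : E × Bool) : bar x ≠ x := by
  rcases x with ⟨e, b⟩; cases b <;> simp [bar]
theorem bar_injective : Function.Injective (bar : E × Bool → E × Bool) :=
  Function.Involutive.injective bar_bar
theorem eq_or_bar {x y : E × Bool} (h : y.1 = x.1) : y = x ∨ y = bar x := by
  rcases x with ⟨e, b⟩; rcases y with ⟨e', b'⟩
  simp only at h; subst h
  cases b <;> cases b' <;> simp [bar]

/-- the inversion of letters as a permutation -/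
def barP : Equiv.Perm (E × Bool) := Function.Involutive.toPerm bar bar_bar
@[simp] theorem barP_apply (x : E × Bool) : barP x = bar x := rfl

theorem mk_cons (x : E × Bool) (l : List (E × Bool)) : mk (x :: l) = mk [x] * mk l := by
  rw [mul_mk]; rfl

theorem mk_append (l l' : List (E × Bool)) : mk (l ++ l') = mk l * mk l' := mul_mk.symm

theorem mk_nil : mk ([] : List (E × Bool)) = 1 := rfl

theorem mk_bar (x : E × Bool) : mk [bar x] = (mk [x])⁻¹ := by
  rw [inv_mk]; rfl

theorem isConj_rot (l l' : List (E × Bool)) : IsConj (mk (l ++ l')) (mk (l' ++ l)) := by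
  rw [mk_append, mk_append]
  exact isConj_iff.2 ⟨(mk l)⁻¹, by group⟩

variable {G : Type*} [Group G]

theorem hom_mk_congr (θ θ' : FreeGroup E →* G) :
    ∀ l : List (E × Bool), (∀ x ∈ l, θ (of x.1) = θ' (of x.1)) → θ (mk l) = θ' (mk l)
  | [], _ => by simp [mk_nil]
  | x :: l, h => by
    rw [mk_cons, map_mul, map_mul, hom_mk_congr θ θ' l fun y hy => h y (by simp [hy])]
    congr 1
    have := h x (by simp)
    rcases x with ⟨e, b⟩
    cases b
    · have e1 : mk [(e, false)] = (of e)⁻¹ := mk_bar (e, true)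
      rw [e1, map_inv, map_inv, this]
    · exact this

/-- a homomorphism with prescribed value on one letter -/
theorem exists_hom_letter (B : FreeGroup E →* G) (x : E × Bool) (t : G) :
    ∃ θ : FreeGroup E →* G, θ (mk [x]) = t ∧
      ∀ l : List (E × Bool), (∀ y ∈ l, y.1 ≠ x.1) → θ (mk l) = B (mk l) := by
  classical
  refine ⟨lift fun e => if e = x.1 then (if x.2 then t else t⁻¹) else B (of e), ?_, ?_⟩
  · rcases x with ⟨e, b⟩; cases b <;> simp
  · intro l hl
    exact hom_mk_congr _ _ l fun y hy => by simp [hl y hy]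

theorem merge_edge {ι : Type*} {wd : ι → List (E × Bool)} {fs : List ι} {x : E × Bool}
    {α β : List (E × Bool)} (hα : ∀ y ∈ α, y.1 ≠ x.1) (hβ : ∀ y ∈ β, y.1 ≠ x.1)
    (hf : ∀ f ∈ fs, ∀ y ∈ wd f, y.1 ≠ x.1)
    (h : Cj (mk (x :: α) :: mk (bar x :: β) :: fs.map fun f => mk (wd f))) :
    Cj (mk (α ++ β) :: fs.map fun f => mk (wd f)) := by
  obtain ⟨θ, h1, h2⟩ := exists_hom_letter (MonoidHom.id _) x (mk α)⁻¹
  have h3 := h.map θ
  simp only [List.map_cons, List.map_map] at h3
  rw [mk_cons, mk_cons (bar x), mk_bar, map_mul, map_mul, map_inv, h1, h2 α hα, h2 β hβ] at h3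
  simp only [MonoidHom.id_apply, inv_mul_cancel, inv_inv, Cj.one_cons] at h3
  rw [mk_append]
  convert h3 using 2
  exact List.map_congr_left fun f hf' => by simp [h2 _ (hf f hf')]

theorem split_edge {ι : Type*} {wd : ι → List (E × Bool)} {fs : List ι} {x : E × Bool}
    {α β : List (E × Bool)} (hα : ∀ y ∈ α, y.1 ≠ x.1) (hβ : ∀ y ∈ β, y.1 ≠ x.1)
    (hf : ∀ f ∈ fs, ∀ y ∈ wd f, y.1 ≠ x.1)
    (h : Cj (mk (x :: α ++ bar x :: β) :: fs.map fun f => mk (wd f))) :
    ∃ f1 f2 : List ι, fs.Perm (f1 ++ f2) ∧ Cj (mk α :: f1.map fun f => mk (wd f)) ∧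
      Cj (mk β :: f2.map fun f => mk (wd f)) := by
  obtain ⟨θ, h1, h2⟩ := exists_hom_letter (lev1 (G := FreeGroup E)) x swp
  refine Cj.split_of_hom θ ?_ (fun f hf' => by rw [h2 _ (hf f hf')]) h
  rw [List.cons_append, mk_cons, mk_append, mk_cons (bar x), mk_bar]
  simp only [map_mul, map_inv, h1, h2 α hα, h2 β hβ, mul_assoc]

theorem delete_edge {ι : Type*} {wd : ι → List (E × Bool)} {fs : List ι} {x : E × Bool}
    {α β : List (E × Bool)} (hα : ∀ y ∈ α, y.1 ≠ x.1) (hβ : ∀ y ∈ β, y.1 ≠ x.1)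
    (hf : ∀ f ∈ fs, ∀ y ∈ wd f, y.1 ≠ x.1)
    (h : Cj (mk (x :: α ++ bar x :: β) :: fs.map fun f => mk (wd f))) :
    Cj (mk (α ++ β) :: fs.map fun f => mk (wd f)) := by
  obtain ⟨f1, f2, hp, h1, h2⟩ := split_edge hα hβ hf h
  have := h1.mul h2
  rw [← mk_append, ← List.map_append] at this
  exact this.perm ((hp.symm.map _).cons _)

/-- every letter of a planar system occurs with both signs -/
theorem bar_mem {ws : List (List (E × Bool))} (hn : ws.flatten.Nodup) (h : Cj (ws.map mk))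
    {x : E × Bool} (hx : x ∈ ws.flatten) : bar x ∈ ws.flatten := by
  classical
  by_contra hb
  obtain ⟨θ, h1, h2⟩ := exists_hom_letter (1 : FreeGroup E →* Multiplicative ℤ) x
    (Multiplicative.ofAdd 1)
  have h3 := CjP.comm θ h
  have h4 : ∀ ws : List (List (E × Bool)), ((ws.map mk).map θ).prod = θ (mk ws.flatten) := by
    intro ws
    induction ws with
    | nil => simp [mk_nil]
    | cons w ws ih => simp only [List.map_cons, List.prod_cons, ih, List.flatten_cons,
        mk_append, map_mul]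
  rw [h4, map_one] at h3
  obtain ⟨u, v, huv⟩ := List.append_of_mem hx
  rw [huv] at h3 hn hb
  have hu : ∀ y ∈ u, y.1 ≠ x.1 := by
    intro y hy e
    rcases eq_or_bar e with rfl | rfl
    · exact (List.nodup_append.1 hn).2.2 _ hy _ (by simp) rfl
    · exact hb (by simp [hy])
  have hv : ∀ y ∈ v, y.1 ≠ x.1 := by
    intro y hy e
    rcases eq_or_bar e with rfl | rfl
    · exact (List.nodup_cons.1 (List.nodup_append.1 hn).2.1).1 hy
    · exact hb (by simp [hy])
  rw [mk_append, mk_cons, map_mul, map_mul, h1, h2 u hu, h2 v hv] at h3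
  have := congrArg Multiplicative.toAdd h3
  simp at this

end Words

end Crest.Agent.GSC
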