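import Crest.Agent.GSC.Defs
import Crest.Prelude.Def_WordHyperbolic
import Crest.Prelude.Def_ClassifyingComplex

/-! Interface of the core theorem on random graphical presentations. -/

set_option autoImplicit false

namespace Crest.Agent.GSC

namespace Design

variable {S V D C : Type} [Fintype D] [DecidableEq C] (Γ : Design S V D C)

/-- labels of closed paths -/
def rels (β : D → D) : Set (FreeGroup S) :=
  {w | ∃ x p, Γ.Path β x p x ∧ w = FreeGroup.mk (p.map Γ.lab)}

/-- the graphical group -/
abbrev Grp (β : D → D) : Type := PresentedGroup (Γ.rels β)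

/-- the group element read along a word -/
def ev (β : D → D) (w : List (S × Bool)) : Γ.Grp β :=
  PresentedGroup.mk (Γ.rels β) (FreeGroup.mk w)

/-- what the core theorem delivers -/
structure CoreOut (β : D → D) (xs : V) : Prop where
  isM : Γ.IsM β
  emb : ∀ y p, Γ.Path β xs p y → Γ.ev β (p.map Γ.lab) = 1 → y = xs
  tf : ∀ g : Γ.Grp β, IsOfFinOrder g → g = 1
  hyp : Crest.GroupTheory.IsHyperbolicGroup (Γ.Grp β)
  fp : Group.IsFinitelyPresented (Γ.Grp β)
  cc : Crest.Topology.HasFiniteClassifyingComplex (Γ.Grp β) 2

end Design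

/-- The core theorem. -/
def CoreStmt : Prop :=
  ∀ (S : Type) [Fintype S] (w : Weights S), ∃ N0 : ℕ,
    ∀ (V D C : Type) [Fintype V] [Fintype D] [DecidableEq C]
      (Γ : Design S V D C) (N : ℕ) (xs : V), N0 ≤ N → Γ.Large w N →
      ∃ β : D → D, Γ.CoreOut β xs

/-- Discrete Stokes bound: for `1`-Lipschitz integer functions `f g` on the Cayley graph the sum
of `(f p + f q) * (g q - g p)` over the steps `p → q` of a closed path is at most `lam` times its
length. `walk p w` lists the steps. -/
def steps {G S : Type} [Group G] (gen : S → G) : G → List (S × Bool) → List (G × G)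
  | _, [] => []
  | p, a :: w => (p, p * (if a.2 then gen a.1 else (gen a.1)⁻¹)) ::
      steps gen (p * (if a.2 then gen a.1 else (gen a.1)⁻¹)) w

theorem steps_eqns : True := by
  have := @steps.eq_def
  have := @steps.eq_1
  have := @steps.eq_2
  trivial

/-- the linear Stokes property -/
def StokesBound {G S : Type} [Group G] (gen : S → G) (lam : ℕ) : Prop :=
  ∀ f g : G → ℤ, (∀ p s, |f (p * gen s) - f p| ≤ 1) → (∀ p s, |g (p * gen s) - g p| ≤ 1) →
    ∀ (p : G) (w : List (S × Bool)), FreeGroup.lift gen (FreeGroup.mk w) = 1 →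
      |((steps gen p w).map fun e => (f e.1 + f e.2) * (g e.2 - g e.1)).sum| ≤ lam * w.length

end Crest.Agent.GSC
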