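import Crest.Agent.GSC.Slim
import Crest.Agent.GSC.Iface

/-! Hyperbolicity from the linear Stokes bound. -/

set_option autoImplicit false
set_option linter.unusedSectionVars false
set_option linter.style.haveILetI false

namespace Crest.Agent.GSC.Slim
open Finset Crest.GroupTheory

variable {P G : Type} [Group G] {π : FreeGroup P →* G}

def linv (s : P × Bool) : P × Bool := (s.1, !s.2)

def lt (π : FreeGroup P →* G) (s : P × Bool) : G := π (FreeGroup.mk [s])

lemma lt_linv (π : FreeGroup P →* G) (s : P × Bool) : lt π (linv s) = (lt π s)⁻¹ := by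
  unfold lt
  rw [← map_inv, FreeGroup.inv_mk]; rfl

lemma pi_cons (π : FreeGroup P →* G) (s : P × Bool) (l : List (P × Bool)) :
    π (FreeGroup.mk (s :: l)) = lt π s * π (FreeGroup.mk l) := by
  unfold lt; rw [← map_mul, FreeGroup.mul_mk]; rfl

lemma pi_nil (π : FreeGroup P →* G) : π (FreeGroup.mk []) = 1 := by
  rw [← FreeGroup.one_eq_mk, map_one]

lemma exists_mk (a : FreeGroup P) : ∃ l, FreeGroup.mk l = a := Quot.exists_rep a

section Hyp
variable [Fintype P] [DecidableEq G]

def genS (π : FreeGroup P →* G) : Finset G := univ.image (fun p => π (FreeGroup.of p))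

lemma lt_true (p : P) : lt π (p, true) = π (FreeGroup.of p) := rfl
lemma lt_false (p : P) : lt π (p, false) = (π (FreeGroup.of p))⁻¹ := lt_linv π (p, true)

lemma prod_map_lt (l : List (P × Bool)) : (l.map (lt π)).prod = π (FreeGroup.mk l) := by
  induction l with
  | nil => simp [pi_nil]
  | cons s l ih => simp [pi_cons, ih]

lemma wl_le (l : List (P × Bool)) :
    wordLength (genS π : Set G) (π (FreeGroup.mk l)) ≤ l.length := by
  apply Nat.sInf_le
  refine ⟨l.map (lt π), by simp, ?_, prod_map_lt l⟩
  intro x hx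
  obtain ⟨⟨p, b⟩, _, rfl⟩ := List.mem_map.1 hx
  cases b
  · right; rw [lt_false, inv_inv]; simp [genS]
  · left; rw [lt_true]; simp [genS]

lemma wl_ex (hs : Function.Surjective π) (g : G) :
    ∃ l, π (FreeGroup.mk l) = g ∧ l.length = wordLength (genS π : Set G) g := by
  have hne : {n : ℕ | ∃ l : List G, l.length = n ∧
      (∀ x ∈ l, x ∈ (genS π : Set G) ∨ x⁻¹ ∈ (genS π : Set G)) ∧ l.prod = g}.Nonempty := by
    obtain ⟨a, rfl⟩ := hs g
    obtain ⟨l, rfl⟩ := exists_mk a
    refine ⟨_, l.map (lt π), rfl, ?_, prod_map_lt l⟩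
    intro x hx
    obtain ⟨⟨p, b⟩, _, rfl⟩ := List.mem_map.1 hx
    cases b
    · right; rw [lt_false, inv_inv]; simp [genS]
    · left; rw [lt_true]; simp [genS]
  obtain ⟨L, h1, h2, h3⟩ := Nat.sInf_mem hne
  have : ∀ L : List G, (∀ x ∈ L, x ∈ (genS π : Set G) ∨ x⁻¹ ∈ (genS π : Set G)) →
      ∃ l : List (P × Bool), l.map (lt π) = L := by
    intro L hL
    induction L with
    | nil => exact ⟨[], rfl⟩
    | cons x L ih =>
      obtain ⟨l, hl⟩ := ih (fun y hy => hL y (by simp [hy]))
      rcases hL x (by simp) with h | h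
      · simp only [genS, coe_image, coe_univ, Set.image_univ, Set.mem_range] at h
        obtain ⟨p, hp⟩ := h
        exact ⟨(p, true) :: l, by simp [hl, lt_true, hp]⟩
      · simp only [genS, coe_image, coe_univ, Set.image_univ, Set.mem_range] at h
        obtain ⟨p, hp⟩ := h
        exact ⟨(p, false) :: l, by simp [hl, lt_false, hp]⟩
  obtain ⟨l, rfl⟩ := this L h2
  refine ⟨l, by rw [← prod_map_lt, h3], ?_⟩
  rw [List.length_map] at h1
  exact h1

noncomputable def gd (π : FreeGroup P →* G) (a b : G) : ℕ := wordLength (genS π : Set G) (a⁻¹ * b)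

lemma gd_mul (a b c : G) : gd π (a * b) (a * c) = gd π b c := by
  unfold gd; congr 1; group

lemma gd_le (a : G) (l : List (P × Bool)) : gd π a (a * π (FreeGroup.mk l)) ≤ l.length := by
  unfold gd; rw [inv_mul_cancel_left]; exact wl_le l

lemma gd_ex (hs : Function.Surjective π) (a b : G) :
    ∃ l, a * π (FreeGroup.mk l) = b ∧ l.length = gd π a b := by
  obtain ⟨l, h1, h2⟩ := wl_ex hs (a⁻¹ * b)
  exact ⟨l, by rw [h1]; group, h2⟩

lemma gm_gd (hs : Function.Surjective π) : GM (gd π) := by
  have tri : ∀ x y z, gd π x z ≤ gd π x y + gd π y z := by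
    intro x y z
    obtain ⟨l, rfl, h1⟩ := gd_ex hs x y
    obtain ⟨l', rfl, h2⟩ := gd_ex hs (x * π (FreeGroup.mk l)) z
    rw [← h1, ← h2, mul_assoc, ← map_mul, FreeGroup.mul_mk, ← List.length_append]
    exact gd_le _ _
  have sy : ∀ x y, gd π x y ≤ gd π y x := by
    intro x y
    obtain ⟨l, rfl, h1⟩ := gd_ex hs y x
    have := gd_le (π := π) (y * π (FreeGroup.mk l)) (FreeGroup.invRev l)
    rw [← FreeGroup.inv_mk, map_inv, mul_inv_cancel_right, FreeGroup.invRev_length] at this
    omega
  refine ⟨fun x => ?_, fun x y => le_antisymm (sy x y) (sy y x), tri, fun x y => ?_⟩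
  · have := gd_le (π := π) x []
    simpa [pi_nil] using this
  · obtain ⟨l, rfl, h1⟩ := gd_ex hs x y
    have hle : ∀ i j, i ≤ j → j ≤ l.length →
        gd π (x * π (FreeGroup.mk (l.take i))) (x * π (FreeGroup.mk (l.take j))) ≤ j - i := by
      intro i j hij hj
      have := gd_le (π := π) (x * π (FreeGroup.mk (l.take i))) ((l.take j).drop i)
      rw [mul_assoc, ← map_mul, FreeGroup.mul_mk, List.length_drop, List.length_take,
        min_eq_left hj] at this
      have e : l.take i ++ (l.take j).drop i = l.take j := by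
        conv_rhs => rw [← List.take_append_drop i (l.take j), List.take_take, min_eq_left hij]
      rwa [e] at this
    refine ⟨fun i => x * π (FreeGroup.mk (l.take i)), by simp [pi_nil], by simp [← h1], ?_⟩
    intro i j hij hj
    rw [← h1] at hj
    refine le_antisymm (hle i j hij hj) ?_
    have t1 := hle 0 i (by omega) (by omega)
    have t2 := hle j l.length hj le_rfl
    have t3 := tri x (x * π (FreeGroup.mk (l.take i))) (x * π (FreeGroup.mk l))
    have t4 := tri (x * π (FreeGroup.mk (l.take i))) (x * π (FreeGroup.mk (l.take j)))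
      (x * π (FreeGroup.mk l))
    simp only [List.take_zero, pi_nil, mul_one, List.take_length] at t1 t2
    beta_reduce
    omega

lemma gd_lt (a : G) (s : P × Bool) : gd π a (a * lt π s) ≤ 1 := gd_le a [s]

lemma lt_lift (gen : P → G) (s : P × Bool) :
    lt (FreeGroup.lift gen) s = if s.2 then gen s.1 else (gen s.1)⁻¹ := by
  obtain ⟨p, b⟩ := s
  cases b
  · rw [lt_false]; simp
  · rw [lt_true]; simp

lemma ab_of_stokes (gen : P → G) (hs : Function.Surjective (FreeGroup.lift gen)) (lam : ℕ)
    (h : StokesBound gen lam) : AB (gd (FreeGroup.lift gen)) lam := by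
  intro φ ψ hφ hψ x n A hp
  set π := FreeGroup.lift gen with hπ
  have key : ∀ {a b n A}, Pth (gd π) φ ψ a b n A →
      ∃ w, w.length ≤ n ∧ a * π (FreeGroup.mk w) = b ∧
        A = ((steps gen a w).map fun e => (φ e.1 + φ e.2) * (ψ e.2 - ψ e.1)).sum := by
    intro a b n A h
    induction h with
    | refl x => exact ⟨[], le_rfl, by simp [pi_nil], rfl⟩
    | @step x x' y n A h1 _ ih =>
      obtain ⟨w, w1, w2, w3⟩ := ih
      obtain ⟨l, rfl, l1⟩ := gd_ex hs x x'
      rw [← l1] at h1
      match l, h1 with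
      | [], _ =>
        simp only [pi_nil, mul_one] at w2 w3 ⊢
        exact ⟨w, by omega, w2, by simp [w3]⟩
      | [s], _ =>
        have e : π (FreeGroup.mk [s]) = if s.2 then gen s.1 else (gen s.1)⁻¹ := lt_lift gen s
        refine ⟨s :: w, by simpa using w1, by rw [pi_cons, ← mul_assoc]; exact w2, ?_⟩
        rw [w3, e]
        simp [steps]
  obtain ⟨w, w1, w2, w3⟩ := key hp
  have hw : π (FreeGroup.mk w) = 1 := by simpa using w2
  have hl : ∀ f : G → ℤ, Lip (gd π) f → ∀ p s, |f (p * gen s) - f p| ≤ 1 := by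
    intro f hf p s
    have := hf _ _ (gd_lt (π := π) p (s, true))
    rw [lt_lift, abs_sub_comm] at this
    simpa using this
  have := h φ ψ (hl φ hφ) (hl ψ hψ) x w hw
  rw [← w3] at this
  refine this.trans ?_
  have : (w.length : ℤ) ≤ n := by exact_mod_cast w1
  exact mul_le_mul_of_nonneg_left this (by positivity)

end Hyp

end Crest.Agent.GSC.Slim

namespace Crest.Agent.GSC
open Slim Finset Crest.GroupTheory

theorem hyp_of_stokes {G S : Type} [Group G] [Fintype S] (gen : S → G)
    (hgen : Subgroup.closure (Set.range gen) = ⊤) (lam : ℕ) (h : StokesBound gen lam) :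
    IsHyperbolicGroup G := by
  classical
  have hs : Function.Surjective (FreeGroup.lift gen) := by
    rw [← MonoidHom.range_eq_top, FreeGroup.range_lift_eq_closure, hgen]
  have hC' := ab_of_stokes gen hs lam h
  set π := FreeGroup.lift gen with hπ
  obtain ⟨δ, hδ⟩ := four_point (gm_gd hs) hC'
  refine ⟨genS π, ?_, δ / 2, by positivity, fun w x y z => ?_⟩
  · rw [eq_top_iff]
    intro g _
    obtain ⟨a, rfl⟩ := hs g
    induction a using FreeGroup.induction_on with
    | C1 => simp
    | of p => exact Subgroup.subset_closure (by simp [genS])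
    | inv_of p ih => rw [map_inv]; exact inv_mem (ih (Subgroup.mem_top _))
    | mul a b h1 h2 =>
      rw [map_mul]; exact mul_mem (h1 (Subgroup.mem_top _)) (h2 (Subgroup.mem_top _))
  · have := hδ w x y z
    unfold gd at this
    unfold gromovProduct wordDist
    rcases this with h | h
    · refine le_trans (sub_le_sub_right (min_le_left _ _) _) ?_
      have : ((_ : ℕ) : ℝ) ≤ ((_ : ℕ) : ℝ) := Nat.cast_le.2 h
      push_cast at this
      linarith
    · refine le_trans (sub_le_sub_right (min_le_right _ _) _) ?_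
      have : ((_ : ℕ) : ℝ) ≤ ((_ : ℕ) : ℝ) := Nat.cast_le.2 h
      push_cast at this
      linarith

end Crest.Agent.GSC
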