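import Mathlib

/-! Equivariant attaching of free orbits of cells. -/

set_option autoImplicit false

open scoped Topology

namespace Crest.Agent.GSC.Topo

/-- a model cell: depth function (vanishing on the boundary) and a collar -/
structure Cell (D : Type) [TopologicalSpace D] where
  /-- depth -/
  d : C(D, ℝ)
  /-- cut-off function -/
  m : C(D, ℝ)
  /-- collar -/
  K : Set D
  K_closed : IsClosed K
  m_bd : ∀ x, d x = 0 → m x = 1
  m_K : ∀ x, x ∉ K → m x = 0
  sep : ∀ x y : D, x ≠ y → ∃ k : C(D, ℝ), k x ≠ k y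

/-- every point has a wandering neighbourhood cut out by a function -/
def Wand (G A : Type) [Group G] [MulAction G A] [TopologicalSpace A] : Prop :=
  ∀ a : A, ∃ f : C(A, ℝ), f a ≠ 0 ∧ ∀ (g : G) x, f x ≠ 0 → f (g • x) ≠ 0 → g = 1

/-- orbits are separated by invariant functions -/
def Sep (G A : Type) [Group G] [MulAction G A] [TopologicalSpace A] : Prop :=
  ∀ a a' : A, (∀ g : G, g • a ≠ a') → ∃ f : C(A, ℝ), (∀ (g : G) x, f (g • x) = f x) ∧ f a ≠ f a'

variable {D : Type} [TopologicalSpace D] (c : Cell D) (G : Type) {L A : Type} (φ : L → D → A)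

/-- the space obtained by attaching cells -/
def Att (c : Cell D) (G : Type) {L A : Type} (_φ : L → D → A) : Type :=
  A ⊕ (G × L × {x : D // c.d x ≠ 0})

namespace Att

variable {G}

/-- inclusion of the old space -/
def inl (G : Type) (a : A) : Att c G φ := Sum.inl a

/-- points of the new open cells -/
def inr (g : G) (l : L) (x : {x : D // c.d x ≠ 0}) : Att c G φ := Sum.inr (g, l, x)

theorem cases' (z : Att c G φ) : (∃ a, z = inl c φ G a) ∨ ∃ g l x, z = inr c φ g l x := by
  rcases z with a | ⟨g, l, x⟩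
  · exact Or.inl ⟨a, rfl⟩
  · exact Or.inr ⟨g, l, x, rfl⟩

variable [Group G] [MulAction G A]

open Classical in
/-- characteristic maps -/
noncomputable def chi (g : G) (l : L) (x : D) : Att c G φ :=
  if h : c.d x = 0 then inl c φ G (g • φ l x) else inr c φ g l ⟨x, h⟩

theorem chi_bd (g : G) (l : L) {x : D} (h : c.d x = 0) : chi c φ g l x = inl c φ G (g • φ l x) :=
  dif_pos h

theorem chi_int (g : G) (l : L) {x : D} (h : c.d x ≠ 0) : chi c φ g l x = inr c φ g l ⟨x, h⟩ :=
  dif_neg h

theorem cases (z : Att c G φ) : (∃ a, z = inl c φ G a) ∨ ∃ g l x, z = chi c φ g l x := by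
  rcases cases' c φ z with h | ⟨g, l, x, rfl⟩
  · exact Or.inl h
  · exact Or.inr ⟨g, l, x.1, (chi_int c φ g l x.2).symm⟩

instance : MulAction G (Att c G φ) where
  smul g z := Sum.map (g • ·) (fun y => (g * y.1, y.2)) z
  one_smul z := by
    rcases z with a | y
    · show Sum.inl _ = _; simp
    · show Sum.inr _ = _; simp
  mul_smul g h z := by
    rcases z with a | y
    · show Sum.inl _ = Sum.inl _; simp [mul_smul]
    · show Sum.inr _ = Sum.inr _; simp [mul_assoc]

theorem smul_inl (g : G) (a : A) : g • inl c φ G a = inl c φ G (g • a) := rfl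

theorem smul_inr (g h : G) (l : L) (x : {x : D // c.d x ≠ 0}) :
    g • inr c φ h l x = inr c φ (g * h) l x := rfl

theorem smul_chi (g h : G) (l : L) (x : D) : g • chi c φ h l x = chi c φ (g * h) l x := by
  by_cases hx : c.d x = 0
  · rw [chi_bd _ _ _ _ hx, chi_bd _ _ _ _ hx, smul_inl, mul_smul]
  · rw [chi_int _ _ _ _ hx, chi_int _ _ _ _ hx, smul_inr]

variable [TopologicalSpace A]

noncomputable instance : TopologicalSpace (Att c G φ) :=
  TopologicalSpace.coinduced (inl c φ G) inferInstance ⊔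
    ⨆ (g : G) (l : L), TopologicalSpace.coinduced (chi c φ g l) inferInstance

theorem continuous_iff {W : Type*} [TopologicalSpace W] {f : Att c G φ → W} :
    Continuous f ↔ Continuous (f ∘ inl c φ G) ∧ ∀ g l, Continuous (f ∘ chi c φ g l) := by
  have := @continuous_sup_dom _ _ f (TopologicalSpace.coinduced (inl c φ G) inferInstance)
    (⨆ (g : G) (l : L), TopologicalSpace.coinduced (chi c φ g l) inferInstance) inferInstance
  simp only [continuous_iSup_dom, continuous_coinduced_dom] at this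
  exact this

theorem continuous_inl : Continuous (inl c φ G) := ((continuous_iff c φ).1 continuous_id).1

theorem continuous_chi (g : G) (l : L) : Continuous (chi c φ g l) :=
  ((continuous_iff c φ).1 continuous_id).2 g l

instance [ContinuousConstSMul G A] : ContinuousConstSMul G (Att c G φ) where
  continuous_const_smul g := by
    rw [continuous_iff]
    refine ⟨(continuous_inl c φ).comp (continuous_const_smul g), fun h l => ?_⟩
    have : (fun z : Att c G φ => g • z) ∘ chi c φ h l = chi c φ (g * h) l :=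
      funext fun x => smul_chi c φ g h l x
    rw [this]
    exact continuous_chi c φ _ l

theorem exists_lift {W : Type*} [TopologicalSpace W] (S1 : C(A, W)) (T : G → L → C(D, W))
    (h : ∀ g l x, c.d x = 0 → T g l x = S1 (g • φ l x)) :
    ∃ S : C(Att c G φ, W), (∀ a, S (inl c φ G a) = S1 a) ∧
      (∀ g l x, S (inr c φ g l x) = T g l x.1) ∧ ∀ g l x, S (chi c φ g l x) = T g l x := by
  let f : Att c G φ → W := Sum.elim S1 fun y => T y.1 y.2.1 y.2.2.1
  have hf : ∀ g l x, f (chi c φ g l x) = T g l x := by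
    intro g l x
    by_cases hx : c.d x = 0
    · rw [chi_bd _ _ _ _ hx, h g l x hx]; rfl
    · rw [chi_int _ _ _ _ hx]; rfl
  refine ⟨⟨f, (continuous_iff c φ).2 ⟨S1.continuous, fun g l => ?_⟩⟩, fun _ => rfl,
    fun _ _ _ => rfl, hf⟩
  have : f ∘ chi c φ g l = T g l := funext (hf g l)
  rw [this]
  exact (T g l).continuous

variable [ContinuousConstSMul G A]

theorem exists_ext (hφ : ∀ l, ContinuousOn (φ l) c.K) (f : C(A, ℝ)) :
    ∃ F : C(Att c G φ, ℝ), (∀ a, F (inl c φ G a) = f a) ∧
      ∀ g l x, F (inr c φ g l x) = c.m x.1 * f (g • φ l x.1) := by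
  have hc : ∀ (g : G) l, Continuous fun x => c.m x * f (g • φ l x) := by
    intro g l
    have h1 : ContinuousOn (fun x => c.m x * f (g • φ l x)) c.K :=
      c.m.continuous.continuousOn.mul
        ((f.continuous.comp (continuous_const_smul g)).comp_continuousOn (hφ l))
    have h2 : ContinuousOn (fun x => c.m x * f (g • φ l x)) {x | c.m x = 0} :=
      (continuousOn_const (c := (0 : ℝ))).congr fun x hx => by
        simp [show c.m x = 0 from hx]
    have := h1.union_of_isClosed h2 c.K_closed (isClosed_eq c.m.continuous continuous_const)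
    rw [← continuousOn_univ]
    refine this.mono fun x _ => ?_
    by_cases hx : x ∈ c.K
    · exact Or.inl hx
    · exact Or.inr (c.m_K x hx)
  obtain ⟨F, h1, h2, -⟩ := exists_lift c φ f (fun g l => ⟨_, hc g l⟩)
    (fun g l x hx => by simp [c.m_bd x hx])
  exact ⟨F, h1, h2⟩

omit [ContinuousConstSMul G A] in
theorem exists_bump (b : G → L → ℝ) (k : C(D, ℝ)) :
    ∃ F : C(Att c G φ, ℝ), (∀ a, F (inl c φ G a) = 0) ∧
      ∀ g l x, F (inr c φ g l x) = b g l * c.d x.1 * k x.1 := by
  obtain ⟨F, h1, h2, -⟩ := exists_lift c φ (0 : C(A, ℝ))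
    (fun g l => ⟨fun x => b g l * c.d x * k x, by fun_prop⟩) (fun g l x hx => by simp [hx])
  exact ⟨F, h1, h2⟩

theorem wand (hφ : ∀ l, ContinuousOn (φ l) c.K) (h : Wand G A) : Wand G (Att c G φ) := by
  classical
  intro z
  rcases cases' c φ z with ⟨a, rfl⟩ | ⟨g0, l0, x0, rfl⟩
  · obtain ⟨f, hf, hf'⟩ := h a
    obtain ⟨F, h1, h2⟩ := exists_ext (G := G) c φ hφ f
    refine ⟨F, by rwa [h1], fun g z hz hz' => ?_⟩
    rcases cases' c φ z with ⟨a, rfl⟩ | ⟨k, l, x, rfl⟩
    · rw [smul_inl, h1] at hz'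
      rw [h1] at hz
      exact hf' g a hz hz'
    · rw [smul_inr, h2, mul_smul] at hz'
      rw [h2] at hz
      exact hf' g _ (right_ne_zero_of_mul hz) (right_ne_zero_of_mul hz')
  · obtain ⟨F, h1, h2⟩ := exists_bump c φ (fun g _ => if g = g0 then 1 else 0) 1
    refine ⟨F, by simpa [h2] using x0.2, fun g z hz hz' => ?_⟩
    rcases cases' c φ z with ⟨a, rfl⟩ | ⟨k, l, x, rfl⟩
    · exact absurd (h1 a) hz
    · rw [smul_inr, h2] at hz'
      rw [h2] at hz
      have e1 : k = g0 := by by_contra e; simp [e] at hz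
      have e2 : g * k = g0 := by by_contra e; simp [e] at hz'
      rw [← e1] at e2
      simpa using e2

theorem sep (hφ : ∀ l, ContinuousOn (φ l) c.K) (h : Sep G A) : Sep G (Att c G φ) := by
  classical
  have hb : ∀ (b : L → ℝ) (k : C(D, ℝ)), ∃ F : C(Att c G φ, ℝ), (∀ (g : G) x, F (g • x) = F x) ∧
      (∀ a, F (inl c φ G a) = 0) ∧ ∀ g l x, F (inr c φ g l x) = b l * c.d x.1 * k x.1 := by
    intro b k
    obtain ⟨F, h1, h2⟩ := exists_bump c φ (fun (_ : G) l => b l) k
    refine ⟨F, fun g z => ?_, h1, h2⟩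
    rcases cases' c φ z with ⟨a, rfl⟩ | ⟨k, l, x, rfl⟩
    · rw [smul_inl, h1, h1]
    · rw [smul_inr, h2, h2]
  intro z z' hz
  obtain ⟨F0, f1, f2, f3⟩ := hb (fun _ => 1) 1
  rcases cases' c φ z with ⟨a, rfl⟩ | ⟨g, l, x, rfl⟩ <;>
    rcases cases' c φ z' with ⟨a', rfl⟩ | ⟨g', l', x', rfl⟩
  · obtain ⟨f, hf, hf'⟩ := h a a' fun g e => hz g (by rw [smul_inl, e])
    obtain ⟨F, h1, h2⟩ := exists_ext (G := G) c φ hφ f
    refine ⟨F, fun g z => ?_, by rwa [h1, h1]⟩
    rcases cases' c φ z with ⟨a, rfl⟩ | ⟨k, l, x, rfl⟩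
    · rw [smul_inl, h1, h1, hf]
    · rw [smul_inr, h2, h2, mul_smul, hf]
  · exact ⟨F0, f1, by rw [f2, f3]; simpa using x'.2.symm⟩
  · exact ⟨F0, f1, by rw [f2, f3]; simpa using x.2⟩
  · by_cases hd : c.d x.1 = c.d x'.1
    · by_cases hx : x.1 = x'.1
      · obtain rfl : x = x' := Subtype.ext hx
        have hl : l' ≠ l := by
          rintro rfl
          exact hz (g' * g⁻¹) (by rw [smul_inr]; simp)
        obtain ⟨F, h1, -, h3⟩ := hb (fun j => if j = l then 1 else 0) 1
        exact ⟨F, h1, by rw [h3, h3]; simpa [hl] using x.2⟩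
      · obtain ⟨k, hk⟩ := c.sep _ _ hx
        obtain ⟨F, h1, -, h3⟩ := hb (fun _ => 1) k
        refine ⟨F, h1, ?_⟩
        rw [h3, h3, hd]
        simpa using ⟨hk, x'.2⟩
    · exact ⟨F0, f1, by rw [f3, f3]; simpa using hd⟩

end Att

section quot
variable {G A : Type} [Group G] [MulAction G A] [TopologicalSpace A]

theorem Wand.isQuotientCoveringMap [ContinuousConstSMul G A] (h : Wand G A) :
    IsQuotientCoveringMap (Quotient.mk (MulAction.orbitRel G A)) G where
  __ := isQuotientMap_quotient_mk'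
  apply_eq_iff_mem_orbit := Quotient.eq''
  disjoint a := by
    obtain ⟨f, hf, hf'⟩ := h a
    refine ⟨{x | f x ≠ 0}, (isOpen_ne_fun f.continuous continuous_const).mem_nhds hf, ?_⟩
    rintro g ⟨_, ⟨x, hx, rfl⟩, hx'⟩
    exact hf' g x hx hx'

theorem Sep.t2 (h : Sep G A) : T2Space (Quotient (MulAction.orbitRel G A)) := by
  refine ⟨fun x y hxy => ?_⟩
  induction x using Quotient.ind with | _ a =>
  induction y using Quotient.ind with | _ a' =>
  obtain ⟨f, hf, hf'⟩ := h a a' fun g e => hxy (Quotient.sound ⟨g⁻¹, by simp [← e]⟩)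
  let F : Quotient (MulAction.orbitRel G A) → ℝ := Quotient.lift f (by
    rintro _ b ⟨g, rfl⟩
    exact hf g b)
  exact separated_by_continuous (f := F) (f.continuous.quotient_lift _) hf'

end quot

end Crest.Agent.GSC.Topo
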