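import Mathlib

/-! A criterion for a finite CW structure. -/

set_option autoImplicit false

open Metric Set

namespace Crest.Agent.GSC.Topo

theorem exists_cw {X : Type} [TopologicalSpace X] [T2Space X] (cell : ℕ → Type)
    (Φ : ∀ n, cell n → (Fin n → ℝ) → X) (nf : X → Σ n, cell n × (Fin n → ℝ))
    (hemp : ∀ n, 2 < n → IsEmpty (cell n)) (hfin : ∀ n, Finite (cell n))
    (hc : ∀ n i, Continuous (Φ n i))
    (h1 : ∀ n i, ∀ x ∈ ball (0 : Fin n → ℝ) 1, nf (Φ n i x) = ⟨n, i, x⟩)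
    (h2 : ∀ z, (nf z).2.2 ∈ ball 0 1 ∧ Φ _ (nf z).2.1 (nf z).2.2 = z)
    (h3 : ∀ n i, ∀ x ∈ sphere (0 : Fin n → ℝ) 1, (nf (Φ n i x)).1 < n) :
    ∃ _ : Topology.CWComplex (univ : Set X), Topology.RelCWComplex.Finite (univ : Set X) ∧
      ∀ n : ℕ, 2 < n → IsEmpty (Topology.RelCWComplex.cell (univ : Set X) n) := by
  have hinj : ∀ n i, InjOn (Φ n i) (ball 0 1) := by
    intro n i x hx y hy e
    have := (h1 n i x hx).symm.trans ((congrArg nf e).trans (h1 n i y hy))
    exact (Prod.mk.inj (eq_of_heq (Sigma.mk.inj this).2)).2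
  let map : ∀ n, cell n → PartialEquiv (Fin n → ℝ) X := fun n i =>
    (hinj n i).toPartialEquiv (Φ n i) (ball 0 1)
  have hev : ∀ᶠ n in Filter.atTop, IsEmpty (cell n) :=
    Filter.eventually_atTop.2 ⟨3, fun n hn => hemp n hn⟩
  have a1 : ∀ n i, (map n i).source = ball 0 1 := fun _ _ => rfl
  have a2 : ∀ n i, ContinuousOn (map n i) (closedBall 0 1) := fun n i => (hc n i).continuousOn
  have a3 : ∀ n i, ContinuousOn (map n i).symm (map n i).target := by
    intro n i
    rw [continuousOn_iff_isClosed]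
    intro C hC
    refine ⟨Φ n i '' (C ∩ closedBall 0 1),
      (((isCompact_closedBall _ _).inter_left hC).image (hc n i)).isClosed, ?_⟩
    ext z
    constructor
    · rintro ⟨hz, x, hx, rfl⟩
      have : (map n i).symm (Φ n i x) = x := (map n i).left_inv hx
      rw [mem_preimage, this] at hz
      exact ⟨⟨x, ⟨hz, ball_subset_closedBall hx⟩, rfl⟩, x, hx, rfl⟩
    · rintro ⟨⟨y, ⟨hy, hy'⟩, e⟩, x, hx, rfl⟩
      have : (map n i).symm (Φ n i x) = x := (map n i).left_inv hx
      refine ⟨?_, x, hx, rfl⟩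
      rw [mem_preimage, this]
      rw [← ball_union_sphere] at hy'
      rcases hy' with hy' | hy'
      · rwa [← hinj n i hy' hx e]
      · have := h3 n i y hy'
        rw [e, h1 n i x hx] at this
        exact absurd this (lt_irrefl _)
  have a4 : (univ : Set (Σ n, cell n)).PairwiseDisjoint
      (fun ni => map ni.1 ni.2 '' ball 0 1) := by
    rintro ⟨n, i⟩ - ⟨m, j⟩ - hne
    rw [Function.onFun, disjoint_left]
    rintro _ ⟨x, hx, rfl⟩ ⟨y, hy, e⟩
    have := (h1 m j y hy).symm.trans ((congrArg nf e).trans (h1 n i x hx))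
    obtain ⟨rfl, h⟩ := Sigma.mk.inj this
    obtain ⟨rfl, -⟩ := Prod.mk.inj (eq_of_heq h)
    exact hne rfl
  have a5 : ∀ n i, MapsTo (map n i) (sphere 0 1)
      (⋃ (m < n) (j : cell m), map m j '' closedBall 0 1) := by
    intro n i x hx
    simp only [mem_iUnion]
    exact ⟨_, h3 n i x hx, _, _, ball_subset_closedBall (h2 _).1, (h2 _).2⟩
  have a6 : ⋃ (n : ℕ) (j : cell n), map n j '' closedBall 0 1 = univ := by
    rw [eq_univ_iff_forall]
    intro z
    simp only [mem_iUnion]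
    exact ⟨_, _, _, ball_subset_closedBall (h2 z).1, (h2 z).2⟩
  exact ⟨Topology.CWComplex.mkFinite univ cell map hev hfin a1 a2 a3 a4 a5 a6,
    Topology.CWComplex.finite_mkFinite univ cell map hev hfin a1 a2 a3 a4 a5 a6, hemp⟩

end Crest.Agent.GSC.Topo
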