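import Crest.Agent.GSC.TopoContr
import Crest.Agent.GSC.TopoAtt
import Crest.Agent.GSC.TopoCW
import Crest.Prelude.Def_ClassifyingComplex

/-! The presentation complex of an aspherical finite presentation is a finite classifying
complex of dimension at most two. -/

set_option autoImplicit false

open scoped unitInterval Topology
open Metric

namespace Crest.Agent.GSC.Topo

/-- a model cell from its depth function -/
noncomputable def mkCell {D : Type} [TopologicalSpace D] (d : C(D, ℝ))
    (sep : ∀ x y : D, x ≠ y → ∃ k : C(D, ℝ), k x ≠ k y) : Cell D where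
  d := d
  m := ⟨fun x => max 0 (1 - 4 * d x), by fun_prop⟩
  K := {x | d x ≤ 1 / 4}
  K_closed := isClosed_le d.continuous continuous_const
  m_bd x h := by simp [h]
  m_K x h := by
    have : 1 / 4 < d x := not_le.1 h
    exact max_eq_left (by linarith)
  sep := sep

/-- distance to the end points -/
noncomputable def d1 : C(I, ℝ) := ⟨fun u => min (u : ℝ) (1 - u), by fun_prop⟩

theorem d1_nonneg (u : I) : 0 ≤ d1 u := le_min u.2.1 (sub_nonneg.2 u.2.2)

theorem d1_zero : d1 0 = 0 := by simp [d1]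
theorem d1_one : d1 1 = 0 := by simp [d1]

theorem d1_eq_zero {u : I} (h : d1 u = 0) : u = 0 ∨ u = 1 := by
  rcases min_eq_iff.1 h with h | h
  · exact Or.inl (Subtype.ext h.1)
  · exact Or.inr (Subtype.ext (by show (u : ℝ) = 1; linarith [h.1]))

theorem d1_le {u : I} (h : d1 u ≤ 1 / 4) : (u : ℝ) ≤ 1 / 4 ∨ 3 / 4 ≤ (u : ℝ) := by
  rcases min_le_iff.1 h with h | h
  · exact Or.inl h
  · exact Or.inr (by linarith)

/-- the model edge -/
noncomputable def c1 : Cell I := mkCell d1 fun _ _ h =>
  ⟨⟨Subtype.val, continuous_subtype_val⟩, fun e => h (Subtype.ext e)⟩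

/-- the model face -/
noncomputable def c2 : Cell (I × I) :=
  mkCell ⟨fun z => min (d1 z.1) (d1 z.2), by fun_prop⟩ fun x y h => by
    by_cases h1 : x.1 = y.1
    · exact ⟨⟨fun z => z.2, by fun_prop⟩, fun e => h (Prod.ext h1 (Subtype.ext e))⟩
    · exact ⟨⟨fun z => z.1, by fun_prop⟩, fun e => h1 (Subtype.ext e)⟩

theorem c2_d (z : I × I) : c2.d z = min (d1 z.1) (d1 z.2) := rfl

theorem c2_eq_zero {z : I × I} : c2.d z = 0 ↔ d1 z.1 = 0 ∨ d1 z.2 = 0 := by
  rw [c2_d]
  constructor
  · intro h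
    rcases min_eq_iff.1 h with h | h
    · exact Or.inl h.1
    · exact Or.inr h.1
  · rintro (h | h) <;> rw [h]
    · exact min_eq_left (d1_nonneg _)
    · exact min_eq_right (d1_nonneg _)

/-- the group as a discrete space -/
def Disc (G : Type) : Type := G

variable {P J G : Type} [Group G]

instance : TopologicalSpace (Disc G) := ⊥
instance : DiscreteTopology (Disc G) := ⟨rfl⟩
instance : MulAction G (Disc G) := inferInstanceAs (MulAction G G)
instance : ContinuousConstSMul G (Disc G) := ⟨fun _ => continuous_of_discreteTopology⟩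

/-- a group element as a vertex -/
def toDisc (g : G) : Disc G := g

theorem smul_toDisc (g h : G) : g • toDisc h = toDisc (g * h) := rfl

theorem wand_disc : Wand G (Disc G) := by
  classical
  intro a
  refine ⟨⟨fun x => if x = a then 1 else 0, continuous_of_discreteTopology⟩, by simp,
    fun g x h h' => ?_⟩
  have e1 : x = a := by by_contra e; simp [e] at h
  have e2 : g • x = a := by by_contra e; simp [e] at h'
  rw [← e1] at e2
  exact mul_eq_right.1 (show g * (show G from x) = (show G from x) from e2)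

theorem sep_disc : Sep G (Disc G) := by
  intro a a' h
  exact absurd (inv_mul_cancel_right (show G from a') (show G from a))
    (h ((show G from a') * (show G from a)⁻¹))

/-- attaching maps of the edges -/
noncomputable def ph1 (gen : P → G) (s : P) (u : I) : Disc G :=
  if (u : ℝ) ≤ 1 / 2 then toDisc 1 else toDisc (gen s)

theorem ph1_cont (gen : P → G) (s : P) : ContinuousOn (ph1 gen s) c1.K := by
  have h1 : ContinuousOn (ph1 gen s) {u | (u : ℝ) ≤ 1 / 4} :=
    (continuousOn_const (c := toDisc 1)).congr fun u hu =>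
      if_pos (le_trans hu (by norm_num))
  have h2 : ContinuousOn (ph1 gen s) {u | 3 / 4 ≤ (u : ℝ)} :=
    (continuousOn_const (c := toDisc (gen s))).congr fun u hu =>
      if_neg (by have : 3 / 4 ≤ (u : ℝ) := hu; linarith)
  exact (h1.union_of_isClosed h2 (isClosed_le (by fun_prop) continuous_const)
    (isClosed_le continuous_const (by fun_prop))).mono fun u hu => d1_le hu

/-- the Cayley graph -/
abbrev E1 (gen : P → G) : Type := Att c1 G (ph1 gen)

/-- vertices -/
noncomputable def vx (gen : P → G) (g : G) : E1 gen := Att.inl c1 (ph1 gen) G (toDisc g)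

theorem smul_vx (gen : P → G) (g h : G) : g • vx gen h = vx gen (g * h) := rfl

theorem chi1_zero (gen : P → G) (g : G) (s : P) : Att.chi c1 (ph1 gen) g s 0 = vx gen g := by
  rw [Att.chi_bd _ _ _ _ d1_zero]
  simp [ph1, smul_toDisc, vx]

theorem chi1_one (gen : P → G) (g : G) (s : P) :
    Att.chi c1 (ph1 gen) g s 1 = vx gen (g * gen s) := by
  rw [Att.chi_bd _ _ _ _ d1_one, ph1, if_neg (by norm_num)]
  rfl

/-- edges -/
noncomputable def ed (gen : P → G) (g : G) (s : P) : Path (vx gen g) (vx gen (g * gen s)) :=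
  ⟨⟨Att.chi c1 (ph1 gen) g s, Att.continuous_chi _ _ _ _⟩, chi1_zero gen g s, chi1_one gen g s⟩

theorem smul_wp (gen : P → G) (g : G) : ∀ (l : List (P × Bool)) (h : G) (u : I),
    g • wp (ed gen) h l u = wp (ed gen) (g * h) l u
  | [], _, _ => rfl
  | (s, b) :: l, h, τ => by
    rcases mid_cases τ with ⟨u, rfl⟩ | ⟨u, rfl⟩
    · refine (congrArg (g • ·) (trans_mid_left _ _ u)).trans
        (Eq.trans ?_ (trans_mid_left _ _ u).symm)
      cases b
      · exact (Att.smul_chi _ _ g _ s _).trans (by rw [← mul_assoc]; rfl)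
      · exact Att.smul_chi _ _ g _ s _
    · refine (congrArg (g • ·) (trans_mid_right _ _ u)).trans
        (Eq.trans ?_ (trans_mid_right _ _ u).symm)
      exact (smul_wp gen g l _ u).trans
        (congrArg (fun a => wp (ed gen) a l u) (mul_assoc _ _ _).symm)

/-- attaching maps of the faces -/
noncomputable def ph2 (gen : P → G) (w : J → List (P × Bool)) (i : J) (z : I × I) : E1 gen :=
  if (z.2 : ℝ) ≤ 1 / 2 then
    ev (wp (ed gen) 1 (w i)).toContinuousMap (z.1 + 4 * z.2 * (z.1 - 1 / 2))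
  else vx gen 1

section
variable {gen : P → G} {w : J → List (P × Bool)} (hend : ∀ g i, endp gen g (w i) = g)
include hend

theorem ph2_side (i : J) (z : I × I)
    (h : (z.1 + 4 * z.2 * (z.1 - 1 / 2) : ℝ) ≤ 0 ∨ (1 : ℝ) ≤ z.1 + 4 * z.2 * (z.1 - 1 / 2) ∨
      1 / 2 < (z.2 : ℝ)) : ph2 gen w i z = vx gen 1 := by
  unfold ph2
  split_ifs with hz
  · rcases h with h | h | h
    · rw [ev_of_le _ h]; simp
    · rw [ev_of_ge _ h]; simp [hend]
    · linarith
  · rfl

theorem ph2_cont (i : J) : ContinuousOn (ph2 gen w i) c2.K := by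
  have h1 : ContinuousOn (ph2 gen w i) {z | (z.2 : ℝ) ≤ 1 / 2} :=
    (Continuous.continuousOn (f := fun z : I × I => ev (wp (ed gen) 1 (w i)).toContinuousMap
      (z.1 + 4 * z.2 * (z.1 - 1 / 2))) (by fun_prop)).congr fun z hz => if_pos hz
  have h2 : ContinuousOn (ph2 gen w i) (c2.K ∩ {z | 1 / 2 ≤ (z.2 : ℝ)}) :=
    (continuousOn_const (c := vx gen 1)).congr fun z hz => by
      apply ph2_side hend
      have h2 : 1 / 2 ≤ (z.2 : ℝ) := hz.2
      rcases h2.lt_or_eq with h2 | h2
      · exact Or.inr (Or.inr h2)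
      · rcases min_le_iff.1 (show min (d1 z.1) (d1 z.2) ≤ 1 / 4 from hz.1) with h | h
        · rcases d1_le h with h | h
          · left; rw [← h2]; linarith
          · right; left; rw [← h2]; linarith
        · rcases d1_le h with h | h <;> linarith
  refine (h1.union_of_isClosed h2 (isClosed_le (by fun_prop) continuous_const)
    (c2.K_closed.inter (isClosed_le continuous_const (by fun_prop)))).mono fun z hz => ?_
  rcases le_total (z.2 : ℝ) (1 / 2) with h | h
  · exact Or.inl h
  · exact Or.inr ⟨hz, h⟩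

omit hend in
theorem ph2_b (g : G) (i : J) (u : I) : g • ph2 gen w i (u, 0) = wp (ed gen) g (w i) u := by
  unfold ph2
  rw [if_pos (by simp)]
  simp only [Set.Icc.coe_zero, mul_zero, zero_mul, add_zero, ev_coe]
  exact (smul_wp gen g _ 1 u).trans (congrArg (fun a => wp (ed gen) a (w i) u) (mul_one g))

theorem ph2_r (g : G) (i : J) (u : I) : g • ph2 gen w i (1, u) = vx gen g := by
  rw [ph2_side hend _ _ (Or.inr (Or.inl (by simp; nlinarith [u.2.1]))), smul_vx, mul_one]

theorem ph2_l (g : G) (i : J) (u : I) : g • ph2 gen w i (0, u) = vx gen g := by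
  rw [ph2_side hend _ _ (Or.inl (by simp; exact u.2.1)), smul_vx, mul_one]

theorem ph2_t (g : G) (i : J) (u : I) : g • ph2 gen w i (u, 1) = vx gen g := by
  rw [ph2_side hend _ _ (Or.inr (Or.inr (by norm_num))), smul_vx, mul_one]

end

/-- the Cayley complex -/
abbrev E2 (gen : P → G) (w : J → List (P × Bool)) : Type := Att c2 G (ph2 gen w)

theorem contractible_E2 {r : J → FreeGroup P} {pi : FreeGroup P →* G}
    (hsurj : Function.Surjective pi) (hker : pi.ker = Subgroup.normalClosure (Set.range r))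
    (asph : ∀ l, sev r l = 1 → scl pi l = 0) (w : J → List (P × Bool))
    (hw : ∀ i, FreeGroup.mk (w i) = r i)
    (hend : ∀ g i, endp (fun s => pi (FreeGroup.of s)) g (w i) = g) :
    ContractibleSpace (E2 (fun s => pi (FreeGroup.of s)) w) := by
  set gen : P → G := fun s => pi (FreeGroup.of s) with hgen
  refine contractible_of hsurj hker asph w hw (vx gen) (ed gen) ?_ ?_
    ⟨Att.inl c2 (ph2 gen w) G, Att.continuous_inl _ _⟩
    (fun g i => ⟨Att.chi c2 (ph2 gen w) g i, Att.continuous_chi _ _ _ _⟩) ?_ ?_ ?_ ?_ ?_ ?_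
  · intro a ω h0 h1
    obtain ⟨S, k1, -, k2⟩ := Att.exists_lift c1 (ph1 gen)
      ⟨fun x : Disc G => a x, continuous_of_discreteTopology⟩ ω (by
        intro g s u hu
        rcases d1_eq_zero hu with rfl | rfl
        · rw [h0, ph1, if_pos (by simp), smul_toDisc, mul_one]; rfl
        · rw [h1, ph1, if_neg (by norm_num), smul_toDisc]; rfl)
    exact ⟨S, fun g => k1 _, k2⟩
  · intro b
    rcases Att.cases _ _ b with ⟨g, rfl⟩ | h
    · exact Or.inl ⟨g, rfl⟩
    · exact Or.inr h
  · intro g i u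
    exact (Att.chi_bd _ _ _ _ (c2_eq_zero.2 (Or.inr d1_zero))).trans (by rw [ph2_b]; rfl)
  · intro g i u
    exact (Att.chi_bd _ _ _ _ (c2_eq_zero.2 (Or.inl d1_one))).trans (by rw [ph2_r hend]; rfl)
  · intro g i u
    exact (Att.chi_bd _ _ _ _ (c2_eq_zero.2 (Or.inl d1_zero))).trans (by rw [ph2_l hend]; rfl)
  · intro g i u
    exact (Att.chi_bd _ _ _ _ (c2_eq_zero.2 (Or.inr d1_one))).trans (by rw [ph2_t hend]; rfl)
  · intro S1 T h1 h2 h3 h4
    obtain ⟨S, k1, -, k2⟩ := Att.exists_lift c2 (ph2 gen w) S1 T (by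
      rintro g i ⟨u, v⟩ hz
      rcases c2_eq_zero.1 hz with h | h <;> rcases d1_eq_zero h with rfl | rfl
      · rw [h3, ph2_l hend]
      · rw [h2, ph2_r hend]
      · rw [h1, ph2_b]
      · rw [h4, ph2_t hend])
    exact ⟨S, k1, k2⟩
  · exact Att.cases _ _

/-- index types of the cells -/
def cellT (P J : Type) : ℕ → Type
  | 0 => Unit
  | 1 => P
  | 2 => J
  | _ + 3 => Empty

/-- rescaling `[-1,1]` to the unit interval -/
noncomputable def ka (r : ℝ) : I := Set.projIcc 0 1 zero_le_one ((r + 1) / 2)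

theorem continuous_ka : Continuous ka := continuous_projIcc.comp (by fun_prop)

theorem ka_coe {r : ℝ} (h : |r| < 1) : (ka r : ℝ) = (r + 1) / 2 := by
  rw [abs_lt] at h
  unfold ka
  rw [Set.projIcc_of_mem _ ⟨by linarith [h.1], by linarith [h.2]⟩]

theorem d1_ka {r : ℝ} (h : |r| < 1) : d1 (ka r) ≠ 0 := by
  intro e
  have := ka_coe h
  rw [abs_lt] at h
  rcases d1_eq_zero e with e | e <;> rw [e] at this <;> simp at this <;> linarith [h.1, h.2]

theorem d1_ka_zero {r : ℝ} (h : |r| = 1) : d1 (ka r) = 0 := by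
  rcases eq_or_eq_neg_of_abs_eq h with rfl | rfl
  · have : ka 1 = 1 := by simp [ka]
    rw [this, d1_one]
  · have : ka (-1) = 0 := by simp [ka]
    rw [this, d1_zero]

theorem ka_inv (u : I) : ka (2 * u - 1) = u := by
  unfold ka
  have : ((2 * u - 1 + 1) / 2 : ℝ) = u := by ring
  rw [this]; simp

theorem abs_lt_of_d1 {u : I} (h : d1 u ≠ 0) : |(2 * u - 1 : ℝ)| < 1 := by
  have := lt_min_iff.1 ((d1_nonneg u).lt_of_ne' h)
  rw [abs_lt]
  constructor <;> linarith [this.1, this.2]

/-- the presentation complex -/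
abbrev XX (gen : P → G) (w : J → List (P × Bool)) : Type :=
  Quotient (MulAction.orbitRel G (E2 gen w))

/-- characteristic maps upstairs -/
noncomputable def PhE (gen : P → G) (w : J → List (P × Bool)) :
    ∀ n, cellT P J n → (Fin n → ℝ) → E2 gen w
  | 0, _, _ => Att.inl c2 _ G (vx gen 1)
  | 1, s, x => Att.inl c2 _ G (Att.chi c1 _ 1 s (ka (x 0)))
  | 2, i, x => Att.chi c2 _ 1 i (ka (x 0), ka (x 1))
  | _ + 3, e, _ => Empty.elim e

/-- normal forms upstairs -/
def nfE (gen : P → G) (w : J → List (P × Bool)) : E2 gen w → Σ n, cellT P J n × (Fin n → ℝ)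
  | Sum.inl (Sum.inl _) => ⟨0, (), 0⟩
  | Sum.inl (Sum.inr (_, s, u)) => ⟨1, s, fun _ => 2 * u.1 - 1⟩
  | Sum.inr (_, i, z) => ⟨2, i, ![2 * z.1.1 - 1, 2 * z.1.2 - 1]⟩

theorem nfE_smul (gen : P → G) (w : J → List (P × Bool)) (g : G) :
    ∀ z, nfE gen w (g • z) = nfE gen w z
  | Sum.inl (Sum.inl _) => rfl
  | Sum.inl (Sum.inr _) => rfl
  | Sum.inr _ => rfl

theorem nfE_inl (gen : P → G) (w : J → List (P × Bool)) :
    ∀ b, (nfE gen w (Att.inl c2 _ G b)).1 < 2
  | Sum.inl _ => Nat.zero_lt_two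
  | Sum.inr _ => Nat.one_lt_two

theorem exists_cw_XX [Finite P] [Finite J] (gen : P → G) (w : J → List (P × Bool))
    [T2Space (XX gen w)] :
    ∃ _ : Topology.CWComplex (Set.univ : Set (XX gen w)),
      Topology.RelCWComplex.Finite (Set.univ : Set (XX gen w)) ∧
      ∀ n : ℕ, 2 < n → IsEmpty (Topology.RelCWComplex.cell (Set.univ : Set (XX gen w)) n) := by
  refine exists_cw (cellT P J) (fun n i x => Quotient.mk _ (PhE gen w n i x))
    (Quotient.lift (nfE gen w) (by rintro _ b ⟨g, rfl⟩; exact nfE_smul gen w g b))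
    ?_ ?_ ?_ ?_ ?_ ?_
  · intro n hn
    obtain ⟨m, rfl⟩ : ∃ m, n = m + 3 := ⟨n - 3, by omega⟩
    exact inferInstanceAs (IsEmpty Empty)
  · intro n
    match n with
    | 0 => exact inferInstanceAs (Finite Unit)
    | 1 => exact inferInstanceAs (Finite P)
    | 2 => exact inferInstanceAs (Finite J)
    | _ + 3 => exact inferInstanceAs (Finite Empty)
  · intro n i
    refine continuous_quotient_mk'.comp ?_
    match n, i with
    | 0, _ => exact continuous_const
    | 1, s =>
      exact (Att.continuous_inl _ _).comp ((Att.continuous_chi _ _ _ _).comp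
        (continuous_ka.comp (continuous_apply 0)))
    | 2, i =>
      exact (Att.continuous_chi _ _ _ _).comp ((continuous_ka.comp (continuous_apply 0)).prodMk
        (continuous_ka.comp (continuous_apply 1)))
    | _ + 3, e => exact Empty.elim e
  · intro n i x hx
    rw [mem_ball_zero_iff, pi_norm_lt_iff one_pos] at hx
    show nfE gen w (PhE gen w n i x) = _
    match n, i, x, hx with
    | 0, _, x, _ =>
      exact congrArg (fun y => (⟨0, (), y⟩ : Σ n, cellT P J n × (Fin n → ℝ)))
        (Subsingleton.elim _ _)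
    | 1, s, x, hx =>
      rw [PhE, Att.chi_int _ _ _ _ (d1_ka (hx 0))]
      refine congrArg (fun y => (⟨1, s, y⟩ : Σ n, cellT P J n × (Fin n → ℝ))) ?_
      funext k
      obtain rfl : k = 0 := Subsingleton.elim _ _
      show (2 * ka (x 0) - 1 : ℝ) = _
      rw [ka_coe (hx 0)]; ring
    | 2, i, x, hx =>
      rw [PhE, Att.chi_int _ _ _ _ (fun e => (c2_eq_zero.1 e).elim (d1_ka (hx 0)) (d1_ka (hx 1)))]
      refine congrArg (fun y => (⟨2, i, y⟩ : Σ n, cellT P J n × (Fin n → ℝ))) ?_
      funext k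
      fin_cases k
      · show (2 * ka (x 0) - 1 : ℝ) = x 0
        rw [ka_coe (hx 0)]; ring
      · show (2 * ka (x 1) - 1 : ℝ) = x 1
        rw [ka_coe (hx 1)]; ring
    | _ + 3, e, _, _ => exact Empty.elim e
  · intro z
    induction z using Quotient.ind with | _ z =>
    suffices h : (∀ k, ‖(nfE gen w z).2.2 k‖ < 1) ∧
        (Quotient.mk _ (PhE gen w _ (nfE gen w z).2.1 (nfE gen w z).2.2) : XX gen w) =
          Quotient.mk _ z from
      ⟨mem_ball_zero_iff.2 ((pi_norm_lt_iff one_pos).2 h.1), h.2⟩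
    match z with
    | Sum.inl (Sum.inl a) =>
      refine ⟨fun k => k.elim0, Quotient.sound ⟨(show G from a)⁻¹, ?_⟩⟩
      exact congrArg (fun x : G => Att.inl c2 (ph2 gen w) G (vx gen x)) (inv_mul_cancel _)
    | Sum.inl (Sum.inr (g, s, u)) =>
      refine ⟨fun k => abs_lt_of_d1 u.2, Quotient.sound ⟨g⁻¹, ?_⟩⟩
      show Att.inl c2 _ G (Att.inr c1 _ (g⁻¹ * g) s u) =
        Att.inl c2 _ G (Att.chi c1 _ 1 s (ka (2 * u.1 - 1)))
      rw [ka_inv, Att.chi_int _ _ _ _ u.2, inv_mul_cancel]
    | Sum.inr (g, i, z) =>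
      have hz : d1 z.1.1 ≠ 0 ∧ d1 z.1.2 ≠ 0 := not_or.1 fun e => z.2 (c2_eq_zero.2 e)
      refine ⟨fun k => ?_, Quotient.sound ⟨g⁻¹, ?_⟩⟩
      · revert k
        show ∀ k : Fin 2, ‖(![2 * z.1.1 - 1, 2 * z.1.2 - 1] : Fin 2 → ℝ) k‖ < 1
        intro k
        fin_cases k
        · exact abs_lt_of_d1 hz.1
        · exact abs_lt_of_d1 hz.2
      · show Att.inr c2 _ (g⁻¹ * g) i z =
          Att.chi c2 _ 1 i (ka (2 * z.1.1 - 1), ka (2 * z.1.2 - 1))
        rw [ka_inv, ka_inv, Att.chi_int _ _ _ _ z.2, inv_mul_cancel]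
  · intro n i x hx
    rw [mem_sphere_zero_iff_norm] at hx
    have hk : ∃ k, |x k| = 1 := by
      by_contra! h
      have : ‖x‖ < 1 := (pi_norm_lt_iff one_pos).2 fun k =>
        lt_of_le_of_ne (hx ▸ norm_le_pi_norm x k) (h k)
      exact this.ne hx
    show (nfE gen w (PhE gen w n i x)).1 < n
    match n, i, x, hk with
    | 0, _, _, ⟨k, _⟩ => exact k.elim0
    | 1, s, x, ⟨k, hk⟩ =>
      obtain rfl : k = 0 := Subsingleton.elim _ _
      rw [PhE, Att.chi_bd _ _ _ _ (d1_ka_zero hk)]
      exact Nat.zero_lt_one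
    | 2, i, x, ⟨k, hk⟩ =>
      rw [PhE, Att.chi_bd]
      · exact nfE_inl gen w _
      · rw [c2_eq_zero]
        fin_cases k
        · exact Or.inl (d1_ka_zero hk)
        · exact Or.inr (d1_ka_zero hk)
    | _ + 3, e, _, _ => exact Empty.elim e

end Crest.Agent.GSC.Topo

namespace Crest.Agent.GSC

open Topo

/-- A finite presentation all of whose identity sequences have zero chain gives a finite
classifying complex of dimension at most two. -/
theorem hasFCC {P J : Type} [Finite P] [Finite J] (r : J → FreeGroup P) {G : Type} [Group G]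
    (pi : FreeGroup P →* G) (hsurj : Function.Surjective pi)
    (hker : pi.ker = Subgroup.normalClosure (Set.range r))
    (asph : ∀ l : List (FreeGroup P × J × Bool),
      (l.map fun x => x.1 * (if x.2.2 then r x.2.1 else (r x.2.1)⁻¹) * x.1⁻¹).prod = 1 →
      (l.map fun x => Finsupp.single (pi x.1, x.2.1) (if x.2.2 then (1 : ℤ) else -1)).sum = 0) :
    Crest.Topology.HasFiniteClassifyingComplex G 2 := by
  classical
  let w : J → List (P × Bool) := fun i => (r i).toWord
  have hw : ∀ i, FreeGroup.mk (w i) = r i := fun i => FreeGroup.mk_toWord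
  have hend : ∀ g i, endp (fun s => pi (FreeGroup.of s)) g (w i) = g := by
    intro g i
    have hr : pi (r i) = 1 := by
      rw [← MonoidHom.mem_ker, hker]
      exact Subgroup.subset_normalClosure ⟨i, rfl⟩
    rw [endp_eq, hw, hr, mul_one]
  have hc := contractible_E2 hsurj hker asph w hw hend
  set gen : P → G := fun s => pi (FreeGroup.of s) with hgen
  have hq := (Att.wand c2 (ph2 gen w) (ph2_cont hend)
    (Att.wand c1 (ph1 gen) (ph1_cont gen) wand_disc)).isQuotientCoveringMap
  have ht : T2Space (XX gen w) := (Att.sep c2 (ph2 gen w) (ph2_cont hend)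
    (Att.sep c1 (ph1 gen) (ph1_cont gen) sep_disc)).t2
  obtain ⟨cw, h1, h2⟩ := exists_cw_XX gen w
  refine ⟨XX gen w, inferInstance, cw, ht, h1, h2,
    ⟨E2 gen w, inferInstance, _, hc, hq.isCoveringMap, hq.surjective⟩,
    Quotient.mk _ (Att.inl c2 _ G (vx gen 1)),
    ⟨(hq.fundamentalGroupEquiv ⟨Att.inl c2 _ G (vx gen 1), rfl⟩).trans (MulEquiv.inv' G).symm⟩⟩

open Classical in
/-- Pointwise form of the hypothesis. -/
theorem hasFCC' {P J : Type} [Finite P] [Finite J] (r : J → FreeGroup P) {G : Type} [Group G]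
    (pi : FreeGroup P →* G) (hsurj : Function.Surjective pi)
    (hker : pi.ker = Subgroup.normalClosure (Set.range r))
    (asph : ∀ l : List (FreeGroup P × J × Bool),
      (l.map fun x => x.1 * (if x.2.2 then r x.2.1 else (r x.2.1)⁻¹) * x.1⁻¹).prod = 1 →
      ∀ (g : G) (i : J), (l.map fun x => if pi x.1 = g ∧ x.2.1 = i then
        (if x.2.2 then (1 : ℤ) else -1) else 0).sum = 0) :
    Crest.Topology.HasFiniteClassifyingComplex G 2 := by
  refine hasFCC r pi hsurj hker fun l hl => ?_
  ext ⟨g, i⟩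
  rw [Finsupp.coe_zero, Pi.zero_apply, ← asph l hl g i]
  clear hl
  induction l with
  | nil => simp
  | cons a l ih =>
    simp only [List.map_cons, List.sum_cons, Finsupp.add_apply, ih, Finsupp.single_apply,
      Prod.mk.injEq]

end Crest.Agent.GSC
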