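import Crest.Agent.GSC.Core1
import Crest.Agent.GSC.Hyp
import Crest.Agent.GSC.TopoMain

/-! The aspherical presentation of the graphical group and the core theorem. -/

set_option autoImplicit false

namespace Crest.Agent.GSC

open FreeGroup (of lift invRev mul_mk inv_mk)
open Design

variable {S V D C : Type} [Fintype D] [DecidableEq C] {Γ : Design S V D C} {β : D → D}

namespace Pot
variable (P : Pot Γ β)

/-- the two-cells -/
abbrev J : Type := {d : D // (Γ.lab d).2 = true} ⊕ {v : V // P.b v = v}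

/-- the relators -/
def rel : P.J → FreeGroup (S ⊕ V)
  | .inl d => of (.inr (Γ.src d)) * of (.inl (Γ.lab d).1) * (of (.inr (Γ.src (β d))))⁻¹
  | .inr v => of (.inr v)

/-- the extended presentation map -/
def piE : FreeGroup (S ⊕ V) →* Γ.Grp β := lift (Sum.elim (fun s => Γ.pi β (of s)) P.π)

theorem mk_lab {d : D} (h : (Γ.lab d).2 = true) : FreeGroup.mk [Γ.lab d] = of (Γ.lab d).1 := by
  rw [show Γ.lab d = ((Γ.lab d).1, true) from Prod.ext rfl h]; rfl

theorem piE_rel (hM : Γ.IsM β) : ∀ j, P.piE (P.rel j) = 1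
  | .inl d => by simp [piE, rel, P.π_step hM, mk_lab d.2]
  | .inr v => by simp [piE, rel, P.π_base v.2]

theorem piE_surj : Function.Surjective P.piE := fun x => by
  obtain ⟨u, rfl⟩ := PresentedGroup.mk_surjective _ x
  have : P.piE.comp (FreeGroup.map Sum.inl) = Γ.pi β := by ext s; simp [piE]
  exact ⟨_, DFunLike.congr_fun this u⟩

theorem piE_ker (hM : Γ.IsM β) : P.piE.ker = Subgroup.normalClosure (Set.range P.rel) := by
  refine le_antisymm ?_ (Subgroup.normalClosure_le_normal ?_)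
  swap
  · rintro _ ⟨j, rfl⟩; exact P.piE_rel hM j
  set N := Subgroup.normalClosure (Set.range P.rel)
  let q : FreeGroup (S ⊕ V) →* _ := QuotientGroup.mk' N
  have hq : ∀ j, q (P.rel j) = 1 := fun j =>
    (QuotientGroup.eq_one_iff _).2 (Subgroup.subset_normalClosure ⟨j, rfl⟩)
  let k : FreeGroup S →* _ := lift fun s => q (of (.inl s))
  have h0 : ∀ d, (Γ.lab d).2 = true → q (of (.inr (Γ.src d))) * k (FreeGroup.mk [Γ.lab d]) =
      q (of (.inr (Γ.src (β d)))) := fun d h => by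
    have := hq (.inl ⟨d, h⟩)
    rw [rel, map_mul, map_mul, map_inv, mul_inv_eq_one] at this
    rw [mk_lab h, ← this]; simp [k]
  have h1 : ∀ d, q (of (.inr (Γ.src d))) * k (FreeGroup.mk [Γ.lab d]) =
      q (of (.inr (Γ.src (β d)))) := fun d => by
    cases h : (Γ.lab d).2
    · have := h0 (β d) (by rw [hM.lab_b]; simp [h])
      rw [hM.inv, hM.lab_b, mk_bar, map_inv] at this
      rw [← this]; simp
    · exact h0 d h
  have h2 : ∀ (p : List D) a b, Γ.Path β a p b →
      q (of (.inr a)) * k (FreeGroup.mk (p.map Γ.lab)) = q (of (.inr b)) := by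
    intro p
    induction p with
    | nil => rintro a b (rfl : a = b); simp [mk_nil]
    | cons d p ih =>
      rintro a b ⟨rfl, hp⟩
      rw [List.map_cons, mk_cons, map_mul, ← mul_assoc, h1, ih _ _ hp]
  have h3 : ∀ r ∈ Γ.rels β, k r = 1 := by
    rintro _ ⟨x, p, hp, rfl⟩
    simpa using h2 p x x hp
  have h4 : ∀ x, PresentedGroup.toGroup h3 (Γ.pi β x) = k x := fun x => rfl
  have h5 : (PresentedGroup.toGroup h3).comp P.piE = q := by
    ext x
    rcases x with s | v
    · simp [piE, h4, k]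
    · have := h2 _ _ _ (P.path v)
      rw [show q (of (.inr (P.b v))) = 1 from hq (.inr ⟨_, P.bbb v⟩), one_mul] at this
      simp [piE, π, h4, this]
  intro x hx
  rw [← QuotientGroup.eq_one_iff]
  change q x = 1
  rw [← h5, MonoidHom.comp_apply, MonoidHom.mem_ker.1 hx, map_one]

/-- the loop attached to a two-cell -/
def lp : P.J → List D
  | .inl d => P.τ (Γ.src d) ++ d.1 :: rev β (P.τ (Γ.src (β d)))
  | .inr _ => []

theorem asph {xs : V} {c0 : ℝ} {R0 g : ℕ} [Nonempty D] (hG : Geo Γ β xs c0 R0 g) (hM : Γ.IsM β)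
    (l : List (FreeGroup (S ⊕ V) × P.J × Bool))
    (hl : (l.map fun x => x.1 * (if x.2.2 then P.rel x.2.1 else (P.rel x.2.1)⁻¹) * x.1⁻¹).prod = 1) :
    (l.map fun x => Finsupp.single (P.piE x.1, x.2.1) (if x.2.2 then (1 : ℤ) else -1)).sum = 0 := by
  classical
  let c : Γ.Grp β → D → (Γ.Grp β × P.J →₀ ℤ) := fun h d =>
    if hd : (Γ.lab d).2 = true then Finsupp.single (h, .inl ⟨d, hd⟩) 1
    else - Finsupp.single (h, .inl ⟨β d, by rw [hM.lab_b]; simpa using hd⟩) 1
  have hc : ∀ h d, c h (β d) = - c h d := fun h d => by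
    cases hd : (Γ.lab d).2 <;> simp [c, hM.lab_b, hd, hM.inv]
  have hS := P.sheets hM hc
  let ρ : FreeGroup (S ⊕ V) × P.J × Bool → FreeGroup (S ⊕ V) := fun x =>
    if x.2.2 then P.rel x.2.1 else (P.rel x.2.1)⁻¹
  have hρ : ∀ x, P.piE (ρ x) = 1 := fun x => by
    simp only [ρ]; split_ifs <;> simp [P.piE_rel hM]
  let e1 : S ⊕ V → Γ.Grp β → FreeGroup (Γ.Grp β × S) :=
    Sum.elim (fun s p => of (p, s)) fun v p => FreeGroup.mk ((P.τ v).map (P.ed p))
  let m : V → Γ.Grp β → (Γ.Grp β × P.J →₀ ℤ) := fun v p =>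
    Finsupp.single (p, .inr ⟨P.b v, P.bbb v⟩) 1 - ((P.τ v).map (c p)).sum
  let e2 : S ⊕ V → Γ.Grp β → Multiplicative (Γ.Grp β × P.J →₀ ℤ) :=
    Sum.elim (fun _ _ => 1) fun v p => Multiplicative.ofAdd (m v p)
  have key : ∀ {X : Type} [Group X] (e : S ⊕ V → Γ.Grp β → X) (d : {d : D // (Γ.lab d).2 = true})
      (h : Γ.Grp β), lf P.piE e (P.rel (.inl d)) h = e (.inr (Γ.src d)) h *
        e (.inl (Γ.lab d).1) (h * P.π (Γ.src d)) * (e (.inr (Γ.src (β d))) h)⁻¹ := by
    intro X _ e d h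
    have : P.piE (of (.inr (Γ.src d)) * of (.inl (Γ.lab d).1)) =
        P.piE (of (.inr (Γ.src (β d)))) := by simp [piE, P.π_step hM, mk_lab d.2]
    rw [rel, lf_mul, this, lf_inv, lf_mul, lf_of, lf_of, lf_of]
    simp [piE]
  have k1 : ∀ j h, lf P.piE e1 (P.rel j) h = FreeGroup.mk ((P.lp j).map (P.ed h)) := by
    rintro (d | v) h
    · rw [key, lp, List.map_append, mk_append, List.map_cons, mk_cons, mk_rev (hS.ed_bar h),
        mul_assoc]
      simp only [e1, Sum.elim_inr, Sum.elim_inl, ed, cay, d.2, if_true]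
      rfl
    · simp [rel, lf_of, e1, lp, P.τb _ v.2]
  have k2 : ∀ j h, (lf P.piE e2 (P.rel j) h).toAdd + ((P.lp j).map (c h)).sum =
      Finsupp.single (h, j) 1 := by
    rintro (d | v) h
    · rw [key, lp, List.map_append, List.sum_append, List.map_cons, List.sum_cons,
        sum_rev (hc h)]
      simp only [e2, m, Sum.elim_inr, Sum.elim_inl, P.bb, mul_one, toAdd_mul, toAdd_inv,
        toAdd_ofAdd]
      rw [show c h d = Finsupp.single (h, .inl d) 1 from dif_pos d.2]
      abel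
    · simp [rel, lf_of, e2, m, lp, P.τb _ v.2, v.2]
  have k3 : ∀ j, ∃ v, Γ.Path β v (P.lp j) v := by
    rintro (d | v)
    · exact ⟨_, P.loop hM d⟩
    · exact ⟨v, rfl⟩
  let F : FreeGroup (S ⊕ V) × P.J × Bool → Face (Γ.Grp β) D := fun x =>
    ⟨false, P.piE x.1, if x.2.2 then P.lp x.2.1 else rev β (P.lp x.2.1)⟩
  have h1 := (lf_prod P.piE e1 Prod.fst ρ hρ 1 l).2
  have h2 := (lf_prod P.piE e2 Prod.fst ρ hρ 1 l).2
  rw [hl, lf_one] at h1 h2
  have h3 := hG.asph hS (fs := l.map F) (List.forall_mem_map.2 fun x _ => by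
    obtain ⟨v, hv⟩ := k3 x.2.1
    refine ⟨rfl, v, ?_⟩
    simp only [F]; split_ifs
    · exact hv
    · exact hv.rev hM) (by
    rw [List.map_map, Cj]
    convert h1 using 1
    refine List.map_congr_left fun x _ => ?_
    simp only [Function.comp_apply, Face.wd, F, ρ, one_mul]
    split_ifs
    · rw [k1]
    · rw [lf_inv', P.piE_rel hM, inv_one, mul_one, k1, mk_rev (hS.ed_bar _)])
  have h4 := congrArg Multiplicative.toAdd (CjP.comm (MonoidHom.id _) h2)
  rw [map_one, toAdd_one, List.map_map, toAdd_list_sum, List.map_map] at h4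
  rw [List.map_map] at h3
  rw [← add_zero 0]
  nth_rewrite 1 [h4]
  rw [← h3, ← List.sum_map_add]
  refine congrArg _ (List.map_congr_left fun x _ => ?_)
  simp only [Function.comp_apply, Face.cs, F, ρ, one_mul, MonoidHom.id_apply]
  split_ifs
  · rw [k2]
  · rw [lf_inv', P.piE_rel hM, inv_one, mul_one, toAdd_inv, sum_rev (hc _), ← neg_add, k2,
      Finsupp.single_neg]

end Pot

theorem core_of (h : RandomPart) : CoreStmt := by
  intro S _ w
  obtain ⟨c0, R0, h1, h2, h3⟩ := h S w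
  obtain ⟨N0, h4⟩ := h3 ((3 * KK c0 R0 + 1) * R0)
  refine ⟨N0, fun V D C _ _ _ Γ N xs hN hL => ?_⟩
  obtain ⟨β, g, hM, k1, k2, k3, k4⟩ := h4 V D C Γ N xs hN hL
  have hG : Geo Γ β xs c0 R0 g := ⟨h1, h2, k1, k2, k3, k4⟩
  have : Nonempty D := by
    obtain ⟨d, -⟩ := Finset.card_pos.1 (lt_of_lt_of_le (by norm_num) (hL.deg xs))
    exact ⟨d⟩
  obtain ⟨P⟩ := exists_pot' hM
  obtain ⟨lam, hs⟩ := hG.stokes hM
  exact ⟨β, hM, fun y p hp e => hG.emb' hM hp e, hG.tf hM,
    hyp_of_stokes _ (PresentedGroup.closure_range_of _) lam hs,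
    Group.IsFinitelyPresented.of_surjective P.piE P.piE_surj
      ⟨_, Set.finite_range _, (P.piE_ker hM).symm⟩,
    hasFCC P.rel P.piE P.piE_surj (P.piE_ker hM) (P.asph hG hM)⟩

end Crest.Agent.GSC
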