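import Crest.Agent.GSC.Cross

/-! The graphical group: fillings, embedding, Stokes bound, torsion-freeness. -/

set_option autoImplicit false

namespace Crest.Agent.GSC

open FreeGroup (of lift invRev mul_mk inv_mk)
open Design

variable {S V D C : Type} [Fintype D] [DecidableEq C] {Γ : Design S V D C} {β : D → D}

/-- the quotient map -/
abbrev Design.pi (Γ : Design S V D C) (β : D → D) : FreeGroup S →* Γ.Grp β :=
  PresentedGroup.mk (Γ.rels β)

/-- base points and spanning paths -/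
structure Pot (Γ : Design S V D C) (β : D → D) where
  b : V → V
  τ : V → List D
  path : ∀ v, Γ.Path β (b v) (τ v) v
  bb : ∀ d, b (Γ.src (β d)) = b (Γ.src d)
  bbb : ∀ v, b (b v) = b v
  τb : ∀ v, b v = v → τ v = []

theorem exists_pot' (hM : Γ.IsM β) : Nonempty (Pot Γ β) := by
  classical
  let st : Setoid V := ⟨fun x y => ∃ p, Γ.Path β x p y, fun x => ⟨[], rfl⟩,
    fun ⟨p, h⟩ => ⟨_, h.rev hM⟩, fun ⟨p, h⟩ ⟨q, h'⟩ => ⟨_, h.append h'⟩⟩
  have h1 : ∀ v, ∃ p, Γ.Path β (Quotient.mk st v).out p v ∧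
      ((Quotient.mk st v).out = v → p = []) := fun v => by
    by_cases h : (Quotient.mk st v).out = v
    · exact ⟨[], h, fun _ => rfl⟩
    · obtain ⟨p, hp⟩ : st.r _ v := Quotient.exact (Quotient.out_eq (Quotient.mk st v))
      exact ⟨p, hp, fun e => (h e).elim⟩
  choose τ h2 h3 using h1
  refine ⟨⟨fun v => (Quotient.mk st v).out, τ, h2, fun d => ?_, fun v => by simp, h3⟩⟩
  have : Quotient.mk st (Γ.src d) = Quotient.mk st (Γ.src (β d)) :=
    Quotient.sound ⟨[d], rfl, rfl⟩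
  simp only [this]

theorem pi_closed {x : V} {p : List D} (h : Γ.Path β x p x) :
    Γ.pi β (FreeGroup.mk (p.map Γ.lab)) = 1 := PresentedGroup.one_of_mem ⟨x, p, h, rfl⟩

namespace Pot
variable (P : Pot Γ β)

/-- the potential -/
def π (v : V) : Γ.Grp β := Γ.pi β (FreeGroup.mk ((P.τ v).map Γ.lab))

/-- the Cayley edge of a dart on the sheet `h` -/
def ed (h : Γ.Grp β) (d : D) : (Γ.Grp β × S) × Bool :=
  cay (Γ.pi β) (h * P.π (Γ.src d)) (Γ.lab d)

theorem loop (hM : Γ.IsM β) (d : D) : Γ.Path β (P.b (Γ.src d))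
    (P.τ (Γ.src d) ++ d :: rev β (P.τ (Γ.src (β d)))) (P.b (Γ.src d)) :=
  (P.path _).append ⟨rfl, P.bb d ▸ (P.path _).rev hM⟩

theorem π_step (hM : Γ.IsM β) (d : D) :
    P.π (Γ.src (β d)) = P.π (Γ.src d) * Γ.pi β (FreeGroup.mk [Γ.lab d]) := by
  have := pi_closed (P.loop hM d)
  rw [List.map_append, mk_append, List.map_cons, mk_cons, mk_rev hM.lab_b, ← mul_assoc, map_mul,
    map_inv, mul_inv_eq_one, map_mul] at this
  exact this.symm

theorem π_base {v : V} (h : P.b v = v) : P.π v = 1 := by simp [π, P.τb v h, mk_nil]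

theorem path_ed (hM : Γ.IsM β) (h : Γ.Grp β) : ∀ {p : List D} {a b : V}, Γ.Path β a p b →
    p.map (P.ed h) = cayw (Γ.pi β) (h * P.π a) (p.map Γ.lab) ∧
      P.π b = P.π a * Γ.pi β (FreeGroup.mk (p.map Γ.lab))
  | [], a, b, hp => by
    obtain rfl : a = b := hp
    simp [cayw, mk_nil]
  | d :: p, a, b, hp => by
    obtain ⟨rfl, hp⟩ := hp
    obtain ⟨h1, h2⟩ := path_ed hM h hp
    rw [P.π_step hM] at h1 h2
    rw [List.map_cons, List.map_cons, cayw, h1, h2, mk_cons (Γ.lab d) (p.map _), map_mul]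
    exact ⟨by rw [mul_assoc]; rfl, mul_assoc _ _ _⟩

theorem mk_ed (hM : Γ.IsM β) (h : Γ.Grp β) {p : List D} {a b : V} (hp : Γ.Path β a p b) :
    FreeGroup.mk (p.map (P.ed h)) =
      CL (Γ.pi β) (FreeGroup.mk (p.map Γ.lab)) (h * P.π a) := by
  rw [(P.path_ed hM h hp).1, mk_cayw]

theorem sheets (hM : Γ.IsM β) {M : Type} [AddCommGroup M] {c : Γ.Grp β → D → M}
    (hc : ∀ h d, c h (β d) = - c h d) : Sheets Γ β P.ed c Prod.snd where
  isM := hM
  ed_bar h d := by rw [ed, hM.lab_b, P.π_step hM, ← mul_assoc, cay_bar]; rfl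
  ed_inj h h' d e := mul_right_cancel (cay_inj _ e)
  ed_lab h d := cay_lab _ _ _
  c_neg := hc

end Pot

/-- the reversed face -/
def Face.rv {H : Type} (β : D → D) (f : Face H D) : Face H D := ⟨f.op, f.h, rev β f.p⟩

theorem Design.Cl.rv {H : Type} (hM : Γ.IsM β) {f : Face H D} (h : Γ.Cl β f) :
    Γ.Cl β (f.rv β) := by
  obtain ⟨h1, v, h2⟩ := h
  exact ⟨h1, v, h2.rev hM⟩

omit [Fintype D] in
theorem cj_rv {A H : Type} {ed : H → D → A × Bool} (he : ∀ h d, ed h (β d) = bar (ed h d))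
    {X : FreeGroup A} {fs : List (Face H D)}
    (h : Cj (X :: fs.map fun f => FreeGroup.mk (f.wd ed))) :
    Cj (X⁻¹ :: (fs.map (Face.rv β)).map fun f => FreeGroup.mk (f.wd ed)) := by
  have := h.inv
  simp only [List.map_cons, List.map_map] at this ⊢
  convert this using 2
  exact List.map_congr_left fun f _ => mk_rev (he f.h) f.p

theorem Pot.exists_fill (P : Pot Γ β) (hM : Γ.IsM β) {x : FreeGroup S} (hx : Γ.pi β x = 1)
    (p : Γ.Grp β) : ∃ fs : List (Face (Γ.Grp β) D), (∀ f ∈ fs, Γ.Cl β f) ∧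
      Cj (CL (Γ.pi β) x p :: fs.map fun f => FreeGroup.mk (f.wd P.ed)) := by
  have he := (P.sheets hM (c := fun _ _ => (0 : ℤ)) (by simp)).ed_bar
  let N : Subgroup (FreeGroup S) :=
    { carrier := {x | Γ.pi β x = 1 ∧ ∀ p, ∃ fs : List (Face (Γ.Grp β) D), (∀ f ∈ fs, Γ.Cl β f) ∧
        Cj (CL (Γ.pi β) x p :: fs.map fun f => FreeGroup.mk (f.wd P.ed))}
      one_mem' := ⟨map_one _, fun p => ⟨[], by simp, by
        rw [CL, lf_one, Cj.one_cons]; exact Cj.nil⟩⟩
      mul_mem' := fun {a b} ha hb => ⟨by rw [map_mul, ha.1, hb.1, mul_one], fun p => by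
        obtain ⟨f1, h1, h2⟩ := ha.2 p
        obtain ⟨f2, h3, h4⟩ := hb.2 p
        refine ⟨f1 ++ f2, List.forall_mem_append.2 ⟨h1, h3⟩, ?_⟩
        rw [CL, lf_mul, ha.1, mul_one, List.map_append]
        exact h2.mul h4⟩
      inv_mem' := fun {a} ha => ⟨by rw [map_inv, ha.1, inv_one], fun p => by
        obtain ⟨f1, h1, h2⟩ := ha.2 p
        refine ⟨f1.map (Face.rv β), List.forall_mem_map.2 fun f hf => (h1 f hf).rv hM, ?_⟩
        rw [CL, lf_inv', ha.1, inv_one, mul_one]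
        exact cj_rv he h2⟩ }
  have : N.Normal := ⟨fun a ha u => ⟨by simp [ha.1], fun p => by
    obtain ⟨f1, h1, h2⟩ := ha.2 (p * Γ.pi β u)
    refine ⟨f1, h1, ?_⟩
    rw [CL, lf_conj _ _ _ _ ha.1]
    exact h2.of_isConj (isConj_iff.2 ⟨_, rfl⟩)⟩⟩
  have h1 : Subgroup.normalClosure (Γ.rels β) ≤ N := Subgroup.normalClosure_le_normal (by
    rintro _ ⟨v, q, hq, rfl⟩
    refine ⟨pi_closed hq, fun p => ⟨[⟨false, p * (P.π v)⁻¹, rev β q⟩], ?_, ?_⟩⟩
    · simpa using ⟨rfl, v, hq.rev hM⟩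
    · have := P.mk_ed hM (p * (P.π v)⁻¹) hq
      rw [inv_mul_cancel_right] at this
      rw [← this]
      simpa [Face.wd, mk_rev (he _)] using
        Cj.pair (FreeGroup.mk (q.map (P.ed (p * (P.π v)⁻¹))))⁻¹)
  exact (h1 (PresentedGroup.mk_eq_one_iff.1 hx)).2 p

variable {xs : V} {c0 : ℝ} {R0 g : ℕ} [Nonempty D]

theorem Geo.uniq {A H M : Type} [AddCommGroup M] {ed : H → D → A × Bool} {c : H → D → M}
    {fA : A → S} (hG : Geo Γ β xs c0 R0 g) (hS : Sheets Γ β ed c fA) {X : FreeGroup A}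
    {fs gs : List (Face H D)} (hf : ∀ f ∈ fs, Γ.Cl β f) (hg : ∀ f ∈ gs, Γ.Cl β f)
    (h1 : Cj (X :: fs.map fun f => FreeGroup.mk (f.wd ed)))
    (h2 : Cj (X :: gs.map fun f => FreeGroup.mk (f.wd ed))) :
    (fs.map (Face.cs c)).sum = (gs.map (Face.cs c)).sum := by
  have h3 := (cj_rv hS.ed_bar h1).cancel h2
  rw [← List.map_append] at h3
  have h4 := hG.asph hS (List.forall_mem_append.2
    ⟨List.forall_mem_map.2 fun f h => (hf f h).rv hS.isM, hg⟩) h3
  have h5 : ((fs.map (Face.rv β)).map (Face.cs c)).sum = - (fs.map (Face.cs c)).sum := by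
    clear h1 h3 h4 hf
    induction fs with
    | nil => simp
    | cons f fs ih =>
      rw [List.map_cons, List.map_cons, List.map_cons, List.sum_cons, List.sum_cons, ih, neg_add]
      exact congrArg (· + _) (sum_rev (hS.c_neg f.h) f.p)
  rw [List.map_append, List.sum_append, h5, neg_add_eq_zero] at h4
  exact h4

theorem Geo.emb' (hG : Geo Γ β xs c0 R0 g) (hM : Γ.IsM β) {y : V} {p : List D}
    (hp : Γ.Path β xs p y) (h : Γ.ev β (p.map Γ.lab) = 1) : y = xs := by
  obtain ⟨P⟩ := exists_pot' hM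
  obtain ⟨q, hq, hl⟩ := hG.diam _ _ _ hp
  have h1 := (P.path_ed hM 1 hp).2
  rw [(P.path_ed hM 1 hq).2, mul_right_inj] at h1
  obtain ⟨fs, h2, h3⟩ := P.exists_fill hM (h1.trans h) (1 * P.π xs)
  rw [← P.mk_ed hM 1 hq] at h3
  exact hG.emb (P.sheets hM (c := fun _ _ => (0 : ℤ)) (by simp)) hq hl h2 h3

theorem Geo.stokes (hG : Geo Γ β xs c0 R0 g) (hM : Γ.IsM β) :
    ∃ lam, StokesBound (PresentedGroup.of : S → Γ.Grp β) lam := by
  obtain ⟨P⟩ := exists_pot' hM
  set ℓ := 3 * (R0 * g) with hℓ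
  refine ⟨⌈2 * ℓ / cc c0 R0⌉₊, fun f k hf hk p w hw => ?_⟩
  have e : lift (PresentedGroup.of : S → Γ.Grp β) = Γ.pi β := by ext s; simp; rfl
  rw [e] at hw
  obtain ⟨fs, h2, h3⟩ := P.exists_fill hM hw p
  rw [← mk_cayw] at h3
  obtain ⟨l, h4, -, h5⟩ := hG.fill (P.sheets hM (c := fun _ _ => (0 : ℤ)) (by simp)) h2 h3
  have h6 := congrArg Multiplicative.toAdd
    (CjP.comm (stokesHom (Γ.pi β) f k) (Cj.cons_iff.1 h4))
  rw [map_inv, toAdd_inv, stokes_cayw] at h6
  have h7 : ∀ l : List (Γ.SF β (Γ.Grp β) ℓ), |((l.map fun f => FreeGroup.mk (f.1.wd P.ed)).map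
      (stokesHom (Γ.pi β) f k)).prod.toAdd| ≤ l.length * (2 * ℓ * ℓ) := by
    intro l
    induction l with
    | nil => simp
    | cons F l ih =>
      obtain ⟨-, v, hv⟩ := F.cl
      have k1 := stokes_closed (Γ.pi β) hf hk _ (pi_closed hv) (F.f.h * P.π v)
      rw [← (P.path_ed hM _ hv).1, List.length_map] at k1
      have k2 : (F.f.p.length : ℤ) ≤ ℓ := by exact_mod_cast F.len
      have k3 : (0 : ℤ) ≤ F.f.p.length := Nat.cast_nonneg _
      rw [List.map_cons, List.map_cons, List.prod_cons, toAdd_mul, List.length_cons]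
      refine (abs_add_le _ _).trans ((add_le_add k1 ih).trans ?_)
      push_cast
      nlinarith
  have h8 := h7 l
  rw [← h6, abs_neg] at h8
  refine h8.trans ?_
  rw [length_cayw] at h5
  have k1 := hG.cc_pos
  have k2 : (l.length : ℝ) * (2 * ℓ * ℓ) ≤ ⌈2 * ℓ / cc c0 R0⌉₊ * w.length := calc
    _ = 2 * ℓ / cc c0 R0 * (cc c0 R0 * ℓ * l.length) := by field_simp
    _ ≤ _ := mul_le_mul (Nat.le_ceil _) h5 (by positivity) (by positivity)
  exact_mod_cast k2

theorem Geo.tf (hG : Geo Γ β xs c0 R0 g) (hM : Γ.IsM β) (t : Γ.Grp β) (ht : IsOfFinOrder t) :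
    t = 1 := by
  classical
  obtain ⟨P⟩ := exists_pot' hM
  obtain ⟨u, rfl⟩ := PresentedGroup.mk_surjective _ t
  set t := Γ.pi β u with htu
  set n := orderOf t with hn
  have : NeZero n := ⟨ht.orderOf_pos.ne'⟩
  obtain ⟨a, ha⟩ := exists_level n hn.symm
  let B : FreeGroup (Γ.Grp β × S) →* Multiplicative ℤ :=
    lift fun x => Multiplicative.ofAdd ((a (x.1 * Γ.pi β (of x.2)) - a x.1).val : ℤ)
  have hB : ∀ x, B (FreeGroup.map (tr t) x) = B x := fun x => by
    have : B.comp (FreeGroup.map (tr t)) = B := by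
      ext y; simp [B, tr, mul_assoc, ha]
    exact DFunLike.congr_fun this x
  have hmod : ∀ x p, ((B (CL (Γ.pi β) x p)).toAdd : ZMod n) = a (p * Γ.pi β x) - a p := by
    intro x
    induction x with
    | C1 => intro p; simp [CL, lf_one]
    | of s => intro p; simp [CL, lf_of, B]
    | inv_of s ih =>
      intro p
      simp only [CL, lf_inv', map_inv, toAdd_inv, Int.cast_neg] at ih ⊢
      rw [ih]; simp
    | mul x y hx hy =>
      intro p
      simp only [CL, lf_mul, map_mul, toAdd_mul, Int.cast_add] at hx hy ⊢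
      rw [hx, hy, mul_assoc]; ring
  have hpow : ∀ k : ℕ, (B (CL (Γ.pi β) (u ^ k) 1)).toAdd = k * (B (CL (Γ.pi β) u 1)).toAdd := by
    intro k
    induction k with
    | zero => simp [CL, lf_one]
    | succ k ih =>
      have := hB (CL (Γ.pi β) (u ^ k) 1)
      rw [tr_CL, mul_one] at this
      rw [pow_succ', CL, lf_mul, map_mul, toAdd_mul, one_mul, ← CL, ← CL, this, ih]
      push_cast; ring
  have hun : Γ.pi β (u ^ n) = 1 := by rw [map_pow]; exact pow_orderOf_eq_one t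
  obtain ⟨fs, h1, h2⟩ := P.exists_fill hM hun 1
  let c : ZMod n → Γ.Grp β → D → ℤ := fun k h d =>
    if a h = k then (B (FreeGroup.mk [P.ed h d])).toAdd else 0
  have he := (P.sheets hM (c := fun _ _ => (0 : ℤ)) (by simp)).ed_bar
  have hc : ∀ k h d, c k h (β d) = - c k h d := fun k h d => by
    simp only [c, he, mk_bar, map_inv, toAdd_inv]; split_ifs <;> simp
  have hcs : ∀ k (f : Face (Γ.Grp β) D), f.cs (c k) =
      if a f.h = k then (B (FreeGroup.mk (f.wd P.ed))).toAdd else 0 := by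
    rintro k ⟨o, h, p⟩
    simp only [Face.cs, Face.wd, c]
    induction p with
    | nil => simp [mk_nil]
    | cons d p ih =>
      rw [List.map_cons, List.sum_cons, ih, List.map_cons, mk_cons _ (p.map _), map_mul, toAdd_mul]
      split_ifs <;> simp
  let T : Face (Γ.Grp β) D → Face (Γ.Grp β) D := fun f => ⟨f.op, t * f.h, f.p⟩
  have hT : ∀ f, FreeGroup.mk ((T f).wd P.ed) =
      FreeGroup.map (tr t) (FreeGroup.mk (f.wd P.ed)) := fun f => by
    rw [map_mk, Face.wd, Face.wd, List.map_map]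
    exact congrArg _ (List.map_congr_left fun d _ => by simp [T, Pot.ed, tr_cay, mul_assoc])
  have h3 : Cj (CL (Γ.pi β) (u ^ n) 1 :: (fs.map T).map fun f => FreeGroup.mk (f.wd P.ed)) := by
    have k1 := h2.map (FreeGroup.map (tr t))
    rw [List.map_cons, tr_CL, mul_one, List.map_map] at k1
    have k2 := lf_conj (Γ.pi β) (fun s p => of (p, s)) u _ hun 1
    rw [show u * u ^ n * u⁻¹ = u ^ n by group, one_mul] at k2
    rw [List.map_map]
    simp only [Function.comp_def, hT] at k1 ⊢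
    exact k1.of_isConj (isConj_iff.2 ⟨_, k2.symm⟩)
  have h4 : ∀ k, (fs.map (Face.cs (c (k + 1)))).sum = (fs.map (Face.cs (c k))).sum := fun k => by
    rw [hG.uniq (P.sheets hM (hc (k + 1))) h1 (List.forall_mem_map.2 (show ∀ f ∈ fs, Γ.Cl β (T f) from h1))
      h2 h3, List.map_map]
    refine congrArg _ (List.map_congr_left fun f _ => ?_)
    rw [Function.comp_apply, hcs, hcs, hT, hB]
    simp [T, ha]
  have h5 : ∀ k, (fs.map (Face.cs (c k))).sum = (fs.map (Face.cs (c 0))).sum := fun k => by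
    obtain ⟨m, rfl⟩ := ZMod.natCast_zmod_surjective k
    induction m with
    | zero => simp
    | succ m ih => rw [Nat.cast_succ, h4, ih]
  have h6 : ∀ fs : List (Face (Γ.Grp β) D), ∑ k, (fs.map (Face.cs (c k))).sum =
      ((fs.map fun f => FreeGroup.mk (f.wd P.ed)).map B).prod.toAdd := fun fs => by
    induction fs with
    | nil => simp
    | cons f fs ih => simp only [List.map_cons, List.sum_cons, Finset.sum_add_distrib, ih,
        List.prod_cons, toAdd_mul, hcs, Finset.sum_ite_eq, Finset.mem_univ, if_true]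
  have h7 := h6 fs
  rw [← CjP.comm B (Cj.cons_iff.1 h2), map_inv, toAdd_inv, hpow] at h7
  simp only [h5, Finset.sum_const, Finset.card_univ, ZMod.card, nsmul_eq_mul, ← mul_neg] at h7
  have h8 := mul_left_cancel₀ (by exact_mod_cast NeZero.ne n) h7
  have h9 : ∀ fs : List (Face (Γ.Grp β) D), (∀ f ∈ fs, Γ.Cl β f) →
      (((fs.map (Face.cs (c 0))).sum : ℤ) : ZMod n) = 0 := fun fs h => by
    induction fs with
    | nil => simp
    | cons f fs ih =>
      obtain ⟨-, v, hv⟩ := h f (by simp)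
      rw [List.map_cons, List.sum_cons, Int.cast_add, ih fun f' hf => h f' (by simp [hf]), hcs]
      split_ifs
      · rw [Face.wd, P.mk_ed hM _ hv, hmod, pi_closed hv]; simp
      · simp
  have h10 := h9 fs h1
  rw [h8, Int.cast_neg, hmod, one_mul, ← htu, neg_eq_zero] at h10
  have h11 := ha 1
  rw [mul_one] at h11
  rw [h11, add_sub_cancel_left, ← Nat.cast_one, ZMod.natCast_eq_zero_iff, Nat.dvd_one] at h10
  exact orderOf_eq_one_iff.1 h10

end Crest.Agent.GSC
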