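import Crest.Agent.GSC.Iso
import Crest.Agent.GSC.Iface

/-! Crossed homomorphisms, Cayley graph words and the discrete Stokes integral. -/

set_option autoImplicit false

namespace Crest.Agent.GSC

open FreeGroup (mk of lift invRev mul_mk inv_mk)

section Cross
variable {S G X : Type} [Group G] [Group X] (pi : FreeGroup S →* G) (e : S → G → X)

/-- the homomorphism into the wreath product -/
def crossHom : FreeGroup S →* X ≀ᵣ G := lift fun s => ⟨fun q => e s q⁻¹, pi (of s)⟩

theorem crossHom_right (x : FreeGroup S) : (crossHom pi e x).right = pi x := by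
  have : (RegularWreathProduct.rightHom (D := X) (Q := G)).comp (crossHom pi e) = pi := by
    ext s; simp [crossHom, RegularWreathProduct.rightHom]
  exact DFunLike.congr_fun this x

/-- the crossed homomorphism -/
def lf (x : FreeGroup S) (p : G) : X := (crossHom pi e x).left p⁻¹

theorem lf_of (s : S) (p : G) : lf pi e (of s) p = e s p := by simp [lf, crossHom]

theorem lf_mul (x y : FreeGroup S) (p : G) :
    lf pi e (x * y) p = lf pi e x p * lf pi e y (p * pi x) := by
  simp [lf, crossHom_right]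

theorem lf_one (p : G) : lf pi e 1 p = 1 := by simp [lf]

theorem lf_inv (x : FreeGroup S) (p : G) : lf pi e x⁻¹ (p * pi x) = (lf pi e x p)⁻¹ := by
  rw [eq_inv_iff_mul_eq_one, ← eq_inv_iff_mul_eq_one, eq_comm, inv_eq_iff_mul_eq_one, ← lf_mul,
    mul_inv_cancel, lf_one]

theorem lf_inv' (x : FreeGroup S) (p : G) : lf pi e x⁻¹ p = (lf pi e x (p * (pi x)⁻¹))⁻¹ := by
  rw [← lf_inv, inv_mul_cancel_right]

theorem lf_conj (u ρ : FreeGroup S) (h : pi ρ = 1) (p : G) :
    lf pi e (u * ρ * u⁻¹) p = lf pi e u p * lf pi e ρ (p * pi u) * (lf pi e u p)⁻¹ := by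
  rw [lf_mul, lf_mul, map_mul, h, mul_one, lf_inv]

theorem lf_prod {ι : Type} (u ρ : ι → FreeGroup S) (h : ∀ i, pi (ρ i) = 1) (p : G) :
    ∀ l : List ι, pi (l.map fun i => u i * ρ i * (u i)⁻¹).prod = 1 ∧
      CjP (l.map fun i => lf pi e (ρ i) (p * pi (u i)))
        (lf pi e (l.map fun i => u i * ρ i * (u i)⁻¹).prod p)
  | [] => ⟨by simp, by simpa [lf_one] using CjP.nil⟩
  | i :: l => by
    obtain ⟨h1, h2⟩ := lf_prod u ρ h p l
    have h3 : pi (u i * ρ i * (u i)⁻¹) = 1 := by simp [h]
    refine ⟨by rw [List.map_cons, List.prod_cons, map_mul, h1, h3, mul_one], ?_⟩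
    rw [List.map_cons, List.map_cons, List.prod_cons, lf_mul, h3, mul_one, lf_conj _ _ _ _ (h i)]
    exact CjP.cons _ _ h2

/-- the Cayley edge read from `p` -/
def cay (p : G) (a : S × Bool) : (G × S) × Bool :=
  if a.2 then ((p, a.1), true) else ((p * (pi (of a.1))⁻¹, a.1), false)

/-- the lift of an element to the Cayley graph -/
def CL (x : FreeGroup S) (p : G) : FreeGroup (G × S) := lf pi (fun s p => of (p, s)) x p

theorem CL_letter (p : G) (a : S × Bool) : CL pi (mk [a]) p = mk [cay pi p a] := by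
  rcases a with ⟨s, b⟩
  cases b
  · have e1 : mk [(s, false)] = (of s)⁻¹ := mk_bar (s, true)
    rw [e1, CL, lf_inv', lf_of]
    exact (mk_bar (_, true)).symm
  · exact lf_of _ _ _ _

theorem cay_bar (p : G) (a : S × Bool) : cay pi (p * pi (mk [a])) (bar a) = bar (cay pi p a) := by
  rcases a with ⟨s, b⟩
  cases b
  · have e1 : mk [(s, false)] = (of s)⁻¹ := mk_bar (s, true)
    simp [e1, cay, bar]
  · have e1 : mk [(s, true)] = of s := rfl
    simp [e1, cay, bar]

theorem cay_inj {p q : G} {a : S × Bool} (h : cay pi p a = cay pi q a) : p = q := by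
  rcases a with ⟨s, b⟩
  cases b <;> simpa [cay] using h

theorem cay_lab (p : G) (a : S × Bool) : lm Prod.snd (cay pi p a) = a := by
  rcases a with ⟨s, b⟩
  cases b <;> rfl

/-- the Cayley path read from `p` -/
def cayw : G → List (S × Bool) → List ((G × S) × Bool)
  | _, [] => []
  | p, a :: w => cay pi p a :: cayw (p * pi (mk [a])) w

theorem mk_cayw : ∀ (p : G) (w : List (S × Bool)), mk (cayw pi p w) = CL pi (mk w) p
  | p, [] => (lf_one _ _ _).symm
  | p, a :: w => by
    rw [cayw, mk_cons, mk_cons a, mk_cayw, ← CL_letter]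
    exact (lf_mul _ _ _ _ _).symm

theorem length_cayw : ∀ (p : G) (w : List (S × Bool)), (cayw pi p w).length = w.length
  | _, [] => rfl
  | p, a :: w => by simp [cayw, length_cayw]

/-- left translation of Cayley edges -/
def tr (t : G) (x : G × S) : G × S := (t * x.1, x.2)

theorem tr_cay (t p : G) (a : S × Bool) : lm (tr t) (cay pi p a) = cay pi (t * p) a := by
  rcases a with ⟨s, b⟩
  cases b <;> simp [cay, lm, tr, mul_assoc]

theorem tr_CL (t : G) (x : FreeGroup S) : ∀ p, FreeGroup.map (tr t) (CL pi x p) = CL pi x (t * p) := by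
  induction x with
  | C1 => intro p; simp [CL, lf_one]
  | of s => intro p; simp [CL, lf_of, tr]
  | inv_of s ih => intro p; simp only [CL, lf_inv', map_inv] at ih ⊢; rw [ih, mul_assoc]
  | mul x y hx hy => intro p; simp only [CL, lf_mul, map_mul] at hx hy ⊢; rw [hx, hy, mul_assoc]

/-- the Stokes integrand -/
def stokesHom (f g : G → ℤ) : FreeGroup (G × S) →* Multiplicative ℤ :=
  lift fun x => Multiplicative.ofAdd
    ((f x.1 + f (x.1 * pi (of x.2))) * (g (x.1 * pi (of x.2)) - g x.1))

theorem pi_letter (a : S × Bool) :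
    pi (mk [a]) = if a.2 then pi (of a.1) else (pi (of a.1))⁻¹ := by
  rcases a with ⟨s, b⟩
  cases b
  · have e1 : mk [(s, false)] = (of s)⁻¹ := mk_bar (s, true)
    simp [e1]
  · rfl

theorem stokes_cayw (f g : G → ℤ) : ∀ (p : G) (w : List (S × Bool)),
    (stokesHom pi f g (mk (cayw pi p w))).toAdd =
      ((steps (fun s => pi (of s)) p w).map fun e => (f e.1 + f e.2) * (g e.2 - g e.1)).sum
  | p, [] => by simp [cayw, steps, mk_nil]
  | p, a :: w => by
    rw [cayw, mk_cons, map_mul, toAdd_mul, stokes_cayw, steps, List.map_cons, List.sum_cons,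
      ← pi_letter]
    congr 1
    simp only [pi_letter]
    rcases a with ⟨s, b⟩
    cases b
    · simp [stokesHom, cay]; ring
    · simp [stokesHom, cay]; ring

theorem stokes_walk {f g : G → ℤ} (hf : ∀ p s, |f (p * pi (of s)) - f p| ≤ 1)
    (hg : ∀ p s, |g (p * pi (of s)) - g p| ≤ 1) (f0 : ℤ) :
    ∀ (w : List (S × Bool)) (p : G) (j : ℤ), |f p - f0| ≤ j →
      |((steps (fun s => pi (of s)) p w).map fun e => (f e.1 + f e.2) * (g e.2 - g e.1)).sum -
        2 * f0 * (g (p * pi (mk w)) - g p)| ≤ 2 * w.length * (j + w.length)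
  | [], p, j, _ => by simp [steps, mk_nil]
  | a :: w, p, j, hj => by
    have lip : ∀ f : G → ℤ, (∀ p s, |f (p * pi (of s)) - f p| ≤ 1) →
        |f (p * pi (mk [a])) - f p| ≤ 1 := fun f hf => by
      rw [pi_letter]
      split_ifs
      · exact hf _ _
      · have := hf (p * (pi (of a.1))⁻¹) a.1
        rwa [inv_mul_cancel_right, abs_sub_comm] at this
    have h1 := lip f hf
    have h2 := lip g hg
    have h3 : |f (p * pi (mk [a])) - f0| ≤ j + 1 := by
      rw [abs_le] at *; constructor <;> linarith [h1.1, h1.2, hj.1, hj.2]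
    have h4 := stokes_walk hf hg f0 w _ _ h3
    rw [steps, List.map_cons, List.sum_cons, ← pi_letter, mk_cons a w, map_mul, ← mul_assoc]
    generalize ((steps (fun s => pi (of s)) (p * pi (mk [a])) w).map
      fun e => (f e.1 + f e.2) * (g e.2 - g e.1)).sum = T at h4 ⊢
    generalize g (p * pi (mk [a]) * pi (mk w)) = z at h4 ⊢
    have h5 : |(f p - f0 + (f (p * pi (mk [a])) - f0)) * (g (p * pi (mk [a])) - g p)| ≤
        (j + (j + 1)) * 1 := by
      rw [abs_mul]
      exact mul_le_mul ((abs_add_le _ _).trans (add_le_add hj h3)) h2 (abs_nonneg _)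
        (by linarith [abs_nonneg (f p - f0)])
    have h6 : (0 : ℤ) ≤ w.length := Nat.cast_nonneg _
    refine le_trans (le_of_eq ?_) ((abs_add_le _ _).trans ((add_le_add h5 h4).trans ?_))
    · congr 1; ring
    · simp only [List.length_cons]; push_cast; nlinarith

theorem stokes_closed {f g : G → ℤ} (hf : ∀ p s, |f (p * pi (of s)) - f p| ≤ 1)
    (hg : ∀ p s, |g (p * pi (of s)) - g p| ≤ 1) (w : List (S × Bool)) (hw : pi (mk w) = 1)
    (p : G) : |(stokesHom pi f g (mk (cayw pi p w))).toAdd| ≤ 2 * w.length * w.length := by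
  have := stokes_walk pi hf hg (f p) w p 0 (by simp)
  rw [stokes_cayw]
  simpa [hw] using this

theorem exists_level {t : G} (n : ℕ) (hn : orderOf t = n) :
    ∃ a : G → ZMod n, ∀ g, a (t * g) = a g + 1 := by
  let st := MulAction.orbitRel (Subgroup.zpowers t) G
  have h1 : ∀ g : G, ∃ k : ℤ, t ^ k * (Quotient.mk st g).out = g := fun g => by
    have : st.r g (Quotient.mk st g).out := Quotient.exact (Quotient.out_eq _).symm
    obtain ⟨⟨_, k, rfl⟩, hk⟩ := this
    exact ⟨k, hk⟩
  choose k hk using h1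
  refine ⟨fun g => k g, fun g => ?_⟩
  have e1 : Quotient.mk st (t * g) = Quotient.mk st g :=
    Quotient.sound ⟨⟨t, Subgroup.mem_zpowers t⟩, rfl⟩
  have e2 := hk (t * g)
  rw [e1] at e2
  conv_rhs at e2 => rw [← hk g, ← mul_assoc, ← zpow_one_add]
  have e3 := zpow_eq_zpow_iff_modEq.1 (mul_right_cancel e2)
  rw [hn, ← ZMod.intCast_eq_intCast_iff] at e3
  simp only [e3]; push_cast; ring

end Cross

end Crest.Agent.GSC
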