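import Crest.Agent.GSC.Cyc

/-! Cutting a diagram along a short chain of faces. -/

set_option autoImplicit false

namespace Crest.Agent.GSC

open FreeGroup (mk of lift invRev mul_mk inv_mk)

variable {E ι : Type}

/-- a planar system with outer word `W`, inner faces `fs` and successor permutation `φ` -/
structure Sys (wd : ι → List (E × Bool)) (φ : Equiv.Perm (E × Bool)) (W : List (E × Bool))
    (fs : List ι) : Prop where
  nd : (W ++ fs.flatMap wd).Nodup
  cj : Cj (mk W :: fs.map fun f => mk (wd f))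
  cW : Cyc φ W
  cf : ∀ f ∈ fs, Cyc φ (wd f)

theorem Sys.rot {wd : ι → List (E × Bool)} {φ} {u v : List (E × Bool)} {fs : List ι}
    (h : Sys wd φ (u ++ v) fs) : Sys wd φ (v ++ u) fs :=
  ⟨(List.perm_append_comm.append_right _).nodup_iff.1 h.nd,
    Cj.of_isConj (isConj_rot _ _) h.cj, h.cW.rot, h.cf⟩

theorem Sys.perm {wd : ι → List (E × Bool)} {φ} {W : List (E × Bool)} {fs fs' : List ι}
    (h : Sys wd φ W fs) (p : fs.Perm fs') : Sys wd φ W fs' :=
  ⟨((p.flatMap_right wd).append_left W).nodup_iff.1 h.nd, h.cj.perm ((p.map _).cons _), h.cW,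
    fun f hf => h.cf f (p.symm.subset hf)⟩

theorem Sys.notMem {wd : ι → List (E × Bool)} {φ} {W : List (E × Bool)} {fs : List ι}
    (h : Sys wd φ W fs) {x : E × Bool} (hx : x ∈ W) : ∀ f ∈ fs, x ∉ wd f := fun f hf h' =>
  (List.nodup_append.1 h.nd).2.2 x hx x (List.mem_flatMap.2 ⟨f, hf, h'⟩) rfl

theorem Sys.ndW {wd : ι → List (E × Bool)} {φ} {W : List (E × Bool)} {fs : List ι}
    (h : Sys wd φ W fs) : W.Nodup := (List.nodup_append.1 h.nd).1

theorem Sys.bar_mem {wd : ι → List (E × Bool)} {φ} {W : List (E × Bool)} {fs : List ι}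
    (h : Sys wd φ W fs) {x : E × Bool} (hx : x ∈ W ++ fs.flatMap wd) :
    bar x ∈ W ++ fs.flatMap wd := by
  have := Crest.Agent.GSC.bar_mem (ws := W :: fs.map wd) (x := x)
    (by simpa [List.flatMap_def] using h.nd)
    (by simpa [List.map_map, Function.comp_def] using h.cj) (by simpa [List.flatMap_def] using hx)
  simpa [List.flatMap_def] using this

theorem exists_sys {wd : ι → List (E × Bool)} {W : List (E × Bool)} {fs : List ι}
    (nd : (W ++ fs.flatMap wd).Nodup) (cj : Cj (mk W :: fs.map fun f => mk (wd f))) :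
    ∃ φ, Sys wd φ W fs ∧ ∀ x, x ∉ W ++ fs.flatMap wd → φ x = x := by
  classical
  obtain ⟨φ, h1, h2⟩ := exists_cyc (W :: fs.map wd) (by simpa [List.flatMap_def] using nd)
  exact ⟨φ, ⟨nd, cj, h1 W (by simp), fun f hf => h1 _ (by simp; exact Or.inr ⟨f, hf, rfl⟩)⟩,
    fun x hx => h2 x (by simpa [List.flatMap_def] using hx)⟩

/-- the vertices of `σ` and `τ` are joined by a chain of at most `s` inner faces -/
inductive Near (wd : ι → List (E × Bool)) (φ : Equiv.Perm (E × Bool)) (fs : List ι) :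
    ℕ → E × Bool → E × Bool → Prop
  | vx {s σ τ} : (nu φ).SameCycle σ τ → Near wd φ fs s σ τ
  | step {s σ ρ ρ' τ f} : f ∈ fs → ρ ∈ wd f → ρ' ∈ wd f → (nu φ).SameCycle σ ρ →
      Near wd φ fs s ρ' τ → Near wd φ fs (s + 1) σ τ

namespace Near
variable {wd : ι → List (E × Bool)} {φ : Equiv.Perm (E × Bool)} {fs : List ι}

theorem succ {s σ τ} (h : Near wd φ fs s σ τ) : Near wd φ fs (s + 1) σ τ := by
  induction h with
  | vx h => exact vx h
  | step h1 h2 h3 h4 _ ih => exact step h1 h2 h3 h4 ih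

theorem mono {s s' σ τ} (hs : s ≤ s') (h : Near wd φ fs s σ τ) : Near wd φ fs s' σ τ := by
  induction hs with
  | refl => exact h
  | step _ ih => exact ih.succ

theorem left {s σ σ' τ} (hv : (nu φ).SameCycle σ' σ) (h : Near wd φ fs s σ τ) :
    Near wd φ fs s σ' τ := by
  cases h with
  | vx h => exact vx (hv.trans h)
  | step h1 h2 h3 h4 h5 => exact step h1 h2 h3 (hv.trans h4) h5

theorem right {s σ τ τ'} (h : Near wd φ fs s σ τ) (hv : (nu φ).SameCycle τ τ') :
    Near wd φ fs s σ τ' := by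
  induction h with
  | vx h => exact vx (h.trans hv)
  | step h1 h2 h3 h4 _ ih => exact step h1 h2 h3 h4 (ih hv)

theorem face {s σ τ τ' f} (h : Near wd φ fs s σ τ) (hf : f ∈ fs) (h1 : τ ∈ wd f)
    (h2 : τ' ∈ wd f) : Near wd φ fs (s + 1) σ τ' := by
  induction h with
  | vx h => exact step hf h1 h2 h (vx (Equiv.Perm.SameCycle.refl _ _))
  | step h3 h4 h5 h6 _ ih => exact step h3 h4 h5 h6 (ih h1)

theorem sub {fs' : List ι} (hs : fs ⊆ fs') {s σ τ} (h : Near wd φ fs s σ τ) :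
    Near wd φ fs' s σ τ := by
  induction h with
  | vx h => exact vx h
  | step h1 h2 h3 h4 _ ih => exact step (hs h1) h2 h3 h4 ih

end Near

theorem sameCycle_swap {α : Type*} [Finite α] [DecidableEq α] {ν : Equiv.Perm α} {σ ρ a b : α}
    (hv : ν.SameCycle σ ρ) (ha : ¬ ν.SameCycle σ a) (h : ν.SameCycle a b) :
    (Equiv.swap σ ρ * ν : Equiv.Perm α).SameCycle a b := by
  obtain ⟨i, -, rfl⟩ := h.exists_pow_eq'
  have : ∀ k : ℕ, ((Equiv.swap σ ρ * ν : Equiv.Perm α) ^ k) a = (ν ^ k) a := by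
    intro k
    induction k with
    | zero => rfl
    | succ k ih =>
      rw [pow_succ', pow_succ', Equiv.Perm.mul_apply, ih, Equiv.Perm.mul_apply,
        Equiv.Perm.mul_apply, Equiv.swap_apply_of_ne_of_ne]
      · intro e
        refine ha (Equiv.Perm.SameCycle.symm ⟨((k + 1 : ℕ) : ℤ), ?_⟩)
        rw [zpow_natCast, pow_succ']; exact e
      · intro e
        refine ha (hv.trans (Equiv.Perm.SameCycle.symm ⟨((k + 1 : ℕ) : ℤ), ?_⟩))
        rw [zpow_natCast, pow_succ']; exact e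
  exact ⟨(i : ℤ), by rw [zpow_natCast, this]⟩

variable [Finite E]

theorem Near.transfer [DecidableEq E] {wd : ι → List (E × Bool)} {φ : Equiv.Perm (E × Bool)}
    {fs : List ι} {f0 : ι} {σ ρ : E × Bool} (hv : (nu φ).SameCycle σ ρ) {s a τ}
    (h : Near wd φ (f0 :: fs) s a τ) :
    Near wd (Equiv.swap σ ρ * φ) fs s a τ ∨ Near wd φ (f0 :: fs) s σ τ ∨
      ∃ ρ'' ∈ wd f0, ∃ s' < s, Near wd φ (f0 :: fs) s' ρ'' τ := by
  have hnu : nu (Equiv.swap σ ρ * φ) = Equiv.swap σ ρ * nu φ := mul_assoc _ _ _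
  induction h with
  | @vx s a τ h =>
    by_cases ha : (nu φ).SameCycle σ a
    · exact Or.inr (Or.inl (Near.vx (ha.trans h)))
    · exact Or.inl (Near.vx (hnu ▸ sameCycle_swap hv ha h))
  | @step s a ρ1 ρ1' τ f h1 h2 h3 h4 h5 ih =>
    by_cases ha : (nu φ).SameCycle σ a
    · exact Or.inr (Or.inl ((Near.step h1 h2 h3 h4 h5).left ha))
    · rcases List.mem_cons.1 h1 with rfl | h1
      · exact Or.inr (Or.inr ⟨ρ1', h3, s, Nat.lt_succ_self _, h5⟩)
      · rcases ih with ih | ih | ⟨ρ'', h6, s', h7, h8⟩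
        · exact Or.inl (Near.step h1 h2 h3 (hnu ▸ sameCycle_swap hv ha h4) ih)
        · exact Or.inr (Or.inl ih.succ)
        · exact Or.inr (Or.inr ⟨ρ'', h6, s', by omega, h8⟩)

theorem exists_rot2 {α : Type*} {r : List α} {ρ ρ' : α} (h : ρ ∈ r) (h' : ρ' ∈ r) :
    ∃ u v B γ1 γ2, r = u ++ v ∧ v ++ u = ρ :: B ∧ ρ :: B = γ1 ++ ρ' :: γ2 := by
  obtain ⟨u, v, rfl⟩ := List.append_of_mem h
  have : ρ' ∈ ρ :: (v ++ u) := by
    simp only [List.mem_append, List.mem_cons] at h' ⊢; tauto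
  obtain ⟨γ1, γ2, e⟩ := List.append_of_mem this
  exact ⟨u, ρ :: v, v ++ u, γ1, γ2, rfl, rfl, e⟩

/-- The result of cutting. -/
def CutOut (wd : ι → List (E × Bool)) (fs : List ι) (X Y : List (E × Bool)) (s ℓ : ℕ) : Prop :=
  ∃ (X' Y' : List (E × Bool)) (f1 f2 f3 : List ι), fs.Perm (f1 ++ f2 ++ f3) ∧ f3.length ≤ s ∧
    Cj (mk X' :: f1.map fun f => mk (wd f)) ∧ Cj (mk Y' :: f2.map fun f => mk (wd f)) ∧
    X'.length ≤ X.length + s * ℓ ∧ Y'.length ≤ Y.length + s * ℓ ∧
    X'.length + Y'.length ≤ X.length + Y.length + s * ℓ ∧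
    Cj ((mk X')⁻¹ :: (mk Y')⁻¹ :: mk (X ++ Y) :: f3.map fun f => mk (wd f))

omit [Finite E] in
theorem CutOut.mono {wd : ι → List (E × Bool)} {fs : List ι} {X Y : List (E × Bool)} {s s' ℓ : ℕ}
    (hs : s ≤ s') (h : CutOut wd fs X Y s ℓ) : CutOut wd fs X Y s' ℓ := by
  obtain ⟨X', Y', f1, f2, f3, h1, h2, h3, h4, h5, h6, h7, h8⟩ := h
  have := Nat.mul_le_mul_right ℓ hs
  exact ⟨X', Y', f1, f2, f3, h1, by omega, h3, h4, by omega, by omega, by omega, h8⟩

theorem cut {wd : ι → List (E × Bool)} (ℓ : ℕ) (s : ℕ) :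
    ∀ (φ : Equiv.Perm (E × Bool)) (σ τ : E × Bool) (X Y : List (E × Bool)) (fs : List ι),
      Sys wd φ (σ :: X ++ τ :: Y) fs → (∀ f ∈ fs, (wd f).length ≤ ℓ) → Near wd φ fs s σ τ →
      CutOut wd fs (σ :: X) (τ :: Y) s ℓ := by
  classical
  induction s using Nat.strong_induction_on with
  | _ s ih =>
  intro φ σ τ X Y fs hS hℓ hN
  cases hN with
  | vx hv =>
    obtain ⟨f1, f2, hp, h1, h2⟩ := split_vertex hS.cW hS.cf hS.ndW
      (hS.notMem (by simp)) (hS.notMem (by simp)) hv hS.cj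
    refine ⟨σ :: X, τ :: Y, f1, f2, [], by simpa using hp, by simp, h1, h2, by omega, by omega,
      by omega, ?_⟩
    rw [mk_append, List.map_nil]
    refine Cj.perm (List.Perm.swap _ _ _) (Cj.of_mul ?_)
    rw [← mul_inv_rev]
    exact Cj.pair _
  | @step s _ ρ ρ' _ f0 h1 h2 h3 hv h5 =>
    obtain ⟨fs', hp⟩ : ∃ fs', fs.Perm (f0 :: fs') := ⟨fs.erase f0, List.perm_cons_erase h1⟩
    have hS' := hS.perm hp
    have h5' : Near wd φ (f0 :: fs') s ρ' τ := h5.sub hp.subset
    rcases h5'.transfer hv with h6 | h6 | ⟨ρ'', h6, s', h7, h8⟩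
    · obtain ⟨u, v, B, γ1, γ2, e1, e2, e3⟩ := exists_rot2 h2 h3
      have hB : Cyc φ (ρ :: B) := by
        rw [← e2]; apply Cyc.rot; rw [← e1]; exact hS.cf f0 h1
      have hpB : (wd f0).Perm (ρ :: B) := by rw [e1, ← e2]; exact List.perm_append_comm
      have hcB : IsConj (mk (wd f0)) (mk (ρ :: B)) := by rw [e1, ← e2]; exact isConj_rot _ _
      have hnd : ((σ :: (X ++ τ :: Y) ++ ρ :: B) ++ fs'.flatMap wd).Nodup := by
        have := hS'.nd
        rw [List.flatMap_cons, ← List.append_assoc] at this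
        exact ((hpB.append_left _).append_right _).nodup_iff.1 this
      have hσ : ∀ f ∈ fs', σ ∉ wd f := fun f hf h =>
        (List.nodup_append.1 hnd).2.2 σ (by simp) σ (List.mem_flatMap.2 ⟨f, hf, h⟩) rfl
      have hρ : ∀ f ∈ fs', ρ ∉ wd f := fun f hf h =>
        (List.nodup_append.1 hnd).2.2 ρ (by simp) ρ (List.mem_flatMap.2 ⟨f, hf, h⟩) rfl
      have hcf : ∀ f ∈ fs', Cyc φ (wd f) := fun f hf => hS'.cf f (by simp [hf])
      have hS2 : Sys wd (Equiv.swap σ ρ * φ) (σ :: (X ++ τ :: Y) ++ ρ :: B) fs' := by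
        refine ⟨hnd, ?_, Cyc.merge hS.cW hB (List.nodup_append.1 hnd).1,
          fun f hf => (hcf f hf).swap_of_notMem (hσ f hf) (hρ f hf)⟩
        refine merge_vertex hS.cW hB hcf (List.nodup_append.1 hnd).1 hσ hρ hv ?_
        have := (hS'.cj.perm (List.Perm.swap _ _ _)).of_isConj hcB
        exact this.perm (List.Perm.swap _ _ _)
      have e4 : σ :: (X ++ τ :: Y) ++ ρ :: B = (σ :: X ++ τ :: (Y ++ γ1)) ++ ρ' :: γ2 := by
        rw [e3]; simp
      rw [e4] at hS2
      have hS3 := hS2.rot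
      have e5 : ρ' :: γ2 ++ (σ :: X ++ τ :: (Y ++ γ1)) =
          ρ' :: (γ2 ++ σ :: X) ++ τ :: (Y ++ γ1) := by simp
      rw [e5] at hS3
      obtain ⟨X', Y', f1, f2, f3, k1, k2, k3, k4, k5, k6, k7, k8⟩ :=
        ih s (Nat.lt_succ_self _) _ _ _ _ _ _ hS3 (fun f hf => hℓ f (hp.symm.subset (by simp [hf])))
          h6
      have hl : γ1.length + γ2.length + 1 ≤ ℓ := by
        have h9 := hℓ f0 h1
        rw [hpB.length_eq, e3] at h9
        simp at h9; omega
      simp only [List.length_cons, List.length_append] at k5 k6 k7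
      refine ⟨X', Y', f1, f2, f0 :: f3, ?_, by simp; omega, k3, k4, ?_, ?_, ?_, ?_⟩
      · exact hp.trans ((k1.cons f0).trans List.perm_middle.symm)
      · simp only [List.length_cons, Nat.succ_mul]; omega
      · simp only [List.length_cons, Nat.succ_mul]; omega
      · simp only [List.length_cons, Nat.succ_mul]; omega
      · rw [← e5] at k8
        have k9 : Cj (mk (ρ' :: γ2 ++ (σ :: X ++ τ :: (Y ++ γ1))) :: (mk X')⁻¹ :: (mk Y')⁻¹ ::
            f3.map fun f => mk (wd f)) :=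
          k8.perm ((List.Perm.swap _ _ _).cons _ |>.trans (List.Perm.swap _ _ _))
        have k10 := k9.of_isConj (isConj_rot _ _)
        rw [← e4, mk_append] at k10
        have k11 := (k10.of_mul.perm (List.Perm.swap _ _ _)).of_isConj hcB.symm
        refine k11.perm ?_
        rw [List.map_cons, List.cons_append]
        classical
        exact List.perm_iff_count.2 fun a => by simp only [List.count_cons]; omega
    · exact (ih s (Nat.lt_succ_self _) φ σ τ X Y fs hS hℓ (h6.sub hp.symm.subset)).mono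
        (Nat.le_succ _)
    · exact (ih (s' + 1) (by omega) φ σ τ X Y fs hS hℓ
        (Near.step h1 h2 h6 hv (h8.sub hp.symm.subset))).mono (by omega)

end Crest.Agent.GSC
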