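import Crest.Agent.GSC.Tag

/-! Successor permutations of systems of cyclic words; splitting a vertex. -/

set_option autoImplicit false

namespace Crest.Agent.GSC

open FreeGroup (mk of lift invRev mul_mk inv_mk)

section Pth
variable {α : Type*}

/-- `l` is the trajectory of `φ` from `a`, and `b` comes next -/
def Pth (φ : α → α) : α → List α → α → Prop
  | a, [], b => a = b
  | a, x :: l, b => a = x ∧ Pth φ (φ x) l b

/-- `r` is a cycle of `φ` -/
def Cyc (φ : α → α) (r : List α) : Prop := ∀ a l, r = a :: l → Pth φ a r a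

theorem pth_append {φ : α → α} : ∀ {l l' : List α} {a c : α},
    Pth φ a (l ++ l') c ↔ ∃ b, Pth φ a l b ∧ Pth φ b l' c
  | [], l', a, c => by simp [Pth]
  | x :: l, l', a, c => by simp [Pth, pth_append (l := l), and_assoc]

theorem Pth.head {φ : α → α} {a b x : α} {l : List α} (h : Pth φ a (x :: l) b) : a = x := h.1

theorem cyc_cons {φ : α → α} {a : α} {l : List α} : Cyc φ (a :: l) ↔ Pth φ a (a :: l) a :=
  ⟨fun h => h a l rfl, fun h a' l' e => by cases e; exact h⟩

theorem cyc_nil {φ : α → α} : Cyc φ [] := fun _ _ e => by cases e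

theorem Cyc.of_pth {φ : α → α} {a : α} {r : List α} (h : Pth φ a r a) : Cyc φ r := by
  rintro b l rfl
  obtain rfl := h.head
  exact h

theorem Cyc.rot {φ : α → α} {u v : List α} (h : Cyc φ (u ++ v)) : Cyc φ (v ++ u) := by
  cases u with
  | nil => simpa using h
  | cons a u =>
    obtain ⟨b, h1, h2⟩ := pth_append.1 (h a (u ++ v) rfl)
    exact Cyc.of_pth (pth_append.2 ⟨a, h2, h1⟩)

theorem Pth.mem {φ : α → α} : ∀ {l : List α} {a b x : α}, Pth φ a l b → x ∈ l →
    φ x ∈ l.tail ∨ φ x = b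
  | y :: l, a, b, x, h, hx => by
    rcases List.mem_cons.1 hx with rfl | hx
    · cases l with
      | nil => exact Or.inr h.2
      | cons z l => exact Or.inl (by simp [h.2.head])
    · rcases Pth.mem h.2 hx with h1 | h1
      · exact Or.inl (List.mem_of_mem_tail h1)
      · exact Or.inr h1

theorem Cyc.mem {φ : α → α} {r : List α} {x : α} (h : Cyc φ r) (hx : x ∈ r) : φ x ∈ r := by
  cases r with
  | nil => simp at hx
  | cons a l =>
    rcases (cyc_cons.1 h).mem hx with h1 | h1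
    · exact List.mem_of_mem_tail h1
    · simp [h1]

theorem Pth.congr {φ ψ : α → α} : ∀ {l : List α} {a b : α}, Pth φ a l b → (∀ x ∈ l, ψ x = φ x) →
    Pth ψ a l b
  | [], _, _, h, _ => h
  | x :: l, _, _, h, hc => ⟨h.1, by
      rw [hc x (by simp)]; exact Pth.congr h.2 fun y hy => hc y (by simp [hy])⟩

theorem Cyc.congr {φ ψ : α → α} {r : List α} (h : Cyc φ r) (hc : ∀ x ∈ r, ψ x = φ x) :
    Cyc ψ r := fun a l e => (h a l e).congr hc

/-- a path whose last step is redirected -/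
theorem Pth.redirect {φ ψ : α → α} {l : List α} {a z b : α} (h : Pth φ a (l ++ [z]) b)
    (hc : ∀ x ∈ l, ψ x = φ x) : Pth ψ a (l ++ [z]) (ψ z) := by
  obtain ⟨c, h1, h2⟩ := pth_append.1 h
  exact pth_append.2 ⟨c, h1.congr hc, h2.1, rfl⟩

theorem Pth.last {φ : α → α} {l : List α} {a z b : α} (h : Pth φ a (l ++ [z]) b) : φ z = b := by
  obtain ⟨c, -, h2⟩ := pth_append.1 h
  exact h2.2

variable [DecidableEq α]

theorem Cyc.swap_of_notMem {φ : Equiv.Perm α} {r : List α} {σ τ : α} (h : Cyc φ r)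
    (hσ : σ ∉ r) (hτ : τ ∉ r) : Cyc (Equiv.swap σ τ * φ : Equiv.Perm α) r :=
  h.congr fun x hx => by
    have := h.mem hx
    rw [Equiv.Perm.mul_apply, Equiv.swap_apply_of_ne_of_ne]
    · rintro e; exact hσ (e ▸ this)
    · rintro e; exact hτ (e ▸ this)

theorem exists_snoc {β : Type*} (a : β) (l : List β) : ∃ l' z, a :: l = l' ++ [z] :=
  ⟨(a :: l).dropLast, (a :: l).getLast (by simp), (List.dropLast_append_getLast _).symm⟩

theorem Cyc.swap_half {φ : Equiv.Perm α} {A : List α} {σ τ : α} (h : Cyc φ (σ :: A))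
    (hn : (σ :: A).Nodup) (hτ : τ ∉ σ :: A) :
    Pth (Equiv.swap σ τ * φ : Equiv.Perm α) σ (σ :: A) τ := by
  obtain ⟨l, z, e⟩ := exists_snoc σ A
  have h1 := cyc_cons.1 h
  rw [e] at h1 hn ⊢
  have h2 := h1.redirect (ψ := (Equiv.swap σ τ * φ : Equiv.Perm α)) fun x hx => by
    rw [Equiv.Perm.mul_apply, Equiv.swap_apply_of_ne_of_ne]
    · intro e1
      have : x = z := φ.injective (e1.trans h1.last.symm)
      exact (List.nodup_append.1 hn).2.2 x hx z (by simp) this
    · intro e1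
      exact hτ (e1 ▸ h.mem (by rw [e]; simp [hx]))
  rwa [Equiv.Perm.mul_apply, h1.last, Equiv.swap_apply_left] at h2

theorem Cyc.merge {φ : Equiv.Perm α} {A B : List α} {σ τ : α} (hA : Cyc φ (σ :: A))
    (hB : Cyc φ (τ :: B)) (hn : (σ :: A ++ τ :: B).Nodup) :
    Cyc (Equiv.swap σ τ * φ : Equiv.Perm α) (σ :: A ++ τ :: B) := by
  have hn' := List.nodup_append.1 hn
  refine Cyc.of_pth (a := σ) (pth_append.2 ⟨τ, hA.swap_half hn'.1 ?_, ?_⟩)
  · intro h; exact hn'.2.2 _ h _ (by simp) rfl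
  · rw [Equiv.swap_comm]
    exact hB.swap_half hn'.2.1 fun h => hn'.2.2 _ (by simp) _ h rfl

theorem exists_cyc : ∀ ws : List (List α), ws.flatten.Nodup →
    ∃ φ : Equiv.Perm α, (∀ w ∈ ws, Cyc φ w) ∧ ∀ x, x ∉ ws.flatten → φ x = x
  | [], _ => ⟨1, by simp, fun _ _ => rfl⟩
  | w :: ws, hn => by
    induction w with
    | nil =>
      obtain ⟨φ, h1, h2⟩ := exists_cyc ws (by simpa using hn)
      exact ⟨φ, by simpa [cyc_nil] using h1, by simpa using h2⟩
    | cons x w ih =>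
      rw [List.flatten_cons, List.cons_append, List.nodup_cons] at hn
      obtain ⟨φ, h1, h2⟩ := ih hn.2
      have hx : φ x = x := h2 x hn.1
      cases w with
      | nil =>
        refine ⟨φ, ?_, fun y hy => h2 y fun h => hy (by simp at h ⊢; tauto)⟩
        intro w hw
        rcases List.mem_cons.1 hw with rfl | hw
        · exact cyc_cons.2 ⟨rfl, hx⟩
        · exact h1 w (by simp [hw])
      | cons a w =>
        refine ⟨Equiv.swap x a * φ, ?_, ?_⟩
        · intro w' hw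
          rcases List.mem_cons.1 hw with rfl | hw
          · refine Cyc.merge (A := []) (cyc_cons.2 ⟨rfl, hx⟩) (h1 _ (by simp)) ?_
            exact List.nodup_cons.2 ⟨fun h => hn.1 (List.mem_append_left _ h),
              (List.nodup_append.1 hn.2).1⟩
          · refine (h1 w' (by simp [hw])).swap_of_notMem ?_ ?_
            · exact fun h => hn.1 (List.mem_append_right _ (List.mem_flatten.2 ⟨w', hw, h⟩))
            · exact fun h => (List.nodup_append.1 hn.2).2.2 a (by simp) a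
                (List.mem_flatten.2 ⟨w', hw, h⟩) rfl
        · intro y hy
          have hy' : y ≠ x ∧ y ≠ a ∧ y ∉ (a :: w) ++ ws.flatten := by
            simp only [List.flatten_cons, List.cons_append, List.mem_cons, not_or] at hy ⊢
            tauto
          rw [Equiv.Perm.mul_apply, h2 y hy'.2.2, Equiv.swap_apply_of_ne_of_ne hy'.1 hy'.2.1]

end Pth

section Twist
variable {E : Type} {G : Type*} [Group G]

/-- the twisted homomorphism -/
def twist (B : FreeGroup E →* G) (c : E × Bool → G) : FreeGroup E →* G :=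
  lift fun e => c (e, true) * B (of e) * (c (e, false))⁻¹

theorem twist_letter (B : FreeGroup E →* G) (c : E × Bool → G) (x : E × Bool) :
    twist B c (mk [x]) = c x * B (mk [x]) * (c (bar x))⁻¹ := by
  rcases x with ⟨e, b⟩
  cases b
  · have e1 : mk [(e, false)] = (of e)⁻¹ := mk_bar (e, true)
    rw [e1, map_inv, map_inv]
    simp [twist, bar, mul_assoc]
  · have e1 : mk [(e, true)] = of e := rfl
    rw [e1]
    simp [twist, bar]

theorem twist_pth (B : FreeGroup E →* G) (c : E × Bool → G) {φ : E × Bool → E × Bool} :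
    ∀ {l : List (E × Bool)} {a z b : E × Bool}, Pth φ a (l ++ [z]) b →
      (∀ x ∈ l, c (φ x) = c (bar x)) →
      twist B c (mk (l ++ [z])) = c a * B (mk (l ++ [z])) * (c (bar z))⁻¹
  | [], a, z, b, h, _ => by
    obtain rfl := h.head
    exact twist_letter B c _
  | x :: l, a, z, b, h, hc => by
    obtain rfl := h.head
    rw [List.cons_append, mk_cons, map_mul, map_mul, twist_letter,
      twist_pth B c h.2 fun y hy => hc y (by simp [hy]), hc a (by simp)]
    group

theorem twist_cyc (B : FreeGroup E →* G) (c : E × Bool → G) {φ : E × Bool → E × Bool}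
    {r : List (E × Bool)} (h : Cyc φ r) (hc : ∀ x ∈ r, c (φ x) = c (bar x)) :
    IsConj (twist B c (mk r)) (B (mk r)) := by
  cases r with
  | nil => simp [mk_nil]
  | cons a l =>
    obtain ⟨l', z, e⟩ := exists_snoc a l
    have h1 := cyc_cons.1 h
    rw [e] at h1 hc ⊢
    rw [twist_pth B c h1 fun x hx => hc x (by simp [hx]), ← hc z (by simp), h1.last]
    exact isConj_iff.2 ⟨(c a)⁻¹, by group⟩

/-- rotation around the vertices -/
def nu (φ : Equiv.Perm (E × Bool)) : Equiv.Perm (E × Bool) := φ * barP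

@[simp] theorem nu_bar (φ : Equiv.Perm (E × Bool)) (x : E × Bool) : nu φ (bar x) = φ x := by
  simp [nu]

theorem nu_apply (φ : Equiv.Perm (E × Bool)) (x : E × Bool) : nu φ x = φ (bar x) := rfl

theorem exists_sector {α : Type*} [Finite α] {ν : Equiv.Perm α} {σ τ : α}
    (h : ν.SameCycle σ τ) (hne : σ ≠ τ) (t : G) :
    ∃ c : α → G, c σ = t ∧ c τ = 1 ∧ (∀ x, ν x = σ → c x = 1) ∧ (∀ x, ν x = τ → c x = t) ∧
      ∀ x, ν x ≠ σ → ν x ≠ τ → c (ν x) = c x := by
  classical
  have hex : ∃ m : ℕ, (ν ^ m) σ = τ := by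
    obtain ⟨i, -, hi⟩ := h.exists_pow_eq'
    exact ⟨i, hi⟩
  set m := Nat.find hex with hm
  have hτ : (ν ^ m) σ = τ := Nat.find_spec hex
  have hmin : ∀ k < m, (ν ^ k) σ ≠ τ := fun k hk => Nat.find_min hex hk
  have hm0 : m ≠ 0 := by
    intro e; rw [e] at hτ; exact hne hτ
  have hs : ∀ k : ℕ, (ν ^ (k + 1)) σ = ν ((ν ^ k) σ) := fun k => by rw [pow_succ']; rfl
  refine ⟨fun x => if ∃ k < m, (ν ^ k) σ = x then t else 1, ?_, ?_, ?_, ?_, ?_⟩
  · exact if_pos ⟨0, Nat.pos_of_ne_zero hm0, rfl⟩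
  · exact if_neg fun ⟨k, hk, e⟩ => hmin k hk e
  · intro x hx
    refine if_neg fun ⟨k, hk, e⟩ => ?_
    have e1 : (ν ^ (k + 1)) σ = σ := by rw [hs, e, hx]
    refine hmin (m - (k + 1)) (by omega) ?_
    rw [← hτ]
    conv_lhs => rw [← e1]
    rw [← Equiv.Perm.mul_apply, ← pow_add]
    congr 2; omega
  · intro x hx
    refine if_pos ⟨m - 1, by omega, ν.injective ?_⟩
    rw [← hs, hx, ← hτ]
    congr 2; omega
  · intro x h1 h2
    refine if_congr ⟨fun ⟨k, hk, e⟩ => ?_, fun ⟨k, hk, e⟩ => ?_⟩ rfl rfl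
    · cases k with
      | zero => exact (h1 e.symm).elim
      | succ k => exact ⟨k, by omega, ν.injective (by rw [← hs, e])⟩
    · refine ⟨k + 1, ?_, by rw [hs, e]⟩
      rcases Nat.lt_or_ge (k + 1) m with h3 | h3
      · exact h3
      · exact (h2 (by rw [← e, ← hs, ← hτ]; congr 2; omega)).elim

/-- the twisted value of a path from `a` all of whose inner corners avoid the two jumps -/
theorem twist_seg (B : FreeGroup E →* G) {φ : Equiv.Perm (E × Bool)} {σ τ : E × Bool}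
    {c : E × Bool → G} (hc : ∀ x, nu φ x ≠ σ → nu φ x ≠ τ → c (nu φ x) = c x)
    {a b : E × Bool} {l : List (E × Bool)} (h : Pth φ a (a :: l) b) (hσ : σ ∉ l) (hτ : τ ∉ l)
    (hn : (a :: l).Nodup) :
    ∃ z, nu φ z = b ∧ twist B c (mk (a :: l)) = c a * B (mk (a :: l)) * (c z)⁻¹ := by
  obtain ⟨l', z, e⟩ := exists_snoc a l
  have h1 := h
  rw [e] at h1 hn
  refine ⟨bar z, by rw [nu_bar, h1.last], ?_⟩
  rw [e]
  refine twist_pth B c h1 fun x hx => ?_
  have hx1 : φ x ∈ l := by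
    obtain ⟨d, h2, h3⟩ := pth_append.1 h1
    have e2 : l = (l' ++ [z]).tail := by rw [← e]; rfl
    rcases h2.mem hx with h4 | h4
    · rw [e2]
      cases l' with
      | nil => simp at hx
      | cons y l' => simp at h4 ⊢; exact Or.inl h4
    · rw [e2, h4, h3.head]
      cases l' with
      | nil => simp at hx
      | cons y l' => simp
  have := hc (bar x) (by rw [nu_bar]; exact fun e => hσ (e ▸ hx1))
    (by rw [nu_bar]; exact fun e => hτ (e ▸ hx1))
  rwa [nu_bar] at this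

theorem twist_other (B : FreeGroup E →* G) {φ : Equiv.Perm (E × Bool)} {σ τ : E × Bool}
    {c : E × Bool → G} (hc : ∀ x, nu φ x ≠ σ → nu φ x ≠ τ → c (nu φ x) = c x)
    {r : List (E × Bool)} (h : Cyc φ r) (hσ : σ ∉ r) (hτ : τ ∉ r) :
    IsConj (twist B c (mk r)) (B (mk r)) :=
  twist_cyc B c h fun x hx => by
    have hx1 := h.mem hx
    have := hc (bar x) (by rw [nu_bar]; exact fun e => hσ (e ▸ hx1))
      (by rw [nu_bar]; exact fun e => hτ (e ▸ hx1))
    rwa [nu_bar] at this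

variable [Finite E]

theorem merge_vertex {ι : Type*} {wd : ι → List (E × Bool)} {fs : List ι}
    {φ : Equiv.Perm (E × Bool)} {σ τ : E × Bool} {A B : List (E × Bool)}
    (hA : Cyc φ (σ :: A)) (hB : Cyc φ (τ :: B)) (hf : ∀ f ∈ fs, Cyc φ (wd f))
    (hn : (σ :: A ++ τ :: B).Nodup) (hσ : ∀ f ∈ fs, σ ∉ wd f) (hτ : ∀ f ∈ fs, τ ∉ wd f)
    (hv : (nu φ).SameCycle σ τ)
    (h : Cj (mk (σ :: A) :: mk (τ :: B) :: fs.map fun f => mk (wd f))) :
    Cj (mk (σ :: A ++ τ :: B) :: fs.map fun f => mk (wd f)) := by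
  have hn' := List.nodup_append.1 hn
  have hne : σ ≠ τ := hn'.2.2 _ (by simp) _ (by simp)
  obtain ⟨c, c1, c2, c3, c4, c5⟩ := exists_sector hv hne (mk (σ :: A))⁻¹
  obtain ⟨z, hz, e1⟩ := twist_seg (MonoidHom.id _) c5 (cyc_cons.1 hA)
    (List.nodup_cons.1 hn'.1).1 (fun h => hn'.2.2 τ (by simp [h]) τ (by simp) rfl) hn'.1
  obtain ⟨z', hz', e2⟩ := twist_seg (MonoidHom.id _) c5 (cyc_cons.1 hB)
    (fun h => hn'.2.2 σ (by simp) σ (by simp [h]) rfl) (List.nodup_cons.1 hn'.2.1).1 hn'.2.1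
  have h3 := h.map (twist (MonoidHom.id _) c)
  simp only [List.map_cons, List.map_map] at h3
  rw [e1, e2, c1, c2, c3 z hz, c4 z' hz'] at h3
  simp only [MonoidHom.id_apply, inv_mul_cancel, inv_one, mul_one, one_mul, inv_inv,
    Cj.one_cons] at h3
  rw [← mk_append] at h3
  have h4 := Cj.of_isConj (isConj_rot _ _) h3
  rw [Cj.cons_iff] at h4 ⊢
  exact CjP.of_isConj (fun f hf' => twist_other (MonoidHom.id _) c5 (hf f hf') (hσ f hf')
    (hτ f hf')) h4

theorem split_vertex {ι : Type*} {wd : ι → List (E × Bool)} {fs : List ι}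
    {φ : Equiv.Perm (E × Bool)} {σ τ : E × Bool} {X Y : List (E × Bool)}
    (hW : Cyc φ (σ :: X ++ τ :: Y)) (hf : ∀ f ∈ fs, Cyc φ (wd f))
    (hn : (σ :: X ++ τ :: Y).Nodup) (hσ : ∀ f ∈ fs, σ ∉ wd f) (hτ : ∀ f ∈ fs, τ ∉ wd f)
    (hv : (nu φ).SameCycle σ τ)
    (h : Cj (mk (σ :: X ++ τ :: Y) :: fs.map fun f => mk (wd f))) :
    ∃ f1 f2 : List ι, fs.Perm (f1 ++ f2) ∧ Cj (mk (σ :: X) :: f1.map fun f => mk (wd f)) ∧
      Cj (mk (τ :: Y) :: f2.map fun f => mk (wd f)) := by
  have hn' := List.nodup_append.1 hn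
  have hne : σ ≠ τ := hn'.2.2 _ (by simp) _ (by simp)
  obtain ⟨c, c1, c2, c3, c4, c5⟩ := exists_sector hv hne (swp (G := FreeGroup E))
  obtain ⟨b, p1, p2⟩ := pth_append.1 (hW σ (X ++ τ :: Y) rfl)
  obtain rfl := p2.head
  obtain ⟨z, hz, e1⟩ := twist_seg lev1 c5 p1
    (List.nodup_cons.1 hn'.1).1 (fun h => hn'.2.2 b (by simp [h]) b (by simp) rfl) hn'.1
  obtain ⟨z', hz', e2⟩ := twist_seg lev1 c5 p2
    (fun h => hn'.2.2 σ (by simp) σ (by simp [h]) rfl) (List.nodup_cons.1 hn'.2.1).1 hn'.2.1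
  refine Cj.split_of_hom (twist lev1 c) ?_
    (fun f hf' => twist_other lev1 c5 (hf f hf') (hσ f hf') (hτ f hf')) h
  rw [mk_append, map_mul, e1, e2, c1, c2, c4 z hz, c3 z' hz']
  simp

end Twist

end Crest.Agent.GSC
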