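import Crest.Agent.GSC.Cj

/-! Labelled graphs given by a random matching of darts: shared definitions. -/

set_option autoImplicit false

namespace Crest.Agent.GSC

open Finset

/-- Static data: darts with source vertex, label and class. -/
structure Design (S V D C : Type) [Fintype D] [DecidableEq C] where
  src : D → V
  lab : D → S × Bool
  cl : D → C
  ci : C → C
  inj : ∀ d e, src d = src e → lab d = lab e → d = e
  ci_ci : ∀ c, ci (ci c) = c
  lab_cl : ∀ d e, cl e = ci (cl d) → lab e = bar (lab d)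
  card_cl : ∀ c, #{d | cl d = c} = #{d | cl d = ci c}

/-- Weights certifying subcriticality. -/
structure Weights (S : Type) [Fintype S] where
  Om : S × Bool → ℝ
  Fd : S × Bool → ℝ
  Ff : S × Bool → ℝ
  rho : ℝ
  eta : ℝ
  C0 : ℕ
  Om_bar : ∀ a, Om (bar a) = Om a
  one_lt_Om : ∀ a, 1 < Om a
  one_le_Fd : ∀ a, 1 ≤ Fd a
  one_le_Ff : ∀ a, 1 ≤ Ff a
  rho_pos : 0 < rho
  rho_lt : rho < 1
  eta_pos : 0 < eta
  eta_lt : eta < 1

namespace Design

variable {S V D C : Type} [Fintype D] [DecidableEq C] (Γ : Design S V D C)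

/-- `β` is an admissible matching of the darts. -/
def IsM (β : D → D) : Prop := ∀ d, β (β d) = d ∧ Γ.cl (β d) = Γ.ci (Γ.cl d)

/-- `p` is an edge path from `x` to `y`. -/
def Path (β : D → D) : V → List D → V → Prop
  | x, [], y => x = y
  | x, d :: p, y => Γ.src d = x ∧ Path β (Γ.src (β d)) p y

/-- no backtracking -/
def Rd (β : D → D) (p : List D) : Prop := p.IsChain fun d e => e ≠ β d

/-- no nonempty reduced closed path of length less than `g` -/
def Girth (β : D → D) (g : ℕ) : Prop :=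
  ∀ x p, Γ.Path β x p x → Rd β p → p ≠ [] → g ≤ p.length

/-- connected vertices are joined by paths of length at most `Δ` -/
def Diam (β : D → D) (Δ : ℕ) : Prop :=
  ∀ x y p, Γ.Path β x p y → ∃ q, Γ.Path β x q y ∧ q.length ≤ Δ

open Classical in
/-- number of possible partners of `d` at whose source the letter `b` can be read -/
noncomputable def cnt (d : D) (b : S × Bool) : ℕ :=
  #{e | Γ.cl e = Γ.ci (Γ.cl d) ∧ ∃ e', Γ.src e' = Γ.src e ∧ Γ.lab e' = b}

open Classical in
/-- The numerical hypotheses at scale `N`. -/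
structure Large [Fintype S] [Fintype V] (w : Weights S) (N : ℕ) : Prop where
  cl_ge : ∀ d, N ≤ #{e | Γ.cl e = Γ.cl d}
  card_V : Fintype.card V ≤ w.C0 * N
  deg : ∀ x, 3 ≤ #{d | Γ.src d = x}
  D1 : ∀ d b, b ≠ bar (Γ.lab d) →
    (Γ.cnt d b : ℝ) * w.Om b * w.Fd b ≤ (1 - w.eta) * N * w.Fd (Γ.lab d)
  D2 : ∀ d, ∑ b ∈ univ.erase (bar (Γ.lab d)), (Γ.cnt d b : ℝ) * w.Ff b / w.Om b ≤
    w.rho * (1 - w.eta) * N * w.Ff (Γ.lab d)

open Classical in
/-- The local inequality for abstract reduced systems of sides. -/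
def LocIneq (β : D → D) (xs : V) (g K : ℕ) (c0 : ℝ) : Prop :=
  ∀ (T : Type) [Fintype T] (φ : Equiv.Perm T) (dart : T → D) (io : T → Option T)
    (Br Wr : Finset T) (num : T → ℕ),
    g ≤ Fintype.card T → Fintype.card T ≤ K * g →
    (∀ s t, io s = some t → io t = some s ∧ Γ.lab (dart t) = bar (Γ.lab (dart s)) ∧
      dart t ≠ β (dart s)) →
    Br.card ≤ 1 → Br ⊆ Wr → Wr.card ≤ K + 2 →
    (∀ s ∈ Br, Γ.src (dart (φ s)) = xs) →
    (∀ s, s ∉ Br → Γ.src (dart (φ s)) = Γ.src (β (dart s)) ∧ dart (φ s) ≠ β (dart s)) →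
    Function.Injective num → (∀ s, s ∉ Wr → num (φ s) = num s + 1) →
    #{s | ¬ ((io s = none ∧ io (φ s) = none) ∨ ∃ t, io (φ s) = some t ∧ io s = some (φ t))}
      ≤ 6 * (K + 3) →
    c0 * Fintype.card T ≤ #{s | io s = none}

end Design

theorem design_eqns : True := by
  have := @Design.Rd.eq_1
  have := @Design.Path.eq_def
  have := @Design.Path.eq_1
  have := @Design.Path.eq_2
  have := @Design.congr_simp
  have := @Design.mk.congr_simp
  have := @Weights.mk.congr_simp
  trivial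

/-- The output of the probabilistic part. -/
def RandomPart : Prop :=
  ∀ (S : Type) [Fintype S] (w : Weights S), ∃ (c0 : ℝ) (R0 : ℕ), 0 < c0 ∧ 1 ≤ R0 ∧
    ∀ K : ℕ, ∃ N0 : ℕ, ∀ (V D C : Type) [Fintype V] [Fintype D] [DecidableEq C]
      (Γ : Design S V D C) (N : ℕ) (xs : V), N0 ≤ N → Γ.Large w N →
      ∃ (β : D → D) (g : ℕ), Γ.IsM β ∧ 1 ≤ g ∧ Γ.Girth β g ∧ Γ.Diam β (R0 * g) ∧
        Γ.LocIneq β xs g K c0

end Crest.Agent.GSC
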