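import Crest.Agent.GSC.Des2a

/-! The design over the projective plane of order four and the Fano plane. -/

set_option autoImplicit false
set_option maxRecDepth 20000

namespace Crest.Agent.GSC

open Finset

namespace Des2

/-- letters -/
abbrev Lt : Type := Fin 14 × Bool

/-- letters which are points of the big plane -/
def inP (a : Lt) : Bool := decide (a.1.val < 7) || a.2

/-- the point of a letter -/
def pt (a : Lt) : ℕ := if a.1.val < 7 then 2 * a.1.val + (if a.2 then 1 else 0) else a.1.val + 7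

/-- links of the vertex types -/
def lk (τ : Fin 29) (a : Lt) : Bool :=
  if τ.val < 21 then inP a && decide ((pt a + 21 - τ.val) % 21 ∈ [0, 1, 4, 14, 16])
  else if τ.val < 28 then !inP a && !decide ((a.1.val - 7 + 7 - (τ.val - 21)) % 7 ∈ [0, 1, 3])
  else !inP a

/-- growth rates of the multiplicities -/
def al (τ : Fin 29) : ℕ := if τ.val < 21 then 4 else if τ.val < 28 then 5 else 0

/-- multiplicities -/
def mult (m : ℕ) (c : Bool) (τ : Fin 29) : ℕ := al τ * m + (if c then 1 else 0)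

/-- pair counts -/
def n2 (a b : Lt) : ℕ := if inP a then (if inP b then 4 else 0) else (if inP b then 0 else 10)

/-- pair counts, constant term -/
def n3 (a b : Lt) : ℕ := if inP a then (if inP b then 1 else 0) else (if inP b then 0 else 3)

/-- integer weights -/
def wt (b : Lt) : ℕ := if b.1.val < 7 then 620 else 990

theorem T1 : ∀ a : Lt, (∑ τ, if lk τ a then al τ else 0) = 20 ∧
    (∑ τ : Fin 29, if lk τ a then 1 else 0) = 5 := by decide +kernel

theorem T2 : ∀ a b : Lt, b ≠ a → (∑ τ, if lk τ a ∧ lk τ b then al τ else 0) = n2 a b ∧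
    (∑ τ : Fin 29, if lk τ a ∧ lk τ b then 1 else 0) = n3 a b := by decide +kernel

theorem T3 : ∀ τ τ' : Fin 29, #{a : Lt | lk τ a ∧ lk τ' a} % 2 =
    (if τ.val < 21 ∧ τ'.val < 21 then 1 else 0) + if τ = 28 ∧ τ' = 28 then 1 else 0 := by
  decide +kernel

theorem T4 : ∀ τ : Fin 29, 3 ≤ #{a : Lt | lk τ a} := by decide +kernel

theorem T5 : ∀ a : Lt, ∑ b ∈ univ.erase a, n2 a b * wt b ≤ 59960 ∧
    ∑ b ∈ univ.erase a, n3 a b * wt b ≤ 17820 := by decide +kernel

theorem T6 : ∑ τ, al τ = 119 := by decide +kernel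

/-- vertices -/
abbrev VV (m : ℕ) : Type := Σ z : Bool × Fin 29, Fin (mult m z.1 z.2)

/-- darts -/
abbrev DD (m : ℕ) : Type := {p : VV m × Lt // lk p.1.1.2 p.2 = true}

variable {m : ℕ}

theorem count (c : Bool) (a : Lt) (Q : Fin 29 → Prop) [DecidablePred Q] (s : Finset (DD m))
    (hs : ∀ d, d ∈ s ↔ d.1.1.1.1 = c ∧ d.1.2 = a ∧ Q d.1.1.1.2) :
    s.card = (∑ τ, if lk τ a ∧ Q τ then al τ else 0) * m +
      if c then ∑ τ : Fin 29, if lk τ a ∧ Q τ then 1 else 0 else 0 := by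
  have h1 : s.card = #{v : VV m | v.1.1 = c ∧ lk v.1.2 a ∧ Q v.1.2} := by
    refine card_bij (fun d _ => d.1.1) ?_ ?_ ?_
    · intro d hd
      obtain ⟨h1, rfl, h3⟩ := (hs d).1 hd
      simp [h1, h3, d.2]
    · intro d hd e he h
      exact Subtype.ext (Prod.ext h (((hs d).1 hd).2.1.trans ((hs e).1 he).2.1.symm))
    · intro v hv
      obtain ⟨h1, h2, h3⟩ := (mem_filter.1 hv).2
      exact ⟨⟨(v, a), h2⟩, (hs _).2 ⟨h1, rfl, h3⟩, rfl⟩
  have h2 : ∀ (n : ℕ) (P : Prop) [Decidable P],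
      (∑ _k : Fin n, if P then 1 else 0) = if P then n else 0 := by
    intro n P _
    split_ifs <;> simp
  rw [h1, card_filter, Fintype.sum_sigma, sum_congr rfl (g := fun z : Bool × Fin 29 =>
    if z.1 = c ∧ lk z.2 a ∧ Q z.2 then mult m z.1 z.2 else 0) (fun z _ => h2 _ _),
    Fintype.sum_prod_type, Fintype.sum_bool, sum_mul]
  cases c
  · simp [mult]
  · simp only [mult, if_true, ← sum_add_distrib]
    refine sum_congr rfl fun τ _ => ?_
    by_cases h : lk τ a ∧ Q τ <;> simp [h]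

theorem count1 (c : Bool) (a : Lt) (s : Finset (DD m))
    (hs : ∀ d, d ∈ s ↔ d.1.1.1.1 = c ∧ d.1.2 = a) : s.card = 20 * m + if c then 5 else 0 := by
  rw [count c a (fun _ => True) s (by simpa using hs)]
  simp only [and_true, (T1 a).1, (T1 a).2]

/-- the design -/
def Ga (m : ℕ) : Design (Fin 14) (VV m) (DD m) (Bool × Lt) where
  src d := d.1.1
  lab d := d.1.2
  cl d := (d.1.1.1.1, d.1.2)
  ci c := (c.1, bar c.2)
  inj _ _ h1 h2 := Subtype.ext (Prod.ext h1 h2)
  ci_ci c := by simp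
  lab_cl _ _ h := congrArg Prod.snd h
  card_cl c := by
    rw [count1 c.1 c.2 _ (fun d => by simp [Prod.ext_iff]),
      count1 c.1 (bar c.2) _ (fun d => by simp [Prod.ext_iff])]

/-- the weights -/
noncomputable def ww : Weights (Fin 14) where
  Om a := if a.1.val < 7 then 4.95 else 3.1
  Fd a := if a.1.val < 7 then 1 else if a.2 then 1.58 else 1
  Ff _ := 1
  rho := 0.99
  eta := 0.001
  C0 := 13
  Om_bar _ := rfl
  one_lt_Om a := by split_ifs <;> norm_num
  one_le_Fd a := by split_ifs <;> norm_num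
  one_le_Ff _ := le_rfl
  rho_pos := by norm_num
  rho_lt := by norm_num
  eta_pos := by norm_num
  eta_lt := by norm_num

theorem cnt_le (d : DD m) (b : Lt) (hb : b ≠ bar d.1.2) :
    (Ga m).cnt d b ≤ n2 (bar d.1.2) b * m + n3 (bar d.1.2) b := by
  unfold Design.cnt
  rw [count d.1.1.1.1 (bar d.1.2) (fun τ => lk τ b), (T2 _ _ hb).1, (T2 _ _ hb).2]
  · split_ifs <;> omega
  · intro e
    simp only [mem_filter, mem_univ, true_and, Ga, Prod.ext_iff, and_assoc]
    refine and_congr_right fun _ => and_congr_right fun _ => and_congr_right fun _ => ?_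
    constructor
    · rintro ⟨e', h1, h2⟩
      have := e'.2
      rwa [h1, show e'.1.2 = b from Prod.ext h2.1 h2.2] at this
    · intro h
      exact ⟨⟨(e.1.1, b), h⟩, rfl, rfl, rfl⟩

theorem deg_eq (x : VV m) (s : Finset (DD m)) (hs : ∀ d, d ∈ s ↔ d.1.1 = x) :
    s.card = #{a : Lt | lk x.1.2 a} := by
  refine card_bij (fun d _ => d.1.2) ?_ ?_ ?_
  · intro d hd
    have h : d.1.1 = x := (hs d).1 hd
    simpa [← h] using d.2
  · intro d hd e he h
    exact Subtype.ext (Prod.ext (((hs d).1 hd).trans ((hs e).1 he).symm) h)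
  · intro a ha
    exact ⟨⟨(x, a), (mem_filter.1 ha).2⟩, (hs _).2 rfl, rfl⟩

theorem large (hm : 28 ≤ m) : (Ga m).Large ww (20 * m) where
  cl_ge d := by
    rw [count1 d.1.1.1.1 d.1.2 _ (fun e => by simp [Ga, Prod.ext_iff])]
    omega
  card_V := by
    rw [Fintype.card_sigma]
    simp only [Fintype.card_fin]
    rw [Fintype.sum_prod_type, Fintype.sum_bool]
    simp only [mult]
    rw [sum_add_distrib, sum_add_distrib, ← sum_mul, T6]
    simp [ww]
    omega
  deg x := (T4 x.1.2).trans (deg_eq x _ fun d => by simp [Ga]).ge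
  D1 d b hb := by
    have h : (((Ga m).cnt d b : ℕ) : ℝ) ≤ n2 (bar d.1.2) b * m + n3 (bar d.1.2) b := by
      exact_mod_cast cnt_le d b hb
    have hm' : (28 : ℝ) ≤ m := by exact_mod_cast hm
    have h0 : (0 : ℝ) ≤ (Ga m).cnt d b := Nat.cast_nonneg _
    change _ ≤ _ * _ * ww.Fd d.1.2
    generalize (((Ga m).cnt d b : ℕ) : ℝ) = n at h h0
    generalize d.1.2 = a at h
    obtain ⟨a, a2⟩ := a
    obtain ⟨b, b2⟩ := b
    clear hb
    by_cases ha : a.val < 7 <;> by_cases hb : b.val < 7 <;> cases a2 <;> cases b2 <;>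
      simp [n2, n3, inP, bar, ha, hb, ww] at h ⊢ <;> linarith
  D2 d := by
    have hm' : (28 : ℝ) ≤ m := by exact_mod_cast hm
    have h1 : ∀ b ∈ univ.erase (bar d.1.2), (((Ga m).cnt d b : ℕ) : ℝ) * ww.Ff b / ww.Om b ≤
        ((n2 (bar d.1.2) b * wt b : ℕ) * m + (n3 (bar d.1.2) b * wt b : ℕ)) / 3069 := by
      intro b hb
      have h : (((Ga m).cnt d b : ℕ) : ℝ) ≤ n2 (bar d.1.2) b * m + n3 (bar d.1.2) b := by
        exact_mod_cast cnt_le d b (ne_of_mem_erase hb)
      simp only [ww, wt]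
      split_ifs <;> push_cast <;> norm_num <;> linarith
    refine le_trans (le_of_eq ?_) ((sum_le_sum h1).trans ?_)
    · congr!
    · rw [← sum_div, sum_add_distrib, ← sum_mul, ← Nat.cast_sum, ← Nat.cast_sum]
      have a1 : ((∑ b ∈ univ.erase (bar d.1.2), n2 (bar d.1.2) b * wt b : ℕ) : ℝ) ≤ 59960 := by
        exact_mod_cast (T5 _).1
      have a2 : ((∑ b ∈ univ.erase (bar d.1.2), n3 (bar d.1.2) b * wt b : ℕ) : ℝ) ≤ 17820 := by
        exact_mod_cast (T5 _).2
      have a3 := mul_le_mul_of_nonneg_right a1 (Nat.cast_nonneg (α := ℝ) m)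
      simp only [ww]
      push_cast at a2 a3 ⊢
      linarith

/-- the special vertex -/
def x0 (m : ℕ) : VV m := ⟨(true, 28), ⟨0, by simp [mult]⟩⟩

theorem eq_x0 (u : VV m) : u = x0 m ↔ u.1.2 = 28 := by
  constructor
  · rintro rfl; rfl
  · obtain ⟨⟨c, τ⟩, k, hk⟩ := u
    rintro (rfl : τ = 28)
    cases c
    · simp [mult, al] at hk
    · obtain rfl : k = 0 := by simpa [mult, al] using hk
      rfl

theorem inter_aux (u v : VV m) (s : Finset (DD m × DD m))
    (hs : ∀ z, z ∈ s ↔ z.1.1.1 = u ∧ z.2.1.1 = v ∧ z.1.1.2 = z.2.1.2) :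
    s.card = #{a : Lt | lk u.1.2 a ∧ lk v.1.2 a} := by
  refine card_bij (fun z _ => z.1.1.2) ?_ ?_ ?_
  · intro z hz
    obtain ⟨h1, h2, h3⟩ := (hs z).1 hz
    refine mem_filter.2 ⟨mem_univ _, h1 ▸ z.1.2, ?_⟩
    rw [h3]
    exact h2 ▸ z.2.2
  · intro z hz z' hz' h
    obtain ⟨h1, h2, h3⟩ := (hs z).1 hz
    obtain ⟨k1, k2, k3⟩ := (hs z').1 hz'
    exact Prod.ext (Subtype.ext (Prod.ext (h1.trans k1.symm) h))
      (Subtype.ext (Prod.ext (h2.trans k2.symm) (h3.symm.trans (h.trans k3))))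
  · intro a ha
    obtain ⟨h1, h2⟩ := (mem_filter.1 ha).2
    exact ⟨(⟨(u, a), h1⟩, ⟨(v, a), h2⟩), (hs _).2 ⟨rfl, rfl, rfl⟩, rfl⟩

theorem inter_eq (u v : VV m) : (Ga m).inter u v = #{a : Lt | lk u.1.2 a ∧ lk v.1.2 a} :=
  inter_aux u v _ fun z => by simp only [mem_filter, mem_univ, true_and, Ga]

theorem path_col {β : DD m → DD m} (hM : (Ga m).IsM β) : ∀ {p : List (DD m)} {x y : VV m},
    (Ga m).Path β x p y → x.1.1 = y.1.1
  | [], _, _, h => by cases h; rfl
  | d :: _, _, _, h => by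
    rw [← path_col hM h.2, ← h.1]
    exact (congrArg Prod.fst (hM d).2).symm

end Des2

open Des2 in
/-- the group produced by the design -/
theorem exists_group_of_core (h : CoreStmt) :
    ∃ (G : Type) (_ : Group G), Group.IsFinitelyPresented G ∧ (∀ g : G, IsOfFinOrder g → g = 1) ∧
      Crest.GroupTheory.IsHyperbolicGroup G ∧ Crest.Topology.HasFiniteClassifyingComplex G 2 ∧
      ∃ a b c c' : MonoidAlgebra (ZMod 2) G,
        a * b = 1 ∧ a * c = 0 ∧ c' * c = 0 ∧ c ≠ 0 ∧ c' ≠ 0 := by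
  obtain ⟨N0, hN⟩ := h (Fin 14) ww
  let m := N0 + 28
  let xs : VV m := ⟨(false, 0), ⟨0, by simp [mult, al, m]⟩⟩
  obtain ⟨β, hβ⟩ := hN (VV m) (DD m) (Bool × Lt) (Ga m) (20 * m) xs (by omega)
    (large (by omega))
  refine ⟨_, inferInstance, hβ.fp, hβ.tf, hβ.hyp, hβ.cc,
    Design.exists_abc hβ.isM (fun u => u.1.2.val < 21) (x0 m) xs ?_ ?_ (by simp [xs]) hβ.emb⟩
  · intro u v
    rw [inter_eq, ← ZMod.natCast_mod, T3]
    simp [eq_x0]
  · rintro ⟨p, hp⟩
    exact absurd (path_col hβ.isM hp) (by simp [xs, x0])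

theorem s0303_of_core (h : CoreStmt) :
    ∃ (G : Type) (_ : Group G),
      (∀ g : G, IsOfFinOrder g → g = 1) ∧ Crest.GroupTheory.IsHyperbolicGroup G ∧
        ¬ Group.ResiduallyFinite G := by
  obtain ⟨G, _, -, h1, h2, -, a, b, c, -, hab, hac, -, hc, -⟩ := exists_group_of_core h
  exact ⟨G, inferInstance, h1, h2, not_rf_of hab hac hc⟩

theorem s0267_of_core (h : CoreStmt) :
    ∃ (G : Type) (_ : Group G), Group.IsFinitelyPresented G ∧ (∀ g : G, IsOfFinOrder g → g = 1) ∧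
      Crest.Topology.HasFiniteClassifyingComplex G 2 ∧
      ∃ a b : MonoidAlgebra (ZMod 2) G, a ≠ 0 ∧ b ≠ 0 ∧ a * b = 0 := by
  obtain ⟨G, _, h0, h1, -, h3, -, -, c, c', -, -, hcc, hc, hc'⟩ := exists_group_of_core h
  exact ⟨G, inferInstance, h0, h1, h3, c', c, hc', hc, hcc⟩

theorem s0274_of_core (h : CoreStmt) :
    ∃ (G : Type) (_ : Group G), Group.IsFinitelyPresented G ∧ (∀ g : G, IsOfFinOrder g → g = 1) ∧
      Crest.Topology.HasFiniteClassifyingComplex G 2 ∧
      ∃ a b : MonoidAlgebra (ZMod 2) G, a * b = 1 ∧ b * a ≠ 1 := by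
  obtain ⟨G, _, h0, h1, -, h3, a, b, c, -, hab, hac, -, hc, -⟩ := exists_group_of_core h
  refine ⟨G, inferInstance, h0, h1, h3, a, b, hab, fun hba => hc ?_⟩
  rw [← one_mul c, ← hba, mul_assoc, hac, mul_zero]

end Crest.Agent.GSC
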