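import Crest.Agent.GSC.Iface

/-! Group algebra identities coming from a labelled graph (characteristic two). -/

set_option autoImplicit false

namespace Crest.Agent.GSC

open Finset

/-- A residually finite group has no such triple in its group algebra over `ZMod 2`. -/
theorem not_rf_of {G : Type} [Group G] {a b c : MonoidAlgebra (ZMod 2) G} (hab : a * b = 1)
    (hac : a * c = 0) (hc : c ≠ 0) : ¬ Group.ResiduallyFinite G := by
  classical
  intro h
  have h1 : ∀ z : G × G, ∃ H : FiniteIndexNormalSubgroup G,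
      z.1 ≠ z.2 → z.1⁻¹ * z.2 ∉ H.toSubgroup := by
    intro z
    by_cases hz : z.1 = z.2
    · exact ⟨{ toSubgroup := ⊤ }, fun e => absurd hz e⟩
    · obtain ⟨H, hH⟩ := Group.exists_finiteIndexNormalSubgroup_notMem (z.1⁻¹ * z.2)
        fun e => hz (eq_of_inv_mul_eq_one e)
      exact ⟨H, fun _ => hH⟩
  choose H hH using h1
  let s := c.coeff.support ×ˢ c.coeff.support
  let K : Subgroup G := ⨅ z : s, (H z.1).toSubgroup
  have : K.FiniteIndex := Subgroup.finiteIndex_iInf fun z => (H z.1).isFiniteIndex'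
  have : K.Normal := Subgroup.normal_iInf_normal fun z => (H z.1).isNormal'
  have : Finite (G ⧸ K) := inferInstance
  have : Finite (MonoidAlgebra (ZMod 2) (G ⧸ K)) :=
    Finite.of_injective (fun z => (MonoidAlgebra.coeff z : G ⧸ K → ZMod 2))
      (DFunLike.coe_injective.comp MonoidAlgebra.coeff_injective)
  let φ := MonoidAlgebra.mapDomainRingHom (ZMod 2) (QuotientGroup.mk' K)
  have e1 : φ b * φ a = 1 := mul_eq_one_comm.1 (by rw [← map_mul, hab, map_one])
  have e2 : φ c = 0 := by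
    rw [← one_mul (φ c), ← e1, mul_assoc, ← map_mul, hac, map_zero, mul_zero]
  have e3 : Finsupp.mapDomain (QuotientGroup.mk' K) c.coeff =
      Finsupp.mapDomain (QuotientGroup.mk' K) 0 := by
    rw [Finsupp.mapDomain_zero]
    exact congrArg MonoidAlgebra.coeff e2
  apply hc
  rw [← MonoidAlgebra.coeff_eq_zero]
  refine Finsupp.mapDomain_injOn (c.coeff.support : Set G) ?_ (by simp) (by simp) e3
  intro x hx y hy e
  by_contra hne
  have hm : x⁻¹ * y ∈ K := QuotientGroup.eq.1 e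
  exact hH (x, y) hne (Subgroup.mem_iInf.1 hm ⟨(x, y), mem_product.2 ⟨hx, hy⟩⟩)

namespace Design

variable {S V D C : Type} [Fintype D] [DecidableEq C] {Γ : Design S V D C} {β : D → D}

theorem ev_app2 (l m : List (S × Bool)) : Γ.ev β (l ++ m) = Γ.ev β l * Γ.ev β m := by
  unfold ev
  rw [← map_mul, FreeGroup.mul_mk]

theorem ev_bar2 (x : S × Bool) : Γ.ev β [bar x] = (Γ.ev β [x])⁻¹ := by
  unfold ev
  rw [mk_bar, map_inv]

theorem path_app2 {z : V} {q : List D} : ∀ {p : List D} {x y : V}, Γ.Path β x p y →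
    Γ.Path β y q z → Γ.Path β x (p ++ q) z
  | [], _, _, h, k => by cases h; exact k
  | _ :: _, _, _, h, k => ⟨h.1, path_app2 h.2 k⟩

theorem path_rev2 (hM : Γ.IsM β) : ∀ {p : List D} {x y : V}, Γ.Path β x p y →
    ∃ q, Γ.Path β y q x ∧ Γ.ev β (q.map Γ.lab) = (Γ.ev β (p.map Γ.lab))⁻¹
  | [], _, _, h => ⟨[], by cases h; rfl, by
      show PresentedGroup.mk _ 1 = (PresentedGroup.mk _ 1)⁻¹
      simp⟩
  | d :: p, x, y, h => by
    obtain ⟨q, hq, e⟩ := path_rev2 hM h.2
    refine ⟨q ++ [β d], path_app2 hq ⟨rfl, ?_⟩, ?_⟩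
    · rw [(hM d).1]; exact h.1
    · rw [List.map_append, ev_app2, e, List.map_cons, List.map_nil,
        Γ.lab_cl d (β d) (hM d).2, ev_bar2, ← mul_inv_rev, ← ev_app2]
      rfl

theorem ev_closed2 {x : V} {p : List D} (h : Γ.Path β x p x) : Γ.ev β (p.map Γ.lab) = 1 :=
  PresentedGroup.one_of_mem ⟨x, p, h, rfl⟩

variable (Γ β) in
/-- connected vertices -/
def Cn (x y : V) : Prop := ∃ p, Γ.Path β x p y

variable (Γ β) in
open Classical in
/-- the group element of a vertex relative to a base vertex -/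
noncomputable def pot (x y : V) : Γ.Grp β :=
  if h : Γ.Cn β x y then Γ.ev β (h.choose.map Γ.lab) else 1

theorem pot_eq (hM : Γ.IsM β) {x y : V} {p : List D} (h : Γ.Path β x p y) :
    Γ.pot β x y = Γ.ev β (p.map Γ.lab) := by
  have hc : Γ.Cn β x y := ⟨p, h⟩
  rw [pot, dif_pos hc]
  obtain ⟨q, hq, e⟩ := path_rev2 hM h
  have := ev_closed2 (path_app2 hc.choose_spec hq)
  rw [List.map_append, ev_app2, e] at this
  exact eq_of_mul_inv_eq_one this

theorem pot_self (hM : Γ.IsM β) (x : V) : Γ.pot β x x = 1 :=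
  (pot_eq hM (p := []) rfl).trans (ev_closed2 (p := []) (x := x) rfl)

theorem pot_step (hM : Γ.IsM β) {x : V} {d : D} (h : Γ.Cn β x (Γ.src d)) :
    Γ.Cn β x (Γ.src (β d)) ∧
      Γ.pot β x (Γ.src (β d)) = Γ.pot β x (Γ.src d) * Γ.ev β [Γ.lab d] := by
  obtain ⟨p, hp⟩ := h
  have hq : Γ.Path β x (p ++ [d]) (Γ.src (β d)) := path_app2 hp ⟨rfl, rfl⟩
  exact ⟨⟨_, hq⟩, by rw [pot_eq hM hq, pot_eq hM hp, List.map_append, ev_app2]; rfl⟩

variable (Γ) in
open Classical in
/-- number of common labels -/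
noncomputable def inter (u v : V) : ℕ :=
  #{z : D × D | Γ.src z.1 = u ∧ Γ.src z.2 = v ∧ Γ.lab z.1 = Γ.lab z.2}

open Classical in
theorem pair_sum2 [Fintype V] (hM : Γ.IsM β) (x y : V) :
    ∑ u with Γ.Cn β x u, ∑ v with Γ.Cn β y v, Γ.inter u v •
      MonoidAlgebra.single (Γ.pot β x u * (Γ.pot β y v)⁻¹) (1 : ZMod 2) = 0 := by
  let Pr : Finset (D × D) :=
    {z | Γ.Cn β x (Γ.src z.1) ∧ Γ.Cn β y (Γ.src z.2) ∧ Γ.lab z.1 = Γ.lab z.2}
  let F : V × V → MonoidAlgebra (ZMod 2) (Γ.Grp β) := fun z =>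
    MonoidAlgebra.single (Γ.pot β x z.1 * (Γ.pot β y z.2)⁻¹) 1
  have h0 : ∑ z ∈ Pr, F (Γ.src z.1, Γ.src z.2) = 0 := by
    refine sum_involution (fun z _ => (β z.1, β z.2)) ?_ ?_ ?_ ?_
    · intro z hz
      obtain ⟨h1, h2, h3⟩ := (mem_filter.1 hz).2
      simp only [F]
      rw [(pot_step hM h1).2, (pot_step hM h2).2, h3, mul_inv_rev, mul_assoc, mul_inv_cancel_left,
        ← MonoidAlgebra.single_add]
      exact MonoidAlgebra.single_zero _
    · intro z _ _ e
      have := Γ.lab_cl z.1 (β z.1) (hM _).2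
      rw [show β z.1 = z.1 from congrArg Prod.fst e] at this
      exact bar_ne _ this.symm
    · intro z hz
      obtain ⟨h1, h2, h3⟩ := (mem_filter.1 hz).2
      refine mem_filter.2 ⟨mem_univ _, (pot_step hM h1).1, (pot_step hM h2).1, ?_⟩
      rw [Γ.lab_cl _ _ (hM z.1).2, Γ.lab_cl _ _ (hM z.2).2, h3]
    · intro z _
      exact Prod.ext (hM _).1 (hM _).1
  rw [← sum_product', ← h0, ← sum_fiberwise_of_maps_to (s := Pr)
    (t := (univ.filter (Γ.Cn β x)) ×ˢ (univ.filter (Γ.Cn β y)))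
    (g := fun z => (Γ.src z.1, Γ.src z.2))]
  · refine sum_congr rfl fun z hz => ?_
    rw [sum_congr rfl (g := fun _ => F z), sum_const]
    · congr 1
      unfold inter
      congr 1
      ext d
      simp only [mem_product, mem_filter, mem_univ, true_and] at hz
      simp only [Pr, mem_filter, mem_univ, true_and, Prod.ext_iff]
      constructor
      · rintro ⟨h1, h2, h3⟩
        exact ⟨⟨h1 ▸ hz.1, h2 ▸ hz.2, h3⟩, h1, h2⟩
      · rintro ⟨⟨-, -, h3⟩, h1, h2⟩
        exact ⟨h1, h2, h3⟩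
    · intro d hd
      rw [(mem_filter.1 hd).2]
  · intro z hz
    obtain ⟨h1, h2, -⟩ := (mem_filter.1 hz).2
    simp [h1, h2]

open Classical in
theorem exists_abc [Fintype V] (hM : Γ.IsM β) (Ln : V → Prop) (x0 xs : V)
    (hpar : ∀ u v, (Γ.inter u v : ZMod 2) =
      (if Ln u ∧ Ln v then 1 else 0) + if u = x0 ∧ v = x0 then 1 else 0)
    (hn : ¬ Γ.Cn β xs x0) (hs : Ln xs)
    (emb : ∀ y p, Γ.Path β xs p y → Γ.ev β (p.map Γ.lab) = 1 → y = xs) :
    ∃ a b c c' : MonoidAlgebra (ZMod 2) (Γ.Grp β),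
      a * b = 1 ∧ a * c = 0 ∧ c' * c = 0 ∧ c ≠ 0 ∧ c' ≠ 0 := by
  let al : V → MonoidAlgebra (ZMod 2) (Γ.Grp β) := fun x =>
    ∑ u with Γ.Cn β x u, if Ln u then MonoidAlgebra.single (Γ.pot β x u) 1 else 0
  let be : V → MonoidAlgebra (ZMod 2) (Γ.Grp β) := fun x =>
    ∑ u with Γ.Cn β x u, if Ln u then MonoidAlgebra.single (Γ.pot β x u)⁻¹ 1 else 0
  have key : ∀ x y, al x * be y + ∑ u with Γ.Cn β x u, ∑ v with Γ.Cn β y v,
      (if u = x0 ∧ v = x0 then
        MonoidAlgebra.single (Γ.pot β x u * (Γ.pot β y v)⁻¹) (1 : ZMod 2) else 0) = 0 := by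
    intro x y
    refine Eq.trans ?_ (pair_sum2 hM x y)
    rw [sum_mul_sum, ← sum_add_distrib]
    refine sum_congr rfl fun u _ => ?_
    rw [← sum_add_distrib]
    refine sum_congr rfl fun v _ => ?_
    rw [← Nat.cast_smul_eq_nsmul (ZMod 2), hpar, add_smul]
    congr 1
    · by_cases h1 : Ln u <;> by_cases h2 : Ln v <;>
        simp [h1, h2, MonoidAlgebra.single_mul_single]
    · split_ifs <;> simp
  have k2 : ∀ x, al x * be xs = 0 := by
    intro x
    rw [← key x xs, left_eq_add]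
    refine sum_eq_zero fun u _ => sum_eq_zero fun v hv => if_neg ?_
    rintro ⟨-, rfl⟩
    exact hn (mem_filter.1 hv).2
  have hxx : ∀ x, Γ.Cn β x x := fun x => ⟨[], rfl⟩
  have k3 : ∀ u, Γ.Cn β xs u → Γ.pot β xs u = 1 → u = xs := by
    rintro u ⟨p, hp⟩ e
    exact emb u p hp (by rwa [pot_eq hM hp] at e)
  have k4 : ∀ f : Γ.Grp β → Γ.Grp β, (∀ g, f g = 1 ↔ g = 1) →
      (∑ u with Γ.Cn β xs u, if Ln u then MonoidAlgebra.single (f (Γ.pot β xs u)) (1 : ZMod 2)
        else 0) ≠ 0 := by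
    intro f hf e
    have := congrArg (fun z => MonoidAlgebra.coeff z 1) e
    simp only [MonoidAlgebra.coeff_sum, Finsupp.finsetSum_apply] at this
    rw [sum_eq_single xs] at this
    · simp [hs, pot_self hM, (hf 1).2 rfl] at this
    · intro u hu hne
      split_ifs
      · rw [MonoidAlgebra.coeff_single, Finsupp.single_apply, if_neg]
        intro e
        exact hne (k3 u (mem_filter.1 hu).2 ((hf _).1 e))
      · rfl
    · intro h
      exact absurd (mem_filter.2 ⟨mem_univ _, hxx xs⟩) h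
  refine ⟨al x0, be x0, be xs, al xs, ?_, k2 x0, k2 xs, k4 (·⁻¹) (by simp), k4 id (by simp)⟩
  have := key x0 x0
  rw [sum_eq_single x0, sum_eq_single x0] at this
  · simp only [and_self, if_true, mul_inv_cancel] at this
    have h2 : (1 : MonoidAlgebra (ZMod 2) (Γ.Grp β)) + 1 = 0 := by
      rw [MonoidAlgebra.one_def, ← MonoidAlgebra.single_add]
      exact MonoidAlgebra.single_zero _
    exact add_right_cancel (this.trans h2.symm)
  · intro v _ hv; simp [hv]
  · intro h; exact absurd (mem_filter.2 ⟨mem_univ _, hxx x0⟩) h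
  · intro u _ hu; simp [hu]
  · intro h; exact absurd (mem_filter.2 ⟨mem_univ _, hxx x0⟩) h

end Design

end Crest.Agent.GSC
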