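import Crest.Agent.GSC.DesP3
import Crest.Agent.H0276.Main

/-! The odd characteristic statement from the core theorem. -/

set_option autoImplicit false

namespace Crest.Agent.GSC

theorem odd_of_core (h : CoreStmt) (p : ℕ) [Fact p.Prime] (hp : 1568 ≤ p) (K : Type) [Field K]
    [Finite K] [CharP K p] :
    ∃ (G : Type) (_ : Group G), Group.FG G ∧ (∀ g : G, IsOfFinOrder g → g = 1) ∧
      ∃ a b : MonoidAlgebra K G, a * b = 1 ∧ b * a ≠ 1 := by
  classical
  have hodd : Odd p := (Fact.out : p.Prime).odd_of_ne_two (by omega)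
  obtain ⟨P, L, _, _, _, _, ⟨Pl⟩⟩ := exists_planeData p hodd
  let _ : Fintype K := Fintype.ofFinite K
  have h2 : (2 : K) ≠ 0 := by
    intro h0
    have := (CharP.cast_eq_zero_iff K p 2).1 (by exact_mod_cast h0)
    have := Nat.le_of_dvd two_pos this
    omega
  obtain ⟨N0, hN⟩ := h P (Pl.wts hp (2 * Fintype.card (PlaneData.Ty L K)))
  have hm : 8 * (p + 1) ≤ 8 * (p + 1) + N0 := Nat.le_add_right _ _
  have hm1 : 1 ≤ 8 * (p + 1) + N0 := by omega
  obtain ⟨β, hβ⟩ := hN _ _ _ (Pl.td h2 (8 * (p + 1) + N0)).design ((p + 1) * (8 * (p + 1) + N0))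
    (Pl.z0 h2 _ hm1) (by nlinarith) (Pl.large h2 _ hp hm)
  exact ⟨_, inferInstance, H0276.fg_of_fp _ hβ.fp, hβ.tf,
    Pl.not_df_td h2 (CharP.cast_eq_zero K p) _ hm1 β hβ.isM hβ.emb⟩

theorem s0275_aux (h : CoreStmt) (M : ℕ) (hM : 1568 ≤ M) :
    Nat.Prime (Nat.minFac (M.factorial ^ 2 + 1)) ∧
    Odd (Nat.minFac (M.factorial ^ 2 + 1)) ∧
    ∃ (K : Type) (_ : Field K) (G : Type) (_ : Group G),
      Nat.card K = Nat.minFac (M.factorial ^ 2 + 1) ^ 4 ∧
      Group.FG G ∧ (∃ g : G, g ≠ 1 ∧ IsOfFinOrder g) ∧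
      ∃ a b : MonoidAlgebra K G, a * b = 1 ∧ b * a ≠ 1 := by
  have hpos := Nat.factorial_pos M
  have hp : Nat.Prime (Nat.minFac (M.factorial ^ 2 + 1)) :=
    Nat.minFac_prime (by have := pow_pos hpos 2; omega)
  have hlt : M < Nat.minFac (M.factorial ^ 2 + 1) := by
    by_contra hle
    have h1 : Nat.minFac (M.factorial ^ 2 + 1) ∣ M.factorial ^ 2 :=
      (Nat.dvd_factorial hp.pos (not_lt.1 hle)).trans (dvd_pow_self _ two_ne_zero)
    exact hp.one_lt.ne' (Nat.dvd_one.1 ((Nat.dvd_add_right h1).1 (Nat.minFac_dvd _)))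
  generalize Nat.minFac (M.factorial ^ 2 + 1) = p at hp hlt
  refine ⟨hp, hp.odd_of_ne_two (by omega), ?_⟩
  have : Fact p.Prime := ⟨hp⟩
  obtain ⟨G, _, hfg, -, a, b, hab, hba⟩ := odd_of_core h p (by omega) (GaloisField p 4)
  refine ⟨GaloisField p 4, inferInstance, G × Multiplicative (ZMod 2), inferInstance,
    GaloisField.card p 4 (by norm_num), inferInstance,
    ⟨(1, Multiplicative.ofAdd 1), fun e => absurd (congrArg Prod.snd e)
      (show (Multiplicative.ofAdd 1 : Multiplicative (ZMod 2)) ≠ 1 by decide),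
      isOfFinOrder_iff_pow_eq_one.2 ⟨2, two_pos, Prod.ext (one_pow 2)
        (show (Multiplicative.ofAdd 1 : Multiplicative (ZMod 2)) ^ 2 = 1 by decide)⟩⟩, ?_⟩
  let φ := MonoidAlgebra.mapDomainRingHom (GaloisField p 4)
    (MonoidHom.inl G (Multiplicative (ZMod 2)))
  have hφ : Function.Injective φ :=
    MonoidAlgebra.mapDomain_injective fun x y e => congrArg Prod.fst e
  exact ⟨φ a, φ b, by rw [← map_mul, hab, map_one],
    fun e => hba (hφ (by rw [map_mul, e, map_one]))⟩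

theorem s0275_of_core (h : CoreStmt) :
    Nat.Prime (Nat.minFac ((Nat.choose 1200 600).factorial ^ 2 + 1)) ∧
    Odd (Nat.minFac ((Nat.choose 1200 600).factorial ^ 2 + 1)) ∧
    ∃ (K : Type) (_ : Field K) (G : Type) (_ : Group G),
      Nat.card K = Nat.minFac ((Nat.choose 1200 600).factorial ^ 2 + 1) ^ 4 ∧
      Group.FG G ∧ (∃ g : G, g ≠ 1 ∧ IsOfFinOrder g) ∧
      ∃ a b : MonoidAlgebra K G, a * b = 1 ∧ b * a ≠ 1 := by
  refine s0275_aux h _ (le_trans ?_ (Nat.choose_le_middle 2 1200))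
  rw [Nat.choose_two_right]
  norm_num

end Crest.Agent.GSC
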