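import Mathlib

/-! Combinatorial data extracted from a projective plane of odd order. -/

set_option autoImplicit false

namespace Crest.Agent.GSC

open Finset

/-- the plane data used by the odd characteristic design -/
structure PlaneData (P L : Type) [Fintype P] [DecidableEq P] [Fintype L] [DecidableEq L]
    (q : ℕ) where
  ln : L → Finset P
  card_ln : ∀ l, (ln l).card = q + 1
  inter : ∀ l l', l ≠ l' → (ln l ∩ ln l').card = 1
  thru : ∀ s, #{l | s ∈ ln l} = q + 1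
  two : ∀ s s', s ≠ s' → #{l | s ∈ ln l ∧ s' ∈ ln l} ≤ 1
  card_P : Fintype.card P = q ^ 2 + q + 1
  l1 : L
  l2 : L
  Qe : Fin 7 → P
  Qe_inj : Function.Injective Qe
  Q1 : ∀ j, Qe j ∈ ln l1 ↔ j ∈ ({0, 1, 2, 3} : Finset (Fin 7))
  Q2 : ∀ j, Qe j ∈ ln l2 ↔ j ∈ ({0, 4, 5, 6} : Finset (Fin 7))
  both : ∀ s, s ∈ ln l1 → s ∈ ln l2 → s = Qe 0
  τ : P → P
  ε : P → Bool
  τQ : ∀ s, s ∉ Set.range Qe → τ s ∉ Set.range Qe
  ττ : ∀ s, s ∉ Set.range Qe → τ (τ s) = s
  ετ : ∀ s, s ∉ Set.range Qe → ε (τ s) = !ε s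
  τ1 : ∀ s, s ∉ Set.range Qe → (τ s ∈ ln l1 ↔ s ∈ ln l1)
  τ2 : ∀ s, s ∉ Set.range Qe → (τ s ∈ ln l2 ↔ s ∈ ln l2)

theorem exists_pairing {P : Type} [DecidableEq P] (U : Finset P) (hU : Even U.card) :
    ∃ (τ : P → P) (ε : P → Bool), ∀ s ∈ U, τ s ∈ U ∧ τ (τ s) = s ∧ ε (τ s) = !ε s := by
  obtain ⟨k, hk⟩ := hU
  have e : U ≃ Fin k × Bool := Fintype.equivOfCardEq (by simp [hk]; omega)
  refine ⟨fun s => if h : s ∈ U then (e.symm ((e ⟨s, h⟩).1, !(e ⟨s, h⟩).2)).1 else s,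
    fun s => if h : s ∈ U then (e ⟨s, h⟩).2 else true, fun s hs => ?_⟩
  simp [hs]

theorem exists_three {P : Type} [DecidableEq P] (U : Finset P) (hU : 3 ≤ U.card) :
    ∃ a b c, a ∈ U ∧ b ∈ U ∧ c ∈ U ∧ a ≠ b ∧ a ≠ c ∧ b ≠ c :=
  Finset.two_lt_card_iff.1 hU

theorem planeData_of {P L : Type} [Fintype P] [DecidableEq P] [Fintype L] [DecidableEq L]
    (q : ℕ) (hq : Odd q) (hq3 : 3 ≤ q) (ln : L → Finset P)
    (card_ln : ∀ l, (ln l).card = q + 1) (inter : ∀ l l', l ≠ l' → (ln l ∩ ln l').card = 1)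
    (thru : ∀ s, #{l | s ∈ ln l} = q + 1)
    (two : ∀ s s', s ≠ s' → #{l | s ∈ ln l ∧ s' ∈ ln l} ≤ 1)
    (card_P : Fintype.card P = q ^ 2 + q + 1) : Nonempty (PlaneData P L q) := by
  classical
  obtain ⟨s0⟩ : Nonempty P := Fintype.card_pos_iff.1 (by omega)
  obtain ⟨l1, -, l2, -, h12⟩ := Finset.one_lt_card.1 (show 1 < #{l | s0 ∈ ln l} by rw [thru]; omega)
  obtain ⟨o, ho⟩ := Finset.card_eq_one.1 (inter l1 l2 h12)
  have hboth : ∀ s, s ∈ ln l1 → s ∈ ln l2 → s = o := fun s h1 h2 => by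
    have : s ∈ ln l1 ∩ ln l2 := mem_inter.2 ⟨h1, h2⟩
    rwa [ho, mem_singleton] at this
  have ho' : o ∈ ln l1 ∧ o ∈ ln l2 := mem_inter.1 (ho ▸ mem_singleton_self o)
  obtain ⟨x1, x2, x3, a1, a2, a3, a12, a13, a23⟩ := exists_three ((ln l1).erase o)
    (by rw [card_erase_of_mem ho'.1, card_ln]; omega)
  obtain ⟨y1, y2, y3, b1, b2, b3, b12, b13, b23⟩ := exists_three ((ln l2).erase o)
    (by rw [card_erase_of_mem ho'.2, card_ln]; omega)
  rw [mem_erase] at a1 a2 a3 b1 b2 b3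
  have c1 : x1 ∉ ln l2 := fun h => a1.1 (hboth _ a1.2 h)
  have c2 : x2 ∉ ln l2 := fun h => a2.1 (hboth _ a2.2 h)
  have c3 : x3 ∉ ln l2 := fun h => a3.1 (hboth _ a3.2 h)
  have d1 : y1 ∉ ln l1 := fun h => b1.1 (hboth _ h b1.2)
  have d2 : y2 ∉ ln l1 := fun h => b2.1 (hboth _ h b2.2)
  have d3 : y3 ∉ ln l1 := fun h => b3.1 (hboth _ h b3.2)
  let Qe : Fin 7 → P := ![o, x1, x2, x3, y1, y2, y3]
  have Q1 : ∀ j, Qe j ∈ ln l1 ↔ j ∈ ({0, 1, 2, 3} : Finset (Fin 7)) := by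
    intro j
    fin_cases j <;> simp [Qe, ho'.1, a1.2, a2.2, a3.2, d1, d2, d3]
  have Q2 : ∀ j, Qe j ∈ ln l2 ↔ j ∈ ({0, 4, 5, 6} : Finset (Fin 7)) := by
    intro j
    fin_cases j <;> simp [Qe, ho'.2, b1.2, b2.2, b3.2, c1, c2, c3]
  have Qinj : Function.Injective Qe := by
    intro i j h
    have e1 : i ∈ ({0, 1, 2, 3} : Finset (Fin 7)) ↔ j ∈ ({0, 1, 2, 3} : Finset (Fin 7)) := by
      rw [← Q1, ← Q1, h]
    have e2 : i ∈ ({0, 4, 5, 6} : Finset (Fin 7)) ↔ j ∈ ({0, 4, 5, 6} : Finset (Fin 7)) := by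
      rw [← Q2, ← Q2, h]
    fin_cases i <;> fin_cases j <;> simp at e1 e2 ⊢ <;> simp [Qe] at h <;>
      first | exact a12 h | exact a13 h | exact a23 h | exact a12 h.symm | exact a13 h.symm |
        exact a23 h.symm | exact b12 h | exact b13 h | exact b23 h | exact b12 h.symm |
        exact b13 h.symm | exact b23 h.symm
  set Q := univ.image Qe with hQ
  have hQm : ∀ s, s ∈ Q ↔ s ∈ Set.range Qe := fun s => by simp [hQ]
  have hQc : Q.card = 7 := by rw [hQ, card_image_of_injective _ Qinj]; simp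
  have hinterQ : ∀ (l : L) (J : Finset (Fin 7)), (∀ j, Qe j ∈ ln l ↔ j ∈ J) →
      (Q ∩ ln l).card = J.card := by
    intro l J h
    rw [← card_image_of_injective J Qinj]
    congr 1
    ext s
    simp only [hQ, mem_inter, mem_image, mem_univ, true_and]
    constructor
    · rintro ⟨⟨j, rfl⟩, h1⟩
      exact ⟨j, (h j).1 h1, rfl⟩
    · rintro ⟨j, h1, rfl⟩
      exact ⟨⟨j, rfl⟩, (h j).2 h1⟩
  obtain ⟨k, hk⟩ := hq
  have u1 : (ln l1 \ Q).card = q + 1 - 4 := by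
    rw [card_sdiff, card_ln, hinterQ l1 _ Q1]; rfl
  have u2 : (ln l2 \ Q).card = q + 1 - 4 := by
    rw [card_sdiff, card_ln, hinterQ l2 _ Q2]; rfl
  have hQsub : Q ⊆ ln l1 ∪ ln l2 := by
    intro s hs
    obtain ⟨j, rfl⟩ := (hQm s).1 hs
    rw [mem_union, Q1, Q2]
    clear hs
    revert j; decide
  have u3 : (univ \ (ln l1 ∪ ln l2)).card = q ^ 2 + q + 1 - (2 * q + 1) := by
    have := card_union_add_card_inter (ln l1) (ln l2)
    rw [inter _ _ h12, card_ln, card_ln] at this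
    rw [card_sdiff_of_subset (subset_univ _), card_univ, card_P]
    omega
  obtain ⟨τ1, ε1, h1⟩ := exists_pairing (ln l1 \ Q) (by rw [u1]; exact ⟨k - 1, by omega⟩)
  obtain ⟨τ2, ε2, h2⟩ := exists_pairing (ln l2 \ Q) (by rw [u2]; exact ⟨k - 1, by omega⟩)
  obtain ⟨τ3, ε3, h3⟩ := exists_pairing (univ \ (ln l1 ∪ ln l2)) (by
    rw [u3]
    refine ⟨2 * k ^ 2 + k, ?_⟩
    have : q ^ 2 = 4 * k ^ 2 + 4 * k + 1 := by rw [hk]; ring
    omega)
  have hoQ : o ∈ Set.range Qe := ⟨0, rfl⟩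
  let τ : P → P := fun s => if s ∈ ln l1 then τ1 s else if s ∈ ln l2 then τ2 s else τ3 s
  let ε : P → Bool := fun s => if s ∈ ln l1 then ε1 s else if s ∈ ln l2 then ε2 s else ε3 s
  have key : ∀ s, s ∉ Set.range Qe → τ s ∉ Set.range Qe ∧ τ (τ s) = s ∧ ε (τ s) = (!ε s) ∧
      (τ s ∈ ln l1 ↔ s ∈ ln l1) ∧ (τ s ∈ ln l2 ↔ s ∈ ln l2) := by
    intro s hs
    by_cases k1 : s ∈ ln l1
    · obtain ⟨m1, m2, m3⟩ := h1 s (mem_sdiff.2 ⟨k1, by rwa [hQm]⟩)
      rw [mem_sdiff, hQm] at m1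
      have n1 : s ∉ ln l2 := fun h => hs (hboth s k1 h ▸ hoQ)
      have n2 : τ1 s ∉ ln l2 := fun h => m1.2 (hboth _ m1.1 h ▸ hoQ)
      simp only [τ, ε, k1, if_true, m1.1, m2, m3, n1, n2]
      exact ⟨m1.2, by simp⟩
    by_cases k2 : s ∈ ln l2
    · obtain ⟨m1, m2, m3⟩ := h2 s (mem_sdiff.2 ⟨k2, by rwa [hQm]⟩)
      rw [mem_sdiff, hQm] at m1
      have n2 : τ2 s ∉ ln l1 := fun h => m1.2 (hboth _ h m1.1 ▸ hoQ)
      simp only [τ, ε, k1, k2, if_true, if_false, m1.1, m2, m3, n2]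
      exact ⟨m1.2, by simp⟩
    · obtain ⟨m1, m2, m3⟩ := h3 s (by simp [k1, k2])
      have n0 : τ3 s ∉ Set.range Qe := fun h => (mem_sdiff.1 m1).2 (hQsub ((hQm _).2 h))
      simp only [mem_sdiff, mem_univ, mem_union, true_and, not_or] at m1
      simp only [τ, ε, k1, k2, if_false, m1.1, m1.2, m2, m3]
      exact ⟨n0, by simp⟩
  exact ⟨⟨ln, card_ln, inter, thru, two, card_P, l1, l2, Qe, Qinj, Q1, Q2, hboth, τ, ε,
    fun s h => (key s h).1, fun s h => (key s h).2.1, fun s h => (key s h).2.2.1,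
    fun s h => (key s h).2.2.2.1, fun s h => (key s h).2.2.2.2⟩⟩

open Configuration Projectivization in
theorem exists_planeData (p : ℕ) [Fact p.Prime] (hp : Odd p) :
    ∃ (P L : Type) (_ : Fintype P) (_ : DecidableEq P) (_ : Fintype L) (_ : DecidableEq L),
      Nonempty (PlaneData P L p) := by
  classical
  let P := Projectivization (ZMod p) (Fin 3 → ZMod p)
  have : Finite P := (Projectivization.finite_iff_of_finite _ _).2 inferInstance
  let _ : Fintype P := Fintype.ofFinite P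
  have hcard : Fintype.card P = p ^ 2 + p + 1 := by
    rw [← Nat.card_eq_fintype_card, Projectivization.card_of_finrank (ZMod p) _ (n := 3) (by simp)]
    simp [Finset.sum_range_succ]
    ring
  have hord : ProjectivePlane.order P P = p := by
    have h := ProjectivePlane.card_points P P
    rw [hcard] at h
    rcases lt_trichotomy (ProjectivePlane.order P P) p with h1 | h1 | h1
    · nlinarith
    · exact h1
    · nlinarith
  have h3 : 3 ≤ p := by
    have h2 := (Fact.out : p.Prime).two_le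
    obtain ⟨k, hk⟩ := hp
    omega
  refine ⟨P, P, inferInstance, inferInstance, inferInstance, inferInstance,
    planeData_of p hp h3 (fun l => univ.filter (· ∈ l)) (fun l => ?_) (fun l l' h => ?_)
      (fun s => ?_) (fun s s' h => ?_) hcard⟩
  · have := ProjectivePlane.pointCount_eq P l
    rw [hord, pointCount, Nat.card_eq_fintype_card, Fintype.card_subtype] at this
    exact this
  · obtain ⟨s, hs, hu⟩ := HasPoints.existsUnique_point P P l l' h
    refine Finset.card_eq_one.2 ⟨s, ?_⟩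
    ext t
    simp only [mem_inter, mem_filter, mem_univ, true_and, mem_singleton]
    exact ⟨hu t, fun e => e ▸ hs⟩
  · have := ProjectivePlane.lineCount_eq P s
    rw [hord, lineCount, Nat.card_eq_fintype_card, Fintype.card_subtype] at this
    simpa using this
  · obtain ⟨l, -, hu⟩ := HasLines.existsUnique_line P P s s' h
    refine Finset.card_le_one.2 fun a ha b hb => ?_
    simp only [mem_filter, mem_univ, true_and] at ha hb
    exact (hu a ha).trans (hu b hb).symm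

end Crest.Agent.GSC
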