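import Crest.Agent.GSC.Typed
import Crest.Agent.GSC.Plane

/-! The odd characteristic design: letters, types and classes. -/

set_option autoImplicit false
set_option linter.unusedSectionVars false

namespace Crest.Agent.GSC

open Finset

namespace PlaneData

variable {P L : Type} [Fintype P] [DecidableEq P] [Fintype L] [DecidableEq L] {q : ℕ}
  (Pl : PlaneData P L q)

/-- letters -/
abbrev Lt (P : Type) : Type := P ⊕ Fin 7

open Classical in
noncomputable def io : Lt P → Lt P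
  | .inl s => if h : s ∈ Set.range Pl.Qe then .inr h.choose else .inl (Pl.τ s)
  | .inr j => .inl (Pl.Qe j)

open Classical in
noncomputable def ell : Lt P → P × Bool
  | .inl s => if s ∈ Set.range Pl.Qe ∨ Pl.ε s = true then (s, true) else (Pl.τ s, false)
  | .inr j => (Pl.Qe j, false)

theorem io_Q (j : Fin 7) : Pl.io (.inl (Pl.Qe j)) = .inr j := by
  have h : Pl.Qe j ∈ Set.range Pl.Qe := ⟨j, rfl⟩
  simp only [io, dif_pos h]
  rw [Pl.Qe_inj h.choose_spec]

theorem io_g {s : P} (h : s ∉ Set.range Pl.Qe) : Pl.io (.inl s) = .inl (Pl.τ s) := by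
  simp only [io, dif_neg h]

theorem io_r (j : Fin 7) : Pl.io (.inr j) = .inl (Pl.Qe j) := rfl

theorem ell_Q (j : Fin 7) : Pl.ell (.inl (Pl.Qe j)) = (Pl.Qe j, true) := by
  simp [ell]

theorem ell_r (j : Fin 7) : Pl.ell (.inr j) = (Pl.Qe j, false) := rfl

theorem ell_g {s : P} (h : s ∉ Set.range Pl.Qe) :
    Pl.ell (.inl s) = if Pl.ε s = true then (s, true) else (Pl.τ s, false) := by
  simp only [ell, h, false_or]

theorem lt_cases (a : Lt P) : (∃ s, s ∉ Set.range Pl.Qe ∧ a = .inl s) ∨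
    (∃ j, a = .inl (Pl.Qe j)) ∨ ∃ j, a = .inr j := by
  rcases a with s | j
  · by_cases h : s ∈ Set.range Pl.Qe
    · obtain ⟨j, rfl⟩ := h
      exact Or.inr (Or.inl ⟨j, rfl⟩)
    · exact Or.inl ⟨s, h, rfl⟩
  · exact Or.inr (Or.inr ⟨j, rfl⟩)

theorem io_io (a : Lt P) : Pl.io (Pl.io a) = a := by
  rcases Pl.lt_cases a with ⟨s, h, rfl⟩ | ⟨j, rfl⟩ | ⟨j, rfl⟩
  · rw [Pl.io_g h, Pl.io_g (Pl.τQ s h), Pl.ττ s h]
  · rw [io_Q, io_r]
  · rw [io_r, io_Q]

theorem ell_io (a : Lt P) : Pl.ell (Pl.io a) = bar (Pl.ell a) := by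
  rcases Pl.lt_cases a with ⟨s, h, rfl⟩ | ⟨j, rfl⟩ | ⟨j, rfl⟩
  · rw [Pl.io_g h, Pl.ell_g (Pl.τQ s h), Pl.ell_g h, Pl.ετ s h, Pl.ττ s h]
    cases Pl.ε s <;> simp [bar]
  · rw [io_Q, ell_r, ell_Q]; rfl
  · rw [io_r, ell_r, ell_Q]; rfl

theorem ell_g_fst {s : P} (h : s ∉ Set.range Pl.Qe) : (Pl.ell (.inl s)).1 ∉ Set.range Pl.Qe := by
  rw [Pl.ell_g h]
  split_ifs
  · exact h
  · exact Pl.τQ s h

theorem ell_inj : Function.Injective Pl.ell := by
  intro a b hab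
  rcases Pl.lt_cases a with ⟨s, h, rfl⟩ | ⟨j, rfl⟩ | ⟨j, rfl⟩ <;>
    rcases Pl.lt_cases b with ⟨s', h', rfl⟩ | ⟨j', rfl⟩ | ⟨j', rfl⟩
  · rw [Pl.ell_g h, Pl.ell_g h'] at hab
    split_ifs at hab <;> simp only [Prod.mk.injEq, and_true, Bool.true_eq_false, and_false,
      Bool.false_eq_true] at hab
    · rw [hab]
    · rw [← Pl.ττ s h, hab, Pl.ττ s' h']
  · exact (Pl.ell_g_fst h (by rw [hab, ell_Q]; exact ⟨j', rfl⟩)).elim
  · exact (Pl.ell_g_fst h (by rw [hab, ell_r]; exact ⟨j', rfl⟩)).elim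
  · exact (Pl.ell_g_fst h' (by rw [← hab, ell_Q]; exact ⟨j, rfl⟩)).elim
  · rw [ell_Q, ell_Q] at hab
    rw [(Prod.mk.inj hab).1]
  · simp [ell_Q, ell_r] at hab
  · exact (Pl.ell_g_fst h' (by rw [← hab, ell_r]; exact ⟨j, rfl⟩)).elim
  · simp [ell_Q, ell_r] at hab
  · rw [ell_r, ell_r] at hab
    rw [Pl.Qe_inj (Prod.mk.inj hab).1]

/-- vertex types -/
abbrev Ty (L K : Type) : Type := Fin 3 × ((L × K) ⊕ K ⊕ Unit)

def J (c : Fin 3) : Finset (Fin 7) := if c = 0 then {0, 1, 2, 3} else {0, 4, 5, 6}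

def link {K : Type} : Ty L K → Finset (Lt P)
  | (_, .inl x) => (Pl.ln x.1).map ⟨.inl, Sum.inl_injective⟩
  | (_, .inr (.inl _)) => univ.map ⟨.inr, Sum.inr_injective⟩
  | (c, .inr (.inr _)) => (J c).map ⟨.inr, Sum.inr_injective⟩

variable {K : Type} [Field K]

def vec (c : Fin 3) : Fin 7 → K :=
  if c = 0 then ![1, 1, 1, 2, 1, -1, -1] else ![1, 1, -1, -1, 1, 1, -1]

def sw (c : Fin 3) : K := if c = 0 then 1 else -1

def wt : Ty L K → Lt P → K
  | (_, .inl x), _ => x.2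
  | (c, .inr (.inl α)), .inr j => α * vec c j
  | (_, .inr (.inl _)), .inl _ => 0
  | (c, .inr (.inr _)), _ => sw c

def al : Ty L K → K
  | (_, .inl x) => x.2
  | (_, .inr _) => 0

open Classical in
noncomputable def tw0 : Lt P → K
  | .inl s => if s ∉ Set.range Pl.Qe ∧ s ∈ Pl.ln Pl.l2 then -1 else 1
  | .inr _ => 1

noncomputable def tw (c : Fin 3) (a : Lt P) : K := sw c * Pl.tw0 a

open Classical in
noncomputable def mult (m : ℕ) : Ty L K → ℕ
  | (c, .inl x) => m + if x.2 = 1 ∧ ((c = 0 ∧ x.1 = Pl.l1) ∨ (c = 1 ∧ x.1 = Pl.l2)) then 1 else 0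
  | (_, .inr (.inl _)) => (q + 1) * m
  | (c, .inr (.inr _)) => if c = 2 then 0 else 1

theorem vec_ne (h2 : (2 : K) ≠ 0) (c : Fin 3) (j : Fin 7) : (vec c j : K) ≠ 0 := by
  unfold vec
  split_ifs <;> fin_cases j <;> simp [h2]

theorem sw_sq (c : Fin 3) : (sw c : K) * sw c = 1 := by
  unfold sw; split_ifs <;> simp

theorem tw0_sq (a : Lt P) : (Pl.tw0 a : K) * Pl.tw0 a = 1 := by
  rcases a with s | j
  · simp only [tw0]; split_ifs <;> simp
  · simp [tw0]

theorem tw0_io (a : Lt P) : (Pl.tw0 (Pl.io a) : K) = Pl.tw0 a := by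
  rcases Pl.lt_cases a with ⟨s, h, rfl⟩ | ⟨j, rfl⟩ | ⟨j, rfl⟩
  · rw [Pl.io_g h]
    simp only [tw0, h, Pl.τQ s h, Pl.τ2 s h]
  · rw [io_Q]; simp [tw0]
  · rw [io_r]; simp [tw0]

theorem tw_io (c : Fin 3) (a : Lt P) : (Pl.tw c (Pl.io a) : K) * Pl.tw c a = 1 := by
  rw [tw, tw, tw0_io, mul_mul_mul_comm, sw_sq, tw0_sq, one_mul]

/-- classes -/
abbrev Cl (P K : Type) : Type := Fin 3 × Lt P × K

def cls (t : Ty L K) (a : Lt P) : Cl P K := (t.1, a, wt t a)

noncomputable def ci (c : Cl P K) : Cl P K := (c.1, Pl.io c.2.1, Pl.tw c.1 c.2.1 * c.2.2)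

theorem ci_ci (c : Cl P K) : Pl.ci (Pl.ci c) = c := by
  obtain ⟨c, a, α⟩ := c
  simp only [ci, io_io]
  rw [← mul_assoc, tw_io, one_mul]

variable [Fintype K] [DecidableEq K]

theorem count_eq (m : ℕ) (c : Fin 3) (a : Lt P) (α : K) (R : Ty L K → Prop) [DecidablePred R] :
    ∑ t : Ty L K, Pl.mult m t * #{b ∈ Pl.link t | cls t b = (c, a, α) ∧ R t} =
      ∑ k, if a ∈ Pl.link (c, k) ∧ wt (c, k) a = α ∧ R (c, k) then Pl.mult m (c, k) else 0 := by
  rw [Fintype.sum_prod_type, Finset.sum_eq_single c]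
  · refine Finset.sum_congr rfl fun k _ => ?_
    split_ifs with h
    · rw [Finset.card_eq_one.2 ⟨a, ?_⟩, mul_one]
      ext b
      simp only [cls, mem_filter, mem_singleton, Prod.mk.injEq, true_and]
      exact ⟨fun h => h.2.1.1, fun e => by subst e; exact ⟨h.1, ⟨rfl, h.2.1⟩, h.2.2⟩⟩
    · rw [Finset.card_eq_zero.2, mul_zero]
      refine Finset.filter_eq_empty_iff.2 fun b hb hh => h ?_
      simp only [cls, Prod.mk.injEq, true_and] at hh
      obtain ⟨⟨rfl, h1⟩, h2⟩ := hh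
      exact ⟨hb, h1, h2⟩
  · intro c' _ hc
    refine Finset.sum_eq_zero fun k _ => ?_
    rw [Finset.card_eq_zero.2, mul_zero]
    refine Finset.filter_eq_empty_iff.2 fun b _ hh => hc ?_
    simp only [cls, Prod.mk.injEq] at hh
    exact hh.1.1
  · simp

theorem count_l (m : ℕ) (c : Fin 3) (s : P) (α : K) (R : Ty L K → Prop) [DecidablePred R] :
    ∑ t : Ty L K, Pl.mult m t * #{b ∈ Pl.link t | cls t b = (c, .inl s, α) ∧ R t} =
      ∑ l, if s ∈ Pl.ln l ∧ R (c, .inl (l, α)) then Pl.mult m (c, .inl (l, α)) else 0 := by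
  rw [count_eq, Fintype.sum_sum_type, Fintype.sum_sum_type, Fintype.sum_prod_type]
  simp only [link, wt, mem_map, Function.Embedding.coeFn_mk, Sum.inl.injEq, exists_eq_right,
    reduceCtorEq, and_false, exists_false, false_and, if_false, sum_const_zero, add_zero]
  refine Finset.sum_congr rfl fun l _ => ?_
  rw [Finset.sum_eq_single α]
  · simp
  · intro b _ hb; simp [hb]
  · simp

theorem count_r (h2 : (2 : K) ≠ 0) (m : ℕ) (c : Fin 3) (j : Fin 7) (α : K) (R : Ty L K → Prop)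
    [DecidablePred R] :
    ∑ t : Ty L K, Pl.mult m t * #{b ∈ Pl.link t | cls t b = (c, .inr j, α) ∧ R t} =
      (if R (c, .inr (.inl (α / vec c j))) then (q + 1) * m else 0) +
      if j ∈ J c ∧ sw c = α ∧ R (c, .inr (.inr ())) then (if c = 2 then 0 else 1) else 0 := by
  rw [count_eq, Fintype.sum_sum_type, Fintype.sum_sum_type]
  simp only [link, wt, mem_map, Function.Embedding.coeFn_mk, Sum.inr.injEq, exists_eq_right,
    reduceCtorEq, and_false, exists_false, false_and, if_false, sum_const_zero, zero_add,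
    mem_univ, true_and, mult, Finset.univ_unique, sum_singleton]
  congr 1
  rw [Finset.sum_eq_single (α / vec c j)]
  · simp [vec_ne h2]
  · intro b _ hb
    rw [if_neg]
    rintro ⟨-, rfl, -⟩
    exact hb (by rw [mul_div_cancel_right₀ _ (vec_ne h2 c j)])
  · simp

open Classical in
/-- the excess of a class over the base size -/
noncomputable def ext (c : Cl P K) : ℕ :=
  match c.2.1 with
  | .inl s => if c.2.2 = 1 ∧ ((c.1 = 0 ∧ s ∈ Pl.ln Pl.l1) ∨ (c.1 = 1 ∧ s ∈ Pl.ln Pl.l2)) then 1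
      else 0
  | .inr j => if j ∈ J c.1 ∧ sw c.1 = c.2.2 ∧ c.1 ≠ 2 then 1 else 0

theorem size_eq (h2 : (2 : K) ≠ 0) (m : ℕ) (c : Cl P K) :
    ∑ t : Ty L K, Pl.mult m t * #{b ∈ Pl.link t | cls t b = c} = (q + 1) * m + Pl.ext c := by
  classical
  obtain ⟨c, a, α⟩ := c
  rcases a with s | j
  · have := Pl.count_l m c s α (fun _ => True)
    simp only [and_true] at this
    rw [this]
    simp only [mult, ext]
    rw [← Finset.sum_filter, Finset.sum_add_distrib, Finset.sum_const, Pl.thru, smul_eq_mul]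
    congr 1
    refine (Finset.sum_congr rfl (g := fun l => if α = 1 ∧ (c = 0 ∧ l = Pl.l1 ∨ c = 1 ∧ l = Pl.l2)
      then 1 else 0) fun l _ => by congr).trans ?_
    rw [← Finset.card_filter]
    split_ifs with h
    · obtain ⟨h1, ⟨rfl, h3⟩ | ⟨rfl, h3⟩⟩ := h
      · refine Finset.card_eq_one.2 ⟨Pl.l1, ?_⟩
        ext l
        simp only [h1, mem_filter, mem_univ, true_and, mem_singleton, zero_ne_one, false_and,
          or_false]
        exact ⟨fun h => h.2, fun e => ⟨e ▸ h3, e⟩⟩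
      · refine Finset.card_eq_one.2 ⟨Pl.l2, ?_⟩
        ext l
        simp only [h1, mem_filter, mem_univ, true_and, mem_singleton, one_ne_zero, false_and,
          false_or]
        exact ⟨fun h => h.2, fun e => ⟨e ▸ h3, e⟩⟩
    · refine Finset.card_eq_zero.2 (Finset.filter_eq_empty_iff.2 fun l hl hh => h ⟨hh.1, ?_⟩)
      have hl' := (mem_filter.1 hl).2
      rcases hh.2 with ⟨h1, rfl⟩ | ⟨h1, rfl⟩
      · exact Or.inl ⟨h1, hl'⟩
      · exact Or.inr ⟨h1, hl'⟩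
  · have := Pl.count_r h2 m c j α (fun _ => True)
    simp only [and_true, if_true] at this
    rw [this]
    simp only [ext]
    congr 1
    split_ifs <;> tauto

theorem ext_le (c : Cl P K) : Pl.ext c ≤ 1 := by
  obtain ⟨c, s | j, α⟩ := c <;> simp only [ext] <;> split_ifs <;> simp

theorem ext_ci (c : Cl P K) : Pl.ext (Pl.ci c) = Pl.ext c := by
  classical
  have key : ∀ (c : Fin 3) j (α : K), Pl.ext (Pl.ci (c, .inr j, α)) = Pl.ext (c, .inr j, α) := by
    intro c j α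
    simp only [ci, io_r, ext, tw, tw0, Pl.Q1, Pl.Q2, mul_one]
    congr 1
    fin_cases c <;> simp [J, sw, and_comm, eq_comm, neg_eq_iff_eq_neg]
  obtain ⟨c, a, α⟩ := c
  rcases Pl.lt_cases a with ⟨s, h, rfl⟩ | ⟨j, rfl⟩ | ⟨j, rfl⟩
  · simp only [ci, Pl.io_g h, ext, tw, tw0, Pl.τ1 s h, Pl.τ2 s h, h, not_false_eq_true, true_and]
    congr 1
    have hb : s ∈ Pl.ln Pl.l1 → s ∉ Pl.ln Pl.l2 := fun h1 h2 => h ⟨0, (Pl.both s h1 h2).symm⟩
    by_cases h1 : s ∈ Pl.ln Pl.l1 <;> by_cases h2 : s ∈ Pl.ln Pl.l2 <;> fin_cases c <;>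
      simp_all [sw]
  · have := key c j (Pl.tw c (.inl (Pl.Qe j)) * α)
    have e : (c, Sum.inr j, Pl.tw c (.inl (Pl.Qe j)) * α) = Pl.ci (c, .inl (Pl.Qe j), α) := by
      simp only [ci, io_Q]
    rw [e, ci_ci] at this
    exact this.symm
  · exact key c j α

/-- the type data -/
noncomputable def td (h2 : (2 : K) ≠ 0) (m : ℕ) : TData P (Lt P) (Ty L K) (Cl P K) where
  ell := Pl.ell
  ell_inj := Pl.ell_inj
  io := Pl.io
  ell_io := Pl.ell_io
  link := Pl.link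
  mult := Pl.mult m
  cls := cls
  ci := Pl.ci
  ci_ci := Pl.ci_ci
  cl_let _ _ _ _ h := congrArg (fun c => c.2.1) h
  bal c := by rw [Pl.size_eq h2, Pl.size_eq h2, ext_ci]

end PlaneData

end Crest.Agent.GSC
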