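import Crest.Agent.GSC.DesP1

/-! The odd characteristic design: the algebraic identity. -/

set_option autoImplicit false
set_option linter.unusedSectionVars false

namespace Crest.Agent.GSC

open Finset

namespace PlaneData

variable {P L : Type} [Fintype P] [DecidableEq P] [Fintype L] [DecidableEq L] {q : ℕ}
  (Pl : PlaneData P L q) {K : Type} [Field K] [Fintype K] [DecidableEq K]

theorem om_ty (hq : (q : K) = 0) (c : Fin 3) (hc : c ≠ 0) (k k' : (L × K) ⊕ K ⊕ Unit) :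
    ∑ a ∈ Pl.link (0, k) ∩ Pl.link (c, k'), wt (0, k) a * wt (c, k') a =
      al (0, k) * al (c, k') - if k = .inr (.inr ()) ∧ k' = .inr (.inr ()) then 1 else 0 := by
  have dj : ∀ (A : Finset P) (B : Finset (Fin 7)),
      A.map ⟨.inl, Sum.inl_injective⟩ ∩ B.map ⟨.inr, Sum.inr_injective⟩ = (∅ : Finset (Lt P)) := by
    intro A B
    ext (s | j) <;> simp
  have dj' : ∀ (A : Finset P) (B : Finset (Fin 7)),
      B.map ⟨.inr, Sum.inr_injective⟩ ∩ A.map ⟨.inl, Sum.inl_injective⟩ = (∅ : Finset (Lt P)) :=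
    fun A B => by rw [inter_comm, dj]
  rcases k with ⟨l, α⟩ | α | ⟨⟩ <;> rcases k' with ⟨l', α'⟩ | α' | ⟨⟩ <;>
    simp only [link, al, dj, dj', sum_empty, mul_zero, zero_mul, reduceCtorEq, false_and,
      and_false, if_false, sub_zero, Sum.inr.injEq, ← Finset.map_inter, sum_map,
      Function.Embedding.coeFn_mk, wt, sum_const, and_self, if_true, card_map, card_empty,
      zero_smul]
  · by_cases h : l = l'
    · subst h
      rw [inter_self, Pl.card_ln]
      simp [hq]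
    · rw [Pl.inter _ _ h, one_smul]
  · simp only [inter_self, vec, hc, if_true, if_false, Fin.sum_univ_succ]
    simp
    ring
  · simp only [univ_inter, J, vec, sw, hc, if_true, if_false]
    rw [sum_insert (by decide), sum_insert (by decide), sum_insert (by decide), sum_singleton]
    simp
  · simp only [inter_univ, J, vec, sw, hc, if_true, if_false]
    rw [sum_insert (by decide), sum_insert (by decide), sum_insert (by decide), sum_singleton]
    simp
  · simp only [J, sw, hc, if_true, if_false]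
    rw [show (({0, 1, 2, 3} : Finset (Fin 7)) ∩ {0, 4, 5, 6}).card = 1 by decide]
    simp

/-- the distinguished vertex -/
noncomputable def z0 (h2 : (2 : K) ≠ 0) (m : ℕ) (hm : 1 ≤ m) : (Pl.td h2 m).VV :=
  ⟨(2, .inl (Pl.l1, 1)), ⟨0, lt_of_lt_of_le hm (Nat.le_add_right _ _)⟩⟩

theorem not_df_td (h2 : (2 : K) ≠ 0) (hq : (q : K) = 0) (m : ℕ) (hm : 1 ≤ m)
    (β : (Pl.td h2 m).DD → (Pl.td h2 m).DD) (hM : (Pl.td h2 m).design.IsM β)
    (hemb : ∀ y p, (Pl.td h2 m).design.Path β (Pl.z0 h2 m hm) p y →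
      (Pl.td h2 m).design.ev β (p.map (Pl.td h2 m).design.lab) = 1 → y = Pl.z0 h2 m hm) :
    ∃ a b : MonoidAlgebra K ((Pl.td h2 m).design.Grp β), a * b = 1 ∧ b * a ≠ 1 := by
  classical
  let x0 : (Pl.td h2 m).VV := ⟨(0, .inr (.inr ())), ⟨0, Nat.one_pos⟩⟩
  let y0 : (Pl.td h2 m).VV := ⟨(1, .inr (.inr ())), ⟨0, Nat.one_pos⟩⟩
  have hcl : ∀ d, cls (β d).1.1.1 (β d).1.2 = Pl.ci (cls d.1.1.1 d.1.2) := fun d => (hM d).2
  have hcol : ∀ {x y : (Pl.td h2 m).VV}, (Pl.td h2 m).design.Comp β x y → y.1.1 = x.1.1 :=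
    fun h => (Pl.td h2 m).design.comp_inv (fun x => x.1.1)
      (fun d => congrArg (fun c => c.1) (hcl d)) h
  have hw : ∀ d, wt (β d).1.1.1 (β d).1.2 = Pl.tw d.1.1.1.1 d.1.2 * wt d.1.1.1 d.1.2 :=
    fun d => congrArg (fun c => c.2.2) (hcl d)
  have hom : ∀ x y : (Pl.td h2 m).VV, x.1.1 = 0 → y.1.1 ≠ 0 →
      (Pl.td h2 m).design.om (fun d => wt d.1.1.1 d.1.2) x y = al x.1 * al y.1 -
        if x.1.2 = .inr (.inr ()) ∧ y.1.2 = .inr (.inr ()) then 1 else 0 := by
    rintro ⟨⟨c, k⟩, i⟩ ⟨⟨c', k'⟩, i'⟩ h1 h3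
    obtain rfl : c = 0 := h1
    rw [TData.om_eq]
    exact Pl.om_ty hq c' h3 k k'
  refine (Pl.td h2 m).design.not_df hM h2 x0 y0 (Pl.z0 h2 m hm) hemb
    (fun d => wt d.1.1.1 d.1.2) (fun x => al x.1) one_ne_zero ?_ ?_ ?_
  · intro d e hd he hde
    have h1 : d.1.1.1.1 = 0 := hcol hd
    have h3 : e.1.1.1.1 ≠ 0 := by
      rcases he with he | he
      · rw [show e.1.1.1.1 = 1 from hcol he]; decide
      · rw [show e.1.1.1.1 = 2 from hcol he]; decide
    have h4 : d.1.2 = e.1.2 := Pl.ell_inj hde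
    have := Pl.tw0_sq (K := K) e.1.2
    simp only [hw, tw, sw, h1, h3, h4, if_true, if_false]
    linear_combination (-(wt d.1.1.1 e.1.2 * wt e.1.1.1 e.1.2)) * this
  · intro x y hx hy
    have h1 : x.1.1 = 0 := hcol hx
    have h3 : y.1.1 = 1 := hcol hy
    rw [hom x y h1 (by rw [h3]; decide)]
    congr 2
    obtain ⟨⟨c, k⟩, i⟩ := x
    obtain ⟨⟨c', k'⟩, i'⟩ := y
    obtain rfl : c = 0 := h1
    obtain rfl : c' = 1 := h3
    refine propext (and_congr ⟨?_, fun h => congrArg (fun z => z.1.2) h⟩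
      ⟨?_, fun h => congrArg (fun z => z.1.2) h⟩)
    · rintro rfl
      exact congrArg _ (Fin.ext (Nat.lt_one_iff.1 i.2))
    · rintro rfl
      exact congrArg _ (Fin.ext (Nat.lt_one_iff.1 i'.2))
  · intro x z hx hz
    have h1 : x.1.1 = 0 := hcol hx
    have h3 : z.1.1 = 2 := hcol hz
    rw [hom x z h1 (by rw [h3]; decide), if_neg, sub_zero]
    obtain ⟨⟨c', k'⟩, i'⟩ := z
    obtain rfl : c' = 2 := h3
    rintro ⟨-, rfl⟩
    exact absurd i'.2 (Nat.not_lt_zero _)

end PlaneData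

end Crest.Agent.GSC
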