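import Crest.Agent.GSC.DesP2

/-! The odd characteristic design: numerical hypotheses. -/

set_option autoImplicit false
set_option linter.unusedSectionVars false

namespace Crest.Agent.GSC

open Finset

namespace PlaneData

variable {P L : Type} [Fintype P] [DecidableEq P] [Fintype L] [DecidableEq L] {q : ℕ}
  (Pl : PlaneData P L q) {K : Type} [Field K] [Fintype K] [DecidableEq K]

open Classical in
/-- the weights -/
noncomputable def wts (hq : 1568 ≤ q) (C0 : ℕ) : Weights P where
  Om b := if b.1 ∈ Set.range Pl.Qe then 28 else (q + 1 : ℝ) - 1 / 4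
  Fd b := if b.1 ∈ Set.range Pl.Qe ∧ b.2 = true then 56 else 1
  Ff _ := 1
  rho := 1 - 1 / (16 * (q + 1 : ℝ))
  eta := 1 / (16 * (q + 1 : ℝ))
  C0 := C0
  Om_bar _ := rfl
  one_lt_Om a := by
    have : (1568 : ℝ) ≤ q := by exact_mod_cast hq
    split_ifs <;> linarith
  one_le_Fd a := by split_ifs <;> norm_num
  one_le_Ff _ := le_rfl
  rho_pos := by
    have : (1568 : ℝ) ≤ q := by exact_mod_cast hq
    rw [sub_pos, div_lt_one (by positivity)]
    linarith
  rho_lt := by
    have : (0 : ℝ) < 1 / (16 * (q + 1 : ℝ)) := by positivity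
    linarith
  eta_pos := by positivity
  eta_lt := by
    have : (1568 : ℝ) ≤ q := by exact_mod_cast hq
    rw [div_lt_one (by positivity)]
    linarith

variable (h2 : (2 : K) ≠ 0) (m : ℕ)

open Classical in
theorem cnt_l (d : (Pl.td h2 m).DD) (s : P) (hs : Pl.io d.1.2 = .inl s) (b : P × Bool)
    (hb : b ≠ bar ((Pl.td h2 m).design.lab d)) :
    (Pl.td h2 m).design.cnt d b ≤ if ∃ s', Pl.ell (.inl s') = b then m + 1 else 0 := by
  rw [TData.cnt_eq]
  have e : (Pl.td h2 m).ci ((Pl.td h2 m).cls d.1.1.1 d.1.2) =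
      (d.1.1.1.1, .inl s, Pl.tw d.1.1.1.1 d.1.2 * wt d.1.1.1 d.1.2) := by
    rw [← hs]; rfl
  rw [e]
  refine le_of_eq_of_le (Eq.trans (sum_congr rfl fun t _ => congrArg _ (congrArg _
    (Finset.ext fun _ => by simp only [mem_filter]; rfl))) (Pl.count_l m d.1.1.1.1 s
      (Pl.tw d.1.1.1.1 d.1.2 * wt d.1.1.1 d.1.2) (fun t => ∃ a' ∈ Pl.link t, Pl.ell a' = b))) ?_
  simp only [link, mem_map, Function.Embedding.coeFn_mk, exists_exists_and_eq_and]
  split_ifs with h
  · obtain ⟨s', rfl⟩ := h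
    have hne : s ≠ s' := by
      rintro rfl
      exact hb (by rw [← hs]; exact Pl.ell_io _)
    rw [← Finset.sum_filter]
    refine (Finset.sum_le_card_nsmul _ _ (m + 1) fun l _ => ?_).trans ?_
    · simp only [mult]; split_ifs <;> omega
    · have := Pl.two s s' hne
      rw [smul_eq_mul]
      refine (Nat.mul_le_mul_right _ ((Finset.card_le_card fun l hl => ?_).trans this)).trans
        (one_mul _).le
      obtain ⟨h1, s'', h3, h4⟩ := (mem_filter.1 hl).2
      obtain rfl : s'' = s' := Sum.inl_injective (Pl.ell_inj h4)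
      exact mem_filter.2 ⟨mem_univ _, h1, h3⟩
  · refine (Finset.sum_eq_zero fun l _ => if_neg ?_).le
    rintro ⟨-, s', -, h3⟩
    exact h ⟨s', h3⟩

open Classical in
theorem cnt_r (d : (Pl.td h2 m).DD) (j : Fin 7) (hs : Pl.io d.1.2 = .inr j) (b : P × Bool) :
    (Pl.td h2 m).design.cnt d b ≤ if ∃ j', Pl.ell (.inr j') = b then (q + 1) * m + 1 else 0 := by
  rw [TData.cnt_eq]
  have e : (Pl.td h2 m).ci ((Pl.td h2 m).cls d.1.1.1 d.1.2) =
      (d.1.1.1.1, .inr j, Pl.tw d.1.1.1.1 d.1.2 * wt d.1.1.1 d.1.2) := by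
    rw [← hs]; rfl
  rw [e]
  refine le_of_eq_of_le (Eq.trans (sum_congr rfl fun t _ => congrArg _ (congrArg _
    (Finset.ext fun _ => by simp only [mem_filter]; rfl))) (Pl.count_r h2 m d.1.1.1.1 j
      (Pl.tw d.1.1.1.1 d.1.2 * wt d.1.1.1 d.1.2) (fun t => ∃ a' ∈ Pl.link t, Pl.ell a' = b))) ?_
  simp only [link, mem_map, Function.Embedding.coeFn_mk, exists_exists_and_eq_and]
  by_cases h : ∃ j', Pl.ell (.inr j') = b
  · rw [if_pos h]
    split_ifs <;> omega
  · rw [if_neg h, if_neg, if_neg]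
    · rintro ⟨-, -, j', -, h3⟩
      exact h ⟨j', h3⟩
    · rintro ⟨j', -, h3⟩
      exact h ⟨j', h3⟩

theorem sum_range_le {α β : Type} [Fintype α] [Fintype β] [DecidableEq β] (f : α → β)
    (g : β → ℝ) (hg : ∀ b, 0 ≤ g b) (c : ℝ) (hc : 0 ≤ c) (u : β → ℝ) (U : Finset β)
    [∀ b, Decidable (∃ a, f a = b)]
    (hu : ∀ b ∈ U, u b ≤ if ∃ a, f a = b then c else 0) :
    ∑ b ∈ U, u b * g b ≤ c * ∑ a, g (f a) := by
  calc ∑ b ∈ U, u b * g b ≤ ∑ b ∈ U, (if ∃ a, f a = b then c else 0) * g b :=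
        sum_le_sum fun b hb => mul_le_mul_of_nonneg_right (hu b hb) (hg b)
    _ ≤ ∑ b, (if ∃ a, f a = b then c else 0) * g b :=
        sum_le_sum_of_subset_of_nonneg (subset_univ _) fun b _ _ =>
          mul_nonneg (by split_ifs <;> simp [hc]) (hg b)
    _ = c * ∑ b ∈ univ.image f, g b := by
        rw [mul_sum, ← sum_subset (subset_univ (univ.image f))]
        · refine sum_congr rfl fun b hb => ?_
          rw [if_pos (by simpa using hb)]
        · intro b _ hb
          rw [if_neg (by simpa using hb), zero_mul]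
    _ ≤ _ := mul_le_mul_of_nonneg_left (sum_image_le_of_nonneg fun b _ => hg b) hc

theorem large (hq : 1568 ≤ q) (hm : 8 * (q + 1) ≤ m) :
    (Pl.td h2 m).design.Large (Pl.wts hq (2 * Fintype.card (Ty L K))) ((q + 1) * m) := by
  classical
  have hq' : (1568 : ℝ) ≤ q := by exact_mod_cast hq
  have hm' : 8 * (q + 1 : ℝ) ≤ m := by exact_mod_cast hm
  have hη : (1 - 1 / (16 * (q + 1 : ℝ))) * (((q + 1) * m : ℕ) : ℝ) = (q + 1 - 1 / 16) * m := by
    push_cast; field_simp
  have hρ : (q + 1 - 1 / 8 : ℝ) * m ≤ (1 - 1 / (16 * (q + 1 : ℝ))) *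
      (1 - 1 / (16 * (q + 1 : ℝ))) * (((q + 1) * m : ℕ) : ℝ) := by
    rw [mul_assoc, hη, ← mul_assoc]
    refine mul_le_mul_of_nonneg_right ?_ (Nat.cast_nonneg _)
    have : (1 - 1 / (16 * (q + 1 : ℝ))) * (q + 1 - 1 / 16) =
        q + 1 - 1 / 8 + 1 / (256 * (q + 1)) := by field_simp; ring
    rw [this]
    exact le_add_of_nonneg_right (by positivity)
  refine ⟨fun d => ?_, ?_, fun x => ?_, fun d b hb => ?_, fun d => ?_⟩
  · refine le_of_le_of_eq ?_ ((Pl.td h2 m).cl_eq _).symm
    exact le_of_le_of_eq (Nat.le_add_right _ _) (Pl.size_eq h2 m _).symm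
  · refine le_of_eq_of_le (by convert (Pl.td h2 m).card_VV) ?_
    refine (Finset.sum_le_card_nsmul _ _ (2 * ((q + 1) * m)) fun t _ => ?_).trans (le_of_eq ?_)
    · obtain ⟨c, x | α | u⟩ := t <;> simp only [td, mult] <;> (try split_ifs) <;> nlinarith
    · simp only [wts, smul_eq_mul, card_univ]; ring
  · refine le_of_le_of_eq (b := ((Pl.td h2 m).link x.1).card) ?_ (by convert ((Pl.td h2 m).deg_eq x).symm)
    obtain ⟨⟨c, x | α | u⟩, i⟩ := x <;> simp only [td, link, card_map, Pl.card_ln, J]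
    · omega
    · simp
    · split_ifs <;> decide
  · simp only [wts] 
    rw [hη]
    rcases hio : Pl.io d.1.2 with s | j
    · have h1 := Pl.cnt_l h2 m d s hio b hb
      have h3 : (1 : ℝ) ≤ if ((Pl.td h2 m).design.lab d).1 ∈ Set.range Pl.Qe ∧
          ((Pl.td h2 m).design.lab d).2 = true then 56 else 1 := by split_ifs <;> norm_num
      refine le_trans ?_ (le_mul_of_one_le_right (by nlinarith) h3)
      have h4 : ((Pl.td h2 m).design.cnt d b : ℝ) ≤ m + 1 := by
        exact_mod_cast h1.trans (by split_ifs <;> omega)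
      have h5 : (0 : ℝ) ≤ (Pl.td h2 m).design.cnt d b := Nat.cast_nonneg _
      split_ifs with h6 h7 h7
      · nlinarith
      · nlinarith
      · exact (h6 h7.1).elim
      · nlinarith
    · have h1 := Pl.cnt_r h2 m d j hio b
      have hl : (Pl.td h2 m).design.lab d = (Pl.Qe j, true) := by
        have : d.1.2 = .inl (Pl.Qe j) := by rw [← Pl.io_io d.1.2, hio, io_r]
        exact (congrArg Pl.ell this).trans (Pl.ell_Q j)
      rw [hl]
      split_ifs at h1 with h3
      · obtain ⟨j', rfl⟩ := h3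
        have h4 : ((Pl.td h2 m).design.cnt d (Pl.ell (.inr j')) : ℝ) ≤ (q + 1) * m + 1 := by
          exact_mod_cast h1
        simp only [ell_r, Set.mem_range_self, if_true, Bool.false_eq_true, and_false, if_false,
          and_self] at h4 ⊢
        nlinarith
      · rw [Nat.le_zero.1 h1]
        simp only [Set.mem_range_self, if_true, and_self, Nat.cast_zero, zero_mul]
        nlinarith
  · have hOm : ∀ b, 0 ≤ ((Pl.wts hq (2 * Fintype.card (Ty L K))).Om b)⁻¹ := fun b =>
      inv_nonneg.2 (zero_le_one.trans (Weights.one_lt_Om _ b).le)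
    refine le_trans ?_ (hρ.trans_eq (mul_one _).symm)
    refine le_of_eq_of_le (sum_congr rfl fun b _ =>
      (congrArg (· / _) (mul_one _)).trans (div_eq_mul_inv _ _)) ?_
    rcases hio : Pl.io d.1.2 with s | j
    · refine (sum_range_le (fun s => Pl.ell (.inl s)) _ hOm ((m + 1 : ℕ) : ℝ) (Nat.cast_nonneg _)
        _ _ fun b hb => ?_).trans ?_
      · have := Pl.cnt_l h2 m d s hio b (by rintro rfl; simp at hb)
        split_ifs at this ⊢ <;> exact_mod_cast this
      have h1 : ∑ s, ((Pl.wts hq (2 * Fintype.card (Ty L K))).Om (Pl.ell (.inl s)))⁻¹ ≤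
          ∑ s, (((q + 1 : ℝ) - 1 / 4)⁻¹ + if s ∈ univ.image Pl.Qe then 1 / 28 else 0) := by
        refine sum_le_sum fun s _ => ?_
        have h0 : 0 ≤ ((q + 1 : ℝ) - 1 / 4)⁻¹ := inv_nonneg.2 (by linarith)
        by_cases hs : s ∈ Set.range Pl.Qe
        · obtain ⟨j, rfl⟩ := hs
          simp only [wts, ell_Q, Set.mem_range_self, if_true, mem_image_of_mem _ (mem_univ j)]
          linarith
        · simp only [wts, Pl.ell_g_fst hs, if_false]
          split_ifs <;> linarith
      rw [sum_add_distrib, sum_ite_mem, univ_inter, sum_const, sum_const, card_univ, Pl.card_P,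
        card_image_of_injective _ Pl.Qe_inj, nsmul_eq_mul, nsmul_eq_mul] at h1
      have h3 : ((q ^ 2 + q + 1 : ℕ) : ℝ) * ((q + 1 : ℝ) - 1 / 4)⁻¹ ≤ q + 1 / 2 := by
        rw [← div_eq_mul_inv, div_le_iff₀ (by linarith)]
        push_cast
        nlinarith
      simp only [card_univ, Fintype.card_fin, Nat.cast_ofNat] at h1
      refine (mul_le_mul_of_nonneg_left (h1.trans (add_le_add_left h3 _))
        (Nat.cast_nonneg _)).trans ?_
      push_cast
      nlinarith
    · refine (sum_range_le (fun j => Pl.ell (.inr j)) _ hOm (((q + 1) * m + 1 : ℕ) : ℝ)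
        (Nat.cast_nonneg _) _ _ fun b hb => ?_).trans ?_
      · have := Pl.cnt_r h2 m d j hio b
        split_ifs at this ⊢ <;> exact_mod_cast this
      simp only [wts, ell_r, Set.mem_range_self, if_true, sum_const, card_univ, Fintype.card_fin,
        nsmul_eq_mul]
      push_cast
      nlinarith

end PlaneData

end Crest.Agent.GSC
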