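import Crest.Agent.GSC.Cyc

/-! The Euler inequality for planar systems of words. -/

set_option autoImplicit false

namespace Crest.Agent.GSC

open FreeGroup (mk of lift invRev mul_mk inv_mk)
open Finset

variable {E : Type} [DecidableEq E]

/-- sign of a word -/
def sg (ε : E → ℤˣ) (l : List (E × Bool)) : ℤˣ := (l.map fun x => ε x.1).prod

/-- the Magnus-type homomorphism -/
def mag (ε : E → ℤˣ) : FreeGroup E →* (Multiplicative (E → ℤ) ≀ᵣ ℤˣ) :=
  lift fun e => ⟨fun q => if q = 1 then Multiplicative.ofAdd (Pi.single e 1) else 1, ε e⟩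

/-- contribution of a side -/
def val (ε : E → ℤˣ) (p : E × Bool → ℤˣ) (q : ℤˣ) (e : E) (x : E × Bool) : ℤ :=
  (if x = (e, true) then (if p x = q then 1 else 0) else 0) -
    (if x = (e, false) then (if p x * ε e = q then 1 else 0) else 0)

theorem mag_letter (ε : E → ℤˣ) (p : E × Bool → ℤˣ) (x : E × Bool)
    (y : Multiplicative (E → ℤ) ≀ᵣ ℤˣ) (hy : y.right = p x) :
    (y * mag ε (mk [x])).right = p x * ε x.1 ∧ ∀ q e,
      ((y * mag ε (mk [x])).left q).toAdd e = (y.left q).toAdd e + val ε p q e x := by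
  rcases x with ⟨a, b⟩
  cases b
  · have e1 : mk [(a, false)] = (of a)⁻¹ := mk_bar (a, true)
    rw [e1, map_inv]
    refine ⟨by simp [mag, hy], fun q e => ?_⟩
    by_cases h : a = e
    · subst h
      rcases Int.units_eq_one_or q with rfl | rfl <;>
        rcases Int.units_eq_one_or (p (a, false)) with h1 | h1 <;>
        rcases Int.units_eq_one_or (ε a) with h2 | h2 <;> simp [mag, hy, val, h1, h2]
    · simp only [mag, val, FreeGroup.lift_apply_of, RegularWreathProduct.mul_left,
        RegularWreathProduct.inv_left, Pi.mul_apply, Pi.inv_apply, toAdd_mul, toAdd_inv,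
        Pi.add_apply, Pi.neg_apply]
      split_ifs <;> simp_all
  · have e1 : mk [(a, true)] = of a := rfl
    rw [e1]
    refine ⟨by simp [mag, hy], fun q e => ?_⟩
    by_cases h : a = e
    · subst h
      rcases Int.units_eq_one_or q with rfl | rfl <;>
        rcases Int.units_eq_one_or (p (a, true)) with h1 | h1 <;> simp [mag, hy, val, h1]
    · simp only [mag, val, FreeGroup.lift_apply_of, RegularWreathProduct.mul_left,
        Pi.mul_apply, toAdd_mul, Pi.add_apply]
      split_ifs <;> simp_all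

theorem mag_pth (ε : E → ℤˣ) (p : E × Bool → ℤˣ) {φ : E × Bool → E × Bool} :
    ∀ {l : List (E × Bool)} {a b : E × Bool} (y : Multiplicative (E → ℤ) ≀ᵣ ℤˣ), Pth φ a l b →
      (∀ x ∈ l, p (φ x) = p x * ε x.1) → y.right = p a →
      (y * mag ε (mk l)).right = p b ∧ ∀ q e,
        ((y * mag ε (mk l)).left q).toAdd e = (y.left q).toAdd e + (l.map (val ε p q e)).sum
  | [], a, b, y, h, _, hy => by
    obtain rfl : a = b := h
    simp [mk_nil, hy]
  | x :: l, a, b, y, h, hp, hy => by
    obtain rfl := h.head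
    obtain ⟨h1, h2⟩ := mag_letter ε p a y hy
    obtain ⟨h3, h4⟩ := mag_pth ε p (y * mag ε (mk [a])) h.2 (fun x hx => hp x (by simp [hx]))
      (by rw [h1, hp a (by simp)])
    rw [mk_cons, map_mul, ← mul_assoc]
    exact ⟨h3, fun q e => by rw [h4, h2, List.map_cons, List.sum_cons, add_assoc]⟩

theorem exists_pot_pth (ε : E → ℤˣ) {φ : E × Bool → E × Bool} :
    ∀ {l : List (E × Bool)} {a b : E × Bool} (s : ℤˣ), Pth φ a l b → (l ++ [b]).Nodup →
      ∃ p : E × Bool → ℤˣ, p a = s ∧ (∀ x ∈ l, p (φ x) = p x * ε x.1) ∧ p b = s * sg ε l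
  | [], a, b, s, h, _ => ⟨fun _ => s, rfl, by simp, by simp [sg]⟩
  | x :: l, a, b, s, h, hn => by
    obtain rfl := h.head
    rw [List.cons_append, List.nodup_cons] at hn
    obtain ⟨p, h1, h2, h3⟩ := exists_pot_pth ε (s * ε a.1) h.2 hn.2
    have key : ∀ y ∈ a :: l, φ y ≠ a := by
      intro y hy e
      rcases h.mem hy with h4 | h4
      · exact hn.1 (List.mem_append_left _ (e ▸ h4))
      · exact hn.1 (by simp [← h4, e])
    refine ⟨Function.update p a s, by simp, ?_, ?_⟩
    · intro y hy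
      rw [Function.update_of_ne (key y hy)]
      rcases List.mem_cons.1 hy with rfl | hy'
      · simp [h1]
      · rw [Function.update_of_ne, h2 y hy']
        rintro rfl
        exact hn.1 (List.mem_append_left _ hy')
    · rw [Function.update_of_ne, h3]
      · simp [sg, mul_assoc]
      · rintro rfl
        exact hn.1 (by simp)

theorem exists_pot_cyc (ε : E → ℤˣ) {φ : E × Bool → E × Bool} {a : E × Bool}
    {l : List (E × Bool)} (s : ℤˣ) (h : Cyc φ (a :: l)) (hn : (a :: l).Nodup)
    (hs : sg ε (a :: l) = 1) :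
    ∃ p : E × Bool → ℤˣ, p a = s ∧ ∀ x ∈ a :: l, p (φ x) = p x * ε x.1 := by
  obtain ⟨l', z, e⟩ := exists_snoc a l
  have h1 := cyc_cons.1 h
  rw [e] at h1 hn hs ⊢
  obtain ⟨b, h2, h3⟩ := pth_append.1 h1
  obtain rfl := h3.head
  obtain ⟨p, k1, k2, k3⟩ := exists_pot_pth ε s h2 hn
  refine ⟨p, k1, fun x hx => ?_⟩
  rcases List.mem_append.1 hx with hx | hx
  · exact k2 x hx
  · obtain rfl := List.mem_singleton.1 hx
    rw [h1.last, k1, k3, mul_assoc]
    simp only [sg, List.map_append, List.prod_append, List.map_cons, List.map_nil,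
      List.prod_cons, List.prod_nil, mul_one] at hs
    rw [sg, hs, mul_one]

theorem exists_pot_sum (ε : E → ℤˣ) {φ : E × Bool → E × Bool} :
    ∀ {ws : List (List (E × Bool))} {x : FreeGroup E}, CjP (ws.map mk) x → ws.flatten.Nodup →
      (∀ w ∈ ws, Cyc φ w ∧ sg ε w = 1) →
      ∃ p : E × Bool → ℤˣ, (∀ y ∈ ws.flatten, p (φ y) = p y * ε y.1) ∧ (mag ε x).right = 1 ∧
        ∀ q e, ((mag ε x).left q).toAdd e = (ws.flatten.map (val ε p q e)).sum
  | [], x, h, _, _ => by
    obtain rfl := CjP.nil_iff.1 h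
    exact ⟨fun _ => 1, by simp, by simp, by simp⟩
  | w :: ws, x, h, hn, hw => by
    obtain ⟨g, y, hy, rfl⟩ := CjP.cons_iff.1 h
    rw [List.flatten_cons, List.nodup_append] at hn
    obtain ⟨p, h1, h2, h3⟩ := exists_pot_sum ε hy hn.2.1 fun w' hw' => hw w' (by simp [hw'])
    cases w with
    | nil => exact ⟨p, by simpa using h1, by simpa [mk_nil] using h2, by simpa [mk_nil] using h3⟩
    | cons a l =>
      obtain ⟨hc, hs⟩ := hw (a :: l) (by simp)
      obtain ⟨p', k1, k2⟩ := exists_pot_cyc ε (mag ε g).right hc hn.1 hs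
      let P : E × Bool → ℤˣ := fun y => if y ∈ a :: l then p' y else p y
      have P1 : ∀ y ∈ a :: l, P y = p' y := fun y hy => if_pos hy
      have P2 : ∀ y ∈ ws.flatten, P y = p y := fun y hy => if_neg fun h => hn.2.2 y h y hy rfl
      have k3 : ∀ y ∈ a :: l, P (φ y) = P y * ε y.1 := fun y hy => by
        rw [P1 _ (hc.mem hy), P1 _ hy, k2 y hy]
      obtain ⟨k4, k5⟩ := mag_pth ε P (mag ε g) (cyc_cons.1 hc) k3 (by rw [P1 a (by simp), k1])
      rw [P1 a (by simp), k1] at k4
      refine ⟨P, ?_, ?_, fun q e => ?_⟩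
      · intro y hy
        rcases List.mem_append.1 hy with hy | hy
        · exact k3 y hy
        · obtain ⟨w, hw1, hy1⟩ := List.mem_flatten.1 hy
          rw [P2 _ (List.mem_flatten.2 ⟨w, hw1, (hw w (by simp [hw1])).1.mem hy1⟩), P2 _ hy,
            h1 y hy]
      · rw [map_mul, map_mul, map_mul, map_inv, RegularWreathProduct.mul_right,
          RegularWreathProduct.mul_right, k4, h2]
        simp
      · have e1 : ws.flatten.map (val ε P q e) = ws.flatten.map (val ε p q e) :=
          List.map_congr_left fun y hy => by simp only [val, P2 y hy]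
        rw [List.flatten_cons, List.map_append, List.sum_append, e1, ← h3, map_mul, map_mul,
          map_mul, map_inv]
        have k6 := k5 q e
        generalize mag ε g * mag ε (mk (a :: l)) = z at k4 k6 ⊢
        simp [k4, k6, ← mul_assoc, Int.units_mul_self]

theorem exists_pot (ε : E → ℤˣ) {φ : E × Bool → E × Bool} {ws : List (List (E × Bool))}
    (h : Cj (ws.map mk)) (hn : ws.flatten.Nodup) (hw : ∀ w ∈ ws, Cyc φ w ∧ sg ε w = 1) :
    ∃ p : E × Bool → ℤˣ, ∀ y ∈ ws.flatten, p (φ y) = p (bar y) ∧ p (bar y) = p y * ε y.1 := by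
  obtain ⟨p, h1, -, h3⟩ := exists_pot_sum ε h hn hw
  have key : ∀ e, (e, true) ∈ ws.flatten → (e, false) ∈ ws.flatten →
      p (e, false) * ε e = p (e, true) := by
    intro e t1 t2
    have := h3 (p (e, true)) e
    rw [← List.sum_toFinset _ hn] at this
    simp only [val, sum_sub_distrib, sum_ite_eq', List.mem_toFinset, t1, t2, if_true] at this
    by_contra hne
    simp [hne] at this
  have k2 : ∀ y ∈ ws.flatten, p (bar y) = p y * ε y.1 := by
    intro y hy
    have hb := bar_mem hn h hy
    rcases y with ⟨e, b⟩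
    cases b
    · exact (key e hb hy).symm
    · have := key e hy hb
      show p (e, false) = p (e, true) * ε e
      rw [← this, mul_assoc, Int.units_mul_self, mul_one]
  exact ⟨p, fun y hy => ⟨by rw [h1 y hy, k2 y hy], k2 y hy⟩⟩

theorem orbit_count {α : Type*} [DecidableEq α] (ν : Equiv.Perm α) (T : Finset α)
    (hT : ∀ x ∈ T, ν x ∈ T) (rep : α → α) (hrep : ∀ x, rep (ν x) = rep x) :
    6 * #(T.image rep) + #{x ∈ T | ν (ν x) ≠ x} ≤ 3 * #T + 3 * #{x ∈ T | ν x = x} := by
  let wt : α → ℕ := fun x => if ν x = x then 6 else if ν (ν x) = x then 3 else 2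
  have h1 : 6 * #(T.image rep) ≤ ∑ x ∈ T, wt x := by
    rw [← sum_fiberwise_of_maps_to (s := T) (t := T.image rep) (g := rep)
      (fun x hx => mem_image_of_mem _ hx), mul_comm, ← smul_eq_mul]
    refine card_nsmul_le_sum _ _ _ fun r hr => ?_
    obtain ⟨x, hx, rfl⟩ := mem_image.1 hr
    have m0 : x ∈ T.filter fun y => rep y = rep x := by simp [hx]
    have m1 : ν x ∈ T.filter fun y => rep y = rep x := by simp [hT x hx, hrep]
    have m2 : ν (ν x) ∈ T.filter fun y => rep y = rep x := by simp [hT _ (hT x hx), hrep]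
    by_cases c1 : ν x = x
    · refine le_trans ?_ (single_le_sum (fun _ _ => Nat.zero_le _) m0)
      simp [wt, c1]
    by_cases c2 : ν (ν x) = x
    · refine le_trans ?_ (sum_le_sum_of_subset (s := {x, ν x}) (by
        intro y hy; simp only [mem_insert, mem_singleton] at hy; rcases hy with rfl | rfl <;>
          assumption))
      rw [sum_pair (Ne.symm c1)]
      simp [wt, c1, c2, Ne.symm c1]
    · refine le_trans ?_ (sum_le_sum_of_subset (s := {x, ν x, ν (ν x)}) (by
        intro y hy; simp only [mem_insert, mem_singleton] at hy; rcases hy with rfl | rfl | rfl <;>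
          assumption))
      have c3 : ν x ≠ ν (ν x) := fun e => c1 (ν.injective e).symm
      have w2 : ∀ y, 2 ≤ wt y := fun y => by simp only [wt]; split_ifs <;> omega
      rw [sum_insert (by simp [Ne.symm c1, Ne.symm c2]), sum_pair c3]
      have := w2 x; have := w2 (ν x); have := w2 (ν (ν x)); omega
  have h2 : ∑ x ∈ T, wt x + #{x ∈ T | ν (ν x) ≠ x} = 3 * #T + 3 * #{x ∈ T | ν x = x} := by
    rw [card_filter, card_filter, ← sum_add_distrib, mul_sum, card_eq_sum_ones, mul_sum,
      ← sum_add_distrib]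
    refine sum_congr rfl fun x _ => ?_
    simp only [wt]
    by_cases c1 : ν x = x
    · simp [c1]
    · by_cases c2 : ν (ν x) = x <;> simp [c1, c2]
  omega

theorem euler [Finite E] {φ : Equiv.Perm (E × Bool)} {ws : List (List (E × Bool))}
    (h : Cj (ws.map mk)) (hn : ws.flatten.Nodup) (hw : ∀ w ∈ ws, Cyc φ w) :
    #{x ∈ ws.flatten.toFinset | nu φ (nu φ x) ≠ x} ≤
      6 * ws.length + 3 * #{x ∈ ws.flatten.toFinset | nu φ x = x} := by
  classical
  have := Fintype.ofFinite E
  set T := ws.flatten.toFinset with hT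
  have hbar : ∀ x ∈ T, bar x ∈ T := fun x hx => by
    rw [hT, List.mem_toFinset] at hx ⊢; exact bar_mem hn h hx
  have hnu : ∀ x ∈ T, nu φ x ∈ T := fun x hx => by
    have := hbar x hx
    rw [hT, List.mem_toFinset] at this ⊢
    obtain ⟨w, hw1, h1⟩ := List.mem_flatten.1 this
    exact List.mem_flatten.2 ⟨w, hw1, (hw w hw1).mem h1⟩
  let st : Setoid (E × Bool) := ⟨(nu φ).SameCycle, Equiv.Perm.SameCycle.equivalence _⟩
  let rep : E × Bool → E × Bool := fun x => (Quotient.mk st x).out
  have hrep : ∀ x, rep (nu φ x) = rep x := fun x => by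
    have : Quotient.mk st (nu φ x) = Quotient.mk st x :=
      Quotient.sound (Equiv.Perm.SameCycle.symm ⟨1, by simp⟩)
    simp only [rep, this]
  have hrep2 : ∀ x, ∃ k : ℕ, (nu φ ^ k) x = rep x := fun x => by
    have : (nu φ).SameCycle (rep x) x := Quotient.exact (Quotient.out_eq (Quotient.mk st x))
    obtain ⟨i, -, hi⟩ := this.symm.exists_pow_eq'
    exact ⟨i, hi⟩
  have h1 := orbit_count (nu φ) T hnu rep hrep
  set E0 : Finset E := {e | (e, true) ∈ T} with hE0
  have hc : #T = 2 * #E0 := by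
    have : T = E0 ×ˢ univ := by
      ext ⟨e, b⟩
      simp only [hE0, mem_product, mem_filter, mem_univ, true_and, and_true]
      cases b
      · exact ⟨fun h => hbar _ h, fun h => hbar _ h⟩
      · rfl
    rw [this, card_product]; simp [mul_comm]
  let Λ : (E → ℤˣ) →* (Fin ws.length → ℤˣ) :=
    { toFun := fun ε i => sg ε ws[i]
      map_one' := by ext i; simp [sg]
      map_mul' := fun a b => by funext i; simp [sg, List.prod_map_mul] }
  have hk : ∀ ε : Λ.ker, ∃ p : E × Bool → ℤˣ,
      ∀ y ∈ ws.flatten, p (φ y) = p (bar y) ∧ p (bar y) = p y * ε.1 y.1 := fun ε =>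
    exists_pot ε.1 h hn fun w hw1 => ⟨hw w hw1, by
      obtain ⟨i, hi, rfl⟩ := List.getElem_of_mem hw1
      exact congrFun ε.2 ⟨i, hi⟩⟩
  choose p hp using hk
  have hp2 : ∀ ε, ∀ x ∈ T, p ε (rep x) = p ε x := by
    intro ε x hx
    obtain ⟨k, hk⟩ := hrep2 x
    rw [← hk]
    clear hk
    induction k generalizing x with
    | zero => rfl
    | succ k ih =>
      rw [pow_succ, Equiv.Perm.mul_apply, ih _ (hnu x hx), nu_apply,
        (hp ε _ (List.mem_toFinset.1 (hbar x hx))).1, bar_bar]
  let J : Λ.ker → (T.image rep → ℤˣ) × (↥(E0ᶜ) → ℤˣ) := fun ε => (fun r => p ε r, fun e => ε.1 e)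
  have hJ : Function.Injective J := by
    intro ε ε' e
    have e1 : ∀ x ∈ T, p ε x = p ε' x := fun x hx => by
      rw [← hp2 ε x hx, ← hp2 ε' x hx]
      exact congrFun (congrArg Prod.fst e) ⟨rep x, mem_image_of_mem _ hx⟩
    ext1
    funext a
    by_cases ha : a ∈ E0
    · have m : (a, true) ∈ T := by simpa [hE0] using ha
      have k1 := (hp ε _ (List.mem_toFinset.1 m)).2
      have k2 := (hp ε' _ (List.mem_toFinset.1 m)).2
      rw [e1 _ m, e1 _ (hbar _ m), k2] at k1
      exact (mul_left_cancel k1).symm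
    · exact congrFun (congrArg Prod.snd e) ⟨a, mem_compl.2 ha⟩
  have c1 := Nat.card_le_card_of_injective J hJ
  have c2 : Nat.card Λ.ker * Λ.ker.index = Nat.card (E → ℤˣ) := Λ.ker.card_mul_index
  have c3 : Λ.ker.index ≤ 2 ^ ws.length := by
    rw [Subgroup.index_ker]
    refine (Nat.card_le_card_of_injective _ Subtype.val_injective).trans ?_
    simp
  simp only [Nat.card_eq_fintype_card, Fintype.card_prod, Fintype.card_fun, Fintype.card_units_int,
    Fintype.card_coe] at c1 c2
  have c4 : 2 ^ Fintype.card E ≤ 2 ^ (#(T.image rep) + #E0ᶜ + ws.length) := by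
    rw [← c2, pow_add, pow_add]
    exact Nat.mul_le_mul c1 c3
  have c5 := (Nat.pow_le_pow_iff_right (by norm_num)).1 c4
  have c6 := card_add_card_compl E0
  omega

end Crest.Agent.GSC
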