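import Crest.Agent.GSC.Par

/-! Local-to-global principle for linear isoperimetric inequalities. -/

set_option autoImplicit false

namespace Crest.Agent.GSC

open FreeGroup (mk of lift invRev mul_mk inv_mk)

variable {A Fc M : Type} [AddCommMonoid M] (word : Fc → List (A × Bool)) (cls : Fc → M)

/-- `W` bounds a diagram with `n` faces and total class `z`. -/
def Ar (W : List (A × Bool)) (z : M) (n : ℕ) : Prop :=
  ∃ fs : List Fc, Cj (mk W :: fs.map fun f => mk (word f)) ∧ (fs.map cls).sum = z ∧ fs.length = n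

variable {word cls}

theorem cj_forget {E : Type} {lb : E → A} {gs : List (Fc × List (E × Bool))}
    (hg : ∀ p ∈ gs, p.2.map (lm lb) = word p.1) {l : List (FreeGroup E)}
    (h : Cj (l ++ gs.map fun p => mk p.2)) :
    Cj (l.map (FreeGroup.map lb) ++ (gs.map Prod.fst).map fun f => mk (word f)) := by
  have := h.map (FreeGroup.map lb)
  rw [List.map_append, List.map_map] at this
  rw [List.map_map]
  convert this using 2
  exact List.map_congr_left fun p hp => by simp [← hg p hp]; rfl

theorem ar_forget {E : Type} {lb : E → A} {gs : List (Fc × List (E × Bool))}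
    (hg : ∀ p ∈ gs, p.2.map (lm lb) = word p.1) {X : List (E × Bool)}
    (h : Cj (mk X :: gs.map fun p => mk p.2)) :
    Ar word cls (X.map (lm lb)) ((gs.map Prod.fst).map cls).sum gs.length :=
  ⟨gs.map Prod.fst, by simpa only [List.map_cons, List.map_nil, map_mk, List.cons_append,
    List.nil_append] using cj_forget hg (l := [mk X]) h, rfl, by simp⟩

theorem Ar.glue {W W1 W2 : List (A × Bool)} {z1 z2 : M} {m1 m2 : ℕ} {f3 : List Fc}
    (h : Cj ((mk W1)⁻¹ :: (mk W2)⁻¹ :: mk W :: f3.map fun f => mk (word f)))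
    (h1 : Ar word cls W1 z1 m1) (h2 : Ar word cls W2 z2 m2) :
    Ar word cls W (z1 + z2 + (f3.map cls).sum) (m1 + m2 + f3.length) := by
  obtain ⟨l1, c1, rfl, rfl⟩ := h1
  obtain ⟨l2, c2, rfl, rfl⟩ := h2
  refine ⟨l1 ++ l2 ++ f3, ?_, by simp [add_assoc], by simp [add_assoc]⟩
  have h3 := h.cancel c1
  rw [List.cons_append] at h3
  have h4 := h3.cancel c2
  refine h4.perm ?_
  simp only [List.cons_append, List.map_append, List.append_assoc]
  refine List.Perm.cons _ ?_
  rw [← List.append_assoc (l1.map _)]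
  exact List.perm_append_comm

/-- a decomposition of a diagram into two diagrams and at most `s` further faces -/
def Dec (word : Fc → List (A × Bool)) (cls : Fc → M) (W : List (A × Bool)) (z : M) (n : ℕ)
    (W1 W2 : List (A × Bool)) (s : ℕ) : Prop :=
  ∃ z1 z2 n1 n2 s', s' ≤ s ∧ Ar word cls W1 z1 n1 ∧ Ar word cls W2 z2 n2 ∧ n1 + n2 + s' = n ∧
    ∀ m1 m2, Ar word cls W1 z1 m1 → Ar word cls W2 z2 m2 → Ar word cls W z (m1 + m2 + s')

theorem dec_of_tag {E : Type} {lb : E → A} {gs g1 g2 g3 : List (Fc × List (E × Bool))}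
    (hg : ∀ p ∈ gs, p.2.map (lm lb) = word p.1) (hp : gs.Perm (g1 ++ g2 ++ g3))
    {W X Y : List (E × Bool)} {s : ℕ} (hs : g3.length ≤ s)
    (h1 : Cj (mk X :: g1.map fun p => mk p.2)) (h2 : Cj (mk Y :: g2.map fun p => mk p.2))
    (h3 : Cj ((mk X)⁻¹ :: (mk Y)⁻¹ :: mk W :: g3.map fun p => mk p.2)) :
    Dec word cls (W.map (lm lb)) ((gs.map Prod.fst).map cls).sum gs.length
      (X.map (lm lb)) (Y.map (lm lb)) s := by
  have k : ∀ p ∈ g1 ++ g2 ++ g3, p.2.map (lm lb) = word p.1 := fun p h => hg p (hp.symm.subset h)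
  refine ⟨_, _, _, _, g3.length, hs, ar_forget (fun p h => k p (by simp [h])) h1,
    ar_forget (fun p h => k p (by simp [h])) h2, by rw [hp.length_eq]; simp [add_assoc], ?_⟩
  intro m1 m2 a1 a2
  have h4 := cj_forget (word := word) (fun p h => k p (by simp [h]))
    (l := [(mk X)⁻¹, (mk Y)⁻¹, mk W]) h3
  simp only [List.map_cons, List.map_nil, map_inv, map_mk, List.cons_append,
    List.nil_append] at h4
  have := Ar.glue h4 a1 a2
  rw [((hp.map _).map cls).sum_eq]
  simpa [add_assoc] using this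

theorem not_fst_of_nodup {E : Type} {x : E × Bool} {l : List (E × Bool)} (h1 : x ∉ l)
    (h2 : bar x ∉ l) : ∀ y ∈ l, y.1 ≠ x.1 := fun y hy e => by
  rcases eq_or_bar e with rfl | rfl
  · exact h1 hy
  · exact h2 hy

theorem trichotomy {ℓ : ℕ} (hℓ : ∀ f, (word f).length ≤ ℓ) {W : List (A × Bool)} {z : M} {n : ℕ}
    (h : Ar word cls W z n) :
    (∃ W1 W2, W1.length + W2.length + 2 = W.length ∧ Dec word cls W z n W1 W2 0) ∨
      ((1 ≤ n → ∃ W' z', W'.length ≤ W.length + ℓ ∧ Ar word cls W' z' (n - 1) ∧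
          ∀ m, Ar word cls W' z' m → Ar word cls W z (m + 1)) ∧
        ∀ D q, n < D * D → 1 ≤ q → 4 * q ≤ W.length → ∃ W1 W2,
          W1.length + q ≤ W.length + D * ℓ ∧ W2.length + q ≤ W.length + D * ℓ ∧
          W1.length + W2.length ≤ W.length + D * ℓ ∧ Dec word cls W z n W1 W2 D) := by
  classical
  obtain ⟨fs, hc, rfl, rfl⟩ := h
  obtain ⟨E, hE, lb, W', gs, rfl, rfl, hg, nd, cj⟩ := exists_tag word fs W hc
  have hnd := List.nodup_append.1 nd
  rw [List.length_map, List.length_map]
  by_cases hb : ∃ x ∈ W', bar x ∈ W'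
  · left
    obtain ⟨x, hx, hx'⟩ := hb
    obtain ⟨u, v, B, γ1, γ2, e1, e2, e3⟩ := exists_rot2 hx hx'
    obtain ⟨α, rfl⟩ : ∃ α, γ1 = x :: α := by
      cases γ1 with
      | nil => simp at e3; exact (bar_ne x e3.1.symm).elim
      | cons y α => simp at e3; exact ⟨α, by rw [e3.1]⟩
    have hp : W'.Perm (x :: α ++ bar x :: γ2) := by
      rw [e1, ← e3, ← e2]; exact List.perm_append_comm
    have hcj : IsConj (mk W') (mk (x :: α ++ bar x :: γ2)) := by
      rw [e1, ← e3, ← e2]; exact isConj_rot _ _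
    have n1 := hp.nodup_iff.1 hnd.1
    simp only [List.cons_append, List.nodup_cons, List.mem_append, List.mem_cons, not_or,
      List.nodup_append] at n1
    obtain ⟨g1, g2, hp2, c1, c2⟩ := split_edge (wd := Prod.snd) (fs := gs)
      (not_fst_of_nodup n1.1.1 fun h => n1.2.2.2 _ h _ (Or.inl rfl) rfl)
      (not_fst_of_nodup n1.1.2.2 n1.2.2.1.1)
      (fun p hp => not_fst_of_nodup
        (fun h => hnd.2.2 x hx x (List.mem_flatMap.2 ⟨p, hp, h⟩) rfl)
        (fun h => hnd.2.2 _ hx' _ (List.mem_flatMap.2 ⟨p, hp, h⟩) rfl))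
      (cj.of_isConj hcj)
    refine ⟨α.map (lm lb), γ2.map (lm lb), by rw [hp.length_eq]; simp; omega,
      dec_of_tag (g3 := []) hg (by simpa using hp2) le_rfl c1 c2 ?_⟩
    have k1 : Cj [mk (x :: α ++ bar x :: γ2), (mk γ2)⁻¹, (mk α)⁻¹] := by
      refine Cj.of_mul ?_
      rw [List.cons_append, mk_cons, mk_append, mk_cons (bar x), mk_bar]
      refine Cj.of_isConj (a := mk α) (isConj_iff.2 ⟨mk [x], by group⟩) ?_
      simpa using Cj.pair (mk α)⁻¹
    exact (k1.of_isConj hcj.symm).perm (List.perm_iff_count.2 fun a => by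
      simp only [List.map_nil, List.count_cons]; omega)
  · right
    push Not at hb
    obtain ⟨φ, hS, -⟩ := exists_sys (wd := Prod.snd) nd cj
    have hℓ' : ∀ p ∈ gs, p.2.length ≤ ℓ := fun p hp => by
      have := hℓ p.1
      rwa [← hg p hp, List.length_map] at this
    constructor
    · intro hn
      cases W' with
      | nil =>
        obtain ⟨p, gs, rfl⟩ : ∃ p gs', gs = p :: gs' := by
          cases gs with
          | nil => simp at hn
          | cons p gs => exact ⟨p, gs, rfl⟩
        rw [mk_nil, Cj.one_cons, List.map_cons] at cj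
        refine ⟨p.2.map (lm lb), _, by simpa using hℓ' p (by simp),
          ar_forget (fun q hq => hg q (by simp [hq])) cj, ?_⟩
        rintro m ⟨l, c1, e1, rfl⟩
        refine ⟨p.1 :: l, ?_, by simp [e1], rfl⟩
        rw [List.map_nil, mk_nil, Cj.one_cons, List.map_cons, ← hg p (by simp)]
        exact c1
      | cons x α =>
        have h1 := hS.bar_mem (x := x) (by simp)
        rcases List.mem_append.1 h1 with h1 | h1
        · exact (hb x (by simp) h1).elim
        obtain ⟨p, hp, h2⟩ := List.mem_flatMap.1 h1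
        obtain ⟨u, v, e⟩ := List.append_of_mem h2
        obtain ⟨gs', hp2⟩ : ∃ gs', gs.Perm (p :: gs') := ⟨gs.erase p, List.perm_cons_erase hp⟩
        have hS' := hS.perm hp2
        have hcB : IsConj (mk p.2) (mk (bar x :: (v ++ u))) := by rw [e]; exact isConj_rot _ _
        have n1 := hS'.nd
        rw [List.flatMap_cons, e] at n1
        have n2 : (x :: bar x :: (α ++ ((v ++ u) ++ gs'.flatMap Prod.snd))).Nodup :=
          (List.perm_iff_count.2 fun a => by
            simp only [List.count_cons, List.count_append]; omega).nodup_iff.1 n1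
        simp only [List.nodup_cons, List.mem_cons, not_or] at n2
        have n3 := not_fst_of_nodup n2.1.2 n2.2.1
        have c1 := merge_edge (wd := Prod.snd) (fs := gs') (x := x) (α := α) (β := v ++ u)
          (fun y hy => n3 y (by simp [hy]))
          (fun y hy => n3 y (List.mem_append_right _ (List.mem_append_left _ hy)))
          (fun q hq y hy => n3 y (List.mem_append_right _ (List.mem_append_right _
            (List.mem_flatMap.2 ⟨q, hq, hy⟩))))
          (((hS'.cj.perm (List.Perm.swap _ _ _)).of_isConj hcB).perm (List.Perm.swap _ _ _))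
        have hlen := hℓ' p hp
        rw [e] at hlen
        refine ⟨_, _, ?_, by
          rw [hp2.length_eq]
          exact ar_forget (fun q hq => hg q (hp2.symm.subset (by simp [hq]))) c1, ?_⟩
        · simp at hlen ⊢; omega
        · rintro m ⟨l, c2, e1, rfl⟩
          refine ⟨p.1 :: l, ?_, ?_, rfl⟩
          · have k1 : IsConj (mk (bar (lm lb x) :: (v ++ u).map (lm lb))) (mk (word p.1)) := by
              rw [← hg p hp, e, List.map_append, List.map_append, List.map_cons]
              exact isConj_rot (_ :: _) _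
            have k2 : Cj (mk (α.map (lm lb) ++ [lm lb x]) ::
                mk (bar (lm lb x) :: (v ++ u).map (lm lb)) :: l.map fun f => mk (word f)) := by
              refine Cj.of_mul ?_
              convert c2 using 2
              rw [List.map_append (l₁ := α), mk_append, mk_append, mk_cons (bar _), mk_bar]
              group
            have k3 := k2.of_isConj (isConj_rot _ _)
            exact ((k3.perm (List.Perm.swap _ _ _)).of_isConj k1).perm (List.Perm.swap _ _ _)
          · rw [((hp2.map _).map cls).sum_eq]; simp [e1]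
    · intro D q hD hq hW
      obtain ⟨X, Y, k1, k2, k3, k4, X', Y', g1, g2, g3, j1, j2, j3, j4, j5, j6, j7, j8⟩ :=
        balanced_cut hS hb hℓ' hD hq hW
      refine ⟨X'.map (lm lb), Y'.map (lm lb), by simp; omega, by simp; omega, by simp; omega,
        dec_of_tag hg j1 j2 j3 j4 ?_⟩
      have k9 : Cj (mk (X ++ Y) :: (mk X')⁻¹ :: (mk Y')⁻¹ :: g3.map fun p => mk p.2) :=
        j8.perm ((List.Perm.swap _ _ _).cons _ |>.trans (List.Perm.swap _ _ _))
      exact (k9.of_isConj k1).perm
        ((List.Perm.swap _ _ _).trans ((List.Perm.swap _ _ _).cons _))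

/-- the comparison function -/
noncomputable def phi (c : ℝ) (x : ℝ) : ℝ := c * x + min (c * x) (40 * √x)

theorem phi_ge {c x : ℝ} (hc : 0 < c) (hx : 0 ≤ x) : c * x ≤ phi c x := by
  have : 0 ≤ min (c * x) (40 * √x) := le_min (by positivity) (by positivity)
  unfold phi; linarith

theorem phi_le (c x : ℝ) : phi c x ≤ 2 * c * x := by
  have := min_le_left (c * x) (40 * √x)
  unfold phi; linarith

theorem phi_le' (c x : ℝ) : phi c x ≤ c * x + 40 * √x := by
  have := min_le_right (c * x) (40 * √x)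
  unfold phi; linarith

theorem phi_mono {c x y : ℝ} (hc : 0 < c) (h : x ≤ y) : phi c x ≤ phi c y := by
  have h1 : c * x ≤ c * y := by gcongr
  have h2 : 40 * √x ≤ 40 * √y := by gcongr
  have := min_le_min h1 h2
  unfold phi; linarith

theorem phi_eq {c x : ℝ} (hx : 0 ≤ x) (h : 40 ≤ c * √x) : phi c x = c * x + 40 * √x := by
  unfold phi
  rw [min_eq_right]
  have h1 : √x * √x = x := Real.mul_self_sqrt hx
  have h2 : 0 ≤ √x := Real.sqrt_nonneg x
  calc 40 * √x ≤ c * √x * √x := by gcongr
    _ = c * x := by rw [mul_assoc, h1]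

theorem phi_add {c x y : ℝ} (hc : 0 < c) (hx : 0 ≤ x) (hy : 0 ≤ y) :
    phi c (x + y) ≤ phi c x + phi c y := by
  have key : ∀ x y : ℝ, 0 ≤ x → 0 ≤ y → 40 * √x ≤ c * x → √(x + y) ≤ √x + c * y / 40 ∨ x = 0 := by
    intro x y hx hy h
    rcases hx.eq_or_lt with h0 | h0
    · exact Or.inr h0.symm
    left
    have h1 : √x * √x = x := Real.mul_self_sqrt hx
    have h2 : 0 < √x := Real.sqrt_pos.2 h0
    have h3 : 40 ≤ c * √x := by nlinarith
    refine Real.sqrt_le_iff.2 ⟨by positivity, ?_⟩
    have : 0 ≤ (c * y / 40) ^ 2 := by positivity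
    nlinarith
  have hs : √(x + y) ≤ √x + √y := by
    refine Real.sqrt_le_iff.2 ⟨by positivity, ?_⟩
    have h1 : √x * √x = x := Real.mul_self_sqrt hx
    have h2 : √y * √y = y := Real.mul_self_sqrt hy
    have : 0 ≤ √x * √y := by positivity
    nlinarith
  have a1 := min_le_left (c * (x + y)) (40 * √(x + y))
  have a2 := min_le_right (c * (x + y)) (40 * √(x + y))
  unfold phi
  rcases le_total (c * x) (40 * √x) with h1 | h1 <;>
    rcases le_total (c * y) (40 * √y) with h2 | h2
  · rw [min_eq_left h1, min_eq_left h2]; linarith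
  · rw [min_eq_left h1, min_eq_right h2]
    rcases key y x hy hx h2 with h3 | h3
    · rw [add_comm y x] at h3; linarith
    · subst h3; simp at a1 ⊢
  · rw [min_eq_right h1, min_eq_left h2]
    rcases key x y hx hy h1 with h3 | h3
    · linarith
    · subst h3; simp at a1 ⊢
  · rw [min_eq_right h1, min_eq_right h2]; linarith

theorem numeric_cut {c r L L1 L2 m1 m2 D : ℝ} (hc : 0 < c) (hc1 : c ≤ 1) (hr : 600 ≤ c * r)
    (hD : D ≤ 2 * r) (hD0 : 0 ≤ D) (h1 : 0 ≤ m1) (h2 : 0 ≤ m2) (hm : r ^ 2 ≤ m1 + m2 + D)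
    (p1 : phi c m1 ≤ L1) (p2 : phi c m2 ≤ L2) (l1 : L1 ≤ 3 / 4 * L + 1 + D)
    (l2 : L2 ≤ 3 / 4 * L + 1 + D) (l : L1 + L2 ≤ L + D) : c * r ^ 2 + 40 * r ≤ L := by
  by_contra hL
  push Not at hL
  have hr0 : 600 ≤ r := by nlinarith
  have k1 : m1 ≤ 0.81 * r ^ 2 := by
    have := (phi_ge hc h1).trans p1
    refine le_of_mul_le_mul_left ?_ hc
    nlinarith
  have k2 : m2 ≤ 0.81 * r ^ 2 := by
    have := (phi_ge hc h2).trans p2
    refine le_of_mul_le_mul_left ?_ hc
    nlinarith
  have s1 : √m1 ≤ 0.9 * r := Real.sqrt_le_iff.2 ⟨by positivity, by nlinarith⟩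
  have s2 : √m2 ≤ 0.9 * r := Real.sqrt_le_iff.2 ⟨by positivity, by nlinarith⟩
  have t1 : 0.4 * r ≤ √m1 := Real.le_sqrt_of_sq_le (by nlinarith)
  have t2 : 0.4 * r ≤ √m2 := Real.le_sqrt_of_sq_le (by nlinarith)
  rw [phi_eq h1 (by nlinarith)] at p1
  rw [phi_eq h2 (by nlinarith)] at p2
  have e1 : √m1 * √m1 = m1 := Real.mul_self_sqrt h1
  have e2 : √m2 * √m2 = m2 := Real.mul_self_sqrt h2
  have u : 1.1 * r ≤ √m1 + √m2 := by
    by_contra hu
    push Not at hu
    nlinarith
  nlinarith

theorem local_to_global {c : ℝ} (hc : 0 < c) (hc1 : c ≤ 1) {K : ℕ} (hK : (600 / c) ^ 2 ≤ K)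
    {ℓ : ℕ} (hℓ1 : 1 ≤ ℓ) (hℓ : ∀ f, (word f).length ≤ ℓ)
    (hloc : ∀ W z n, n ≤ K → Ar word cls W z n →
      ∃ m, Ar word cls W z m ∧ 2 * c * ℓ * m ≤ W.length) :
    ∀ W z n, Ar word cls W z n → ∃ m, Ar word cls W z m ∧ c * ℓ * m ≤ W.length := by
  classical
  have hℓ0 : (1 : ℝ) ≤ ℓ := by exact_mod_cast hℓ1
  have exmin : ∀ W z n, Ar word cls W z n →
      ∃ m ≤ n, Ar word cls W z m ∧ ∀ k, Ar word cls W z k → m ≤ k := fun W z n h =>
    ⟨Nat.find ⟨n, h⟩, Nat.find_min' _ h, Nat.find_spec ⟨n, h⟩, fun k hk => Nat.find_min' _ hk⟩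
  have main : ∀ n L W z, W.length = L → Ar word cls W z n → (∀ k, Ar word cls W z k → n ≤ k) →
      phi c n ≤ W.length / ℓ := by
    intro n
    induction n using Nat.strong_induction_on with
    | _ n ihn =>
    intro L
    induction L using Nat.strong_induction_on with
    | _ L ihL =>
    intro W z hL h hmin
    have ih : ∀ W' z' m, m ≤ n → W'.length < W.length ∨ m < n → Ar word cls W' z' m →
        (∀ k, Ar word cls W' z' k → m ≤ k) → phi c m ≤ W'.length / ℓ := by
      intro W' z' m hm hlt h' hmin'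
      rcases hm.eq_or_lt with rfl | hm
      · exact ihL _ (by omega) W' z' rfl h' hmin'
      · exact ihn m hm _ W' z' rfl h' hmin'
    by_cases hn : n ≤ K
    · obtain ⟨m, hm, hm2⟩ := hloc W z n hn h
      have : (n : ℝ) ≤ m := by exact_mod_cast hmin m hm
      refine (phi_le c n).trans ?_
      rw [le_div_iff₀ (by linarith)]
      refine le_trans ?_ hm2
      rw [mul_right_comm]; gcongr
    push Not at hn
    rcases trichotomy hℓ h with ⟨W1, W2, hl, z1, z2, n1, n2, s, hs, a1, a2, e, hg⟩ | ⟨hp, hcut⟩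
    · obtain ⟨m1, k1, b1, c1⟩ := exmin _ _ _ a1
      obtain ⟨m2, k2, b2, c2⟩ := exmin _ _ _ a2
      have i1 := ih W1 z1 m1 (by omega) (by omega) b1 c1
      have i2 := ih W2 z2 m2 (by omega) (by omega) b2 c2
      have : (n : ℝ) ≤ m1 + m2 := by
        have := hmin _ (hg m1 m2 b1 b2)
        exact_mod_cast (by omega : n ≤ m1 + m2)
      refine (phi_mono hc this).trans ((phi_add hc (by positivity) (by positivity)).trans ?_)
      refine (add_le_add i1 i2).trans ?_
      rw [← add_div]
      gcongr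
      exact_mod_cast (by omega : W1.length + W2.length ≤ W.length)
    · set r := √(n : ℝ) with hr
      have hr2 : r ^ 2 = n := Real.sq_sqrt (by positivity)
      have hcr : 600 ≤ c * r := by
        have h1 : 600 / c ≤ r := Real.le_sqrt_of_sq_le (hK.trans (by exact_mod_cast hn.le))
        rwa [div_le_iff₀' hc] at h1
      have hr0 : 600 ≤ r := by nlinarith
      obtain ⟨W', z', l1, a1, g1⟩ := hp (by omega)
      obtain ⟨m, k1, b1, c1⟩ := exmin _ _ _ a1
      have i1 := (phi_ge hc (by positivity)).trans (ih W' z' m (by omega) (by omega) b1 c1)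
      have e1 : (n : ℝ) ≤ m + 1 := by exact_mod_cast hmin _ (g1 m b1)
      have hW : c * r ^ 2 - 2 ≤ W.length / ℓ := by
        have : (W'.length : ℝ) / ℓ ≤ W.length / ℓ + 1 := by
          rw [div_add_one (by linarith)]
          gcongr
          exact_mod_cast l1
        nlinarith
      set D := Nat.sqrt n + 1 with hD
      have hD2 : (D : ℝ) ≤ 2 * r := by
        have : (Nat.sqrt n : ℝ) ≤ r := Real.nat_sqrt_le_real_sqrt
        push_cast [hD]; linarith
      set q := W.length / 4 with hq
      have hq1 : (W.length : ℝ) / 4 - 1 ≤ q := by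
        have : W.length < 4 * q + 4 := by omega
        have : (W.length : ℝ) < 4 * q + 4 := by exact_mod_cast this
        linarith
      have hq2 : D * ℓ < q := by
        have : (D * ℓ : ℝ) < q := by
          rw [le_div_iff₀ (by linarith)] at hW
          have h5 : 600 * r - 2 ≤ c * r ^ 2 - 2 := by nlinarith
          have h6 : (600 * r - 2) * ℓ ≤ W.length := le_trans (by gcongr) hW
          have h7 : (D * ℓ : ℝ) ≤ 2 * r * ℓ := by gcongr
          nlinarith
        exact_mod_cast this
      obtain ⟨W1, W2, j1, j2, j3, z1, z2, n1, n2, s, hs, a1, a2, e, hg⟩ :=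
        hcut D q (Nat.lt_succ_sqrt n) (by omega) (by omega)
      obtain ⟨m1, k1, b1, c1⟩ := exmin _ _ _ a1
      obtain ⟨m2, k2, b2, c2⟩ := exmin _ _ _ a2
      have i1 := ih W1 z1 m1 (by omega) (by omega) b1 c1
      have i2 := ih W2 z2 m2 (by omega) (by omega) b2 c2
      have e2 : r ^ 2 ≤ m1 + m2 + D := by
        have := hmin _ (hg m1 m2 b1 b2)
        rw [hr2]
        exact_mod_cast (by omega : n ≤ m1 + m2 + D)
      have piece : ∀ W1 : List (A × Bool), W1.length + q ≤ W.length + D * ℓ →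
          (W1.length : ℝ) / ℓ ≤ 3 / 4 * (W.length / ℓ) + 1 + D := by
        intro W1 j
        have j' : (W1.length : ℝ) + q ≤ W.length + D * ℓ := by exact_mod_cast j
        rw [div_le_iff₀ (by linarith), add_mul, add_mul, mul_assoc, div_mul_cancel₀ _ (by linarith)]
        linarith
      refine (phi_le' c n).trans ?_
      rw [← hr, ← hr2]
      refine numeric_cut hc hc1 hcr hD2 (by positivity) (by positivity) (by positivity) e2 i1 i2
        (piece W1 j1) (piece W2 j2) ?_
      have j' : (W1.length : ℝ) + W2.length ≤ W.length + D * ℓ := by exact_mod_cast j3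
      rw [← add_div, div_le_iff₀ (by linarith), add_mul, div_mul_cancel₀ _ (by linarith)]
      exact j'
  intro W z n h
  obtain ⟨m, -, b, hm⟩ := exmin W z n h
  refine ⟨m, b, ?_⟩
  have := (phi_ge hc (by positivity)).trans (main m _ W z rfl b hm)
  rw [le_div_iff₀ (by linarith)] at this
  linarith

end Crest.Agent.GSC
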