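import Crest.Agent.GSC.Defs
import Crest.Agent.GSC.Global
import Crest.Agent.GSC.Euler

/-! Paths, faces and elementary reductions of diagrams over a labelled graph. -/

set_option autoImplicit false

namespace Crest.Agent.GSC

open FreeGroup (mk of lift invRev mul_mk inv_mk)

namespace Design

section
variable {D : Type} {β : D → D}

/-- the reverse path -/
def rev (β : D → D) (p : List D) : List D := (p.map β).reverse

@[simp] theorem rev_nil : rev β [] = [] := rfl
@[simp] theorem rev_cons (d : D) (p : List D) : rev β (d :: p) = rev β p ++ [β d] := by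
  simp [rev]
@[simp] theorem length_rev (p : List D) : (rev β p).length = p.length := by simp [rev]

end

variable {S V D C : Type} [Fintype D] [DecidableEq C] {Γ : Design S V D C} {β : D → D}

theorem path_nil {x y : V} : Γ.Path β x [] y ↔ x = y := Iff.rfl

theorem path_cons {x y : V} {d : D} {p : List D} :
    Γ.Path β x (d :: p) y ↔ Γ.src d = x ∧ Γ.Path β (Γ.src (β d)) p y := Iff.rfl

theorem path_append : ∀ {p q : List D} {x z : V},
    Γ.Path β x (p ++ q) z ↔ ∃ y, Γ.Path β x p y ∧ Γ.Path β y q z
  | [], q, x, z => by simp [path_nil]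
  | d :: p, q, x, z => by simp [path_cons, path_append (p := p), and_assoc]

theorem Path.append {p q : List D} {x y z : V} (h : Γ.Path β x p y) (h' : Γ.Path β y q z) :
    Γ.Path β x (p ++ q) z := path_append.2 ⟨y, h, h'⟩

theorem IsM.inv (h : Γ.IsM β) (d : D) : β (β d) = d := (h d).1

theorem IsM.lab_b (h : Γ.IsM β) (d : D) : Γ.lab (β d) = bar (Γ.lab d) := Γ.lab_cl _ _ (h d).2

theorem IsM.ne_self (h : Γ.IsM β) (d : D) : β d ≠ d := fun e => by
  have := h.lab_b d
  rw [e] at this
  exact bar_ne _ this.symm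

theorem Path.rev (hM : Γ.IsM β) : ∀ {p : List D} {x y : V}, Γ.Path β x p y →
    Γ.Path β y (rev β p) x
  | [], _, _, h => h.symm
  | d :: p, _, _, h => by
    rw [rev_cons]
    exact (Path.rev hM h.2).append ⟨rfl, by rw [hM.inv]; exact h.1⟩

end Design

/-- a face: a flag (open or closed), a sheet and a path -/
structure Face (H D : Type) where
  op : Bool
  h : H
  p : List D

/-- relabel the path -/
def Face.map {H D D' : Type} (dt : D → D') (f : Face H D) : Face H D' := ⟨f.op, f.h, f.p.map dt⟩

section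
variable {A H D M : Type} [AddCommGroup M]

/-- the word of a face -/
def Face.wd (ed : H → D → A × Bool) (f : Face H D) : List (A × Bool) := f.p.map (ed f.h)

/-- the class of a face -/
def Face.cs (c : H → D → M) (f : Face H D) : M := (f.p.map (c f.h)).sum

/-- total perimeter -/
def per (fs : List (Face H D)) : ℕ := (fs.map fun f => f.p.length).sum

@[simp] theorem per_nil : per ([] : List (Face H D)) = 0 := rfl
@[simp] theorem per_cons (f : Face H D) (fs : List (Face H D)) :
    per (f :: fs) = f.p.length + per fs := by simp [per]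
@[simp] theorem per_append (fs gs : List (Face H D)) : per (fs ++ gs) = per fs + per gs := by
  simp [per]
theorem per_perm {fs gs : List (Face H D)} (h : fs.Perm gs) : per fs = per gs :=
  (h.map _).sum_eq
@[simp] theorem per_map {D' : Type} (dt : D → D') (fs : List (Face H D)) :
    per (fs.map (Face.map dt)) = per fs := by
  simp [per, Face.map, Function.comp_def]

theorem mk_rev {β : D → D} {e : D → A × Bool} (he : ∀ d, e (β d) = bar (e d)) :
    ∀ p : List D, mk ((Design.rev β p).map e) = (mk (p.map e))⁻¹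
  | [] => by simp [mk_nil]
  | d :: p => by
    rw [Design.rev_cons, List.map_append, mk_append, mk_rev he p, List.map_cons, List.map_cons,
      mk_cons (e d), List.map_nil, he, mk_bar, mul_inv_rev]

theorem sum_rev {β : D → D} {c : D → M} (hc : ∀ d, c (β d) = - c d) :
    ∀ p : List D, ((Design.rev β p).map c).sum = - (p.map c).sum
  | [] => by simp
  | d :: p => by
    rw [Design.rev_cons, List.map_append, List.sum_append, sum_rev hc p]
    simp [hc]

theorem exists_map_eq {α γ : Type} [Nonempty γ] : ∀ (L : List α) (N : List γ), L.Nodup →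
    L.length = N.length → ∃ f : α → γ, L.map f = N
  | [], [], _, _ => ⟨fun _ => Classical.arbitrary γ, rfl⟩
  | a :: L, b :: N, hn, hl => by
    classical
    rw [List.nodup_cons] at hn
    obtain ⟨f, rfl⟩ := exists_map_eq L N hn.2 (by simpa using hl)
    refine ⟨Function.update f a b, ?_⟩
    simp only [List.map_cons, Function.update_self, List.cons.injEq, true_and]
    exact List.map_congr_left fun x hx => Function.update_of_ne (by rintro rfl; exact hn.1 hx) _ _

theorem exists_map_family {α γ ι : Type} [Nonempty γ] (u : ι → List α) (v : ι → List γ) :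
    ∀ l : List ι, (l.flatMap u).Nodup → (∀ i ∈ l, (u i).length = (v i).length) →
      ∃ f : α → γ, ∀ i ∈ l, (u i).map f = v i
  | [], _, _ => ⟨fun _ => Classical.arbitrary γ, by simp⟩
  | i :: l, hn, hl => by
    classical
    rw [List.flatMap_cons, List.nodup_append] at hn
    obtain ⟨f, hf⟩ := exists_map_family u v l hn.2.1 fun j hj => hl j (by simp [hj])
    obtain ⟨f', hf'⟩ := exists_map_eq (u i) (v i) hn.1 (hl i (by simp))
    refine ⟨fun x => if x ∈ u i then f' x else f x, fun j hj => ?_⟩
    rcases List.mem_cons.1 hj with rfl | hj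
    · rw [← hf']; exact List.map_congr_left fun x hx => if_pos hx
    · rw [← hf j hj]
      exact List.map_congr_left fun x hx =>
        if_neg fun h => hn.2.2 x h x (List.mem_flatMap.2 ⟨j, hj, hx⟩) rfl

/-- tagging a family of faces -/
theorem exists_tag_face [Nonempty D] (ed : H → D → A × Bool) (fs : List (Face H D))
    (W : List (A × Bool)) (h : Cj (mk W :: fs.map fun f => mk (f.wd ed))) :
    ∃ (E : Type) (_ : Finite E) (lb : E → A) (dt : E × Bool → D) (W' : List (E × Bool))
      (gs : List (Face H (E × Bool))),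
      W'.map (lm lb) = W ∧ gs.map (Face.map dt) = fs ∧
      (∀ f ∈ gs, ∀ x ∈ f.p, lm lb x = ed f.h (dt x)) ∧
      (W' ++ gs.flatMap Face.p).Nodup ∧ Cj (mk W' :: gs.map fun f => mk f.p) := by
  obtain ⟨E, hE, lb, W', gs, h1, rfl, h3, h4, h5⟩ := exists_tag (Face.wd ed) fs W h
  obtain ⟨dt, hdt⟩ := exists_map_family (γ := D) Prod.snd (fun p => p.1.p) gs
    (List.nodup_append.1 h4).2.1 fun p hp => by
      have := congrArg List.length (h3 p hp)
      simpa [Face.wd] using this
  refine ⟨E, hE, lb, dt, W', gs.map fun p => ⟨p.1.op, p.1.h, p.2⟩, h1, ?_, ?_, ?_, ?_⟩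
  · rw [List.map_map]
    exact List.map_congr_left fun p hp => by simp [Face.map, hdt p hp]
  · intro f hf
    obtain ⟨p, hp, rfl⟩ := List.mem_map.1 hf
    have := h3 p hp
    rw [Face.wd, ← hdt p hp, List.map_map] at this
    exact List.map_inj_left.1 this
  · simpa [List.flatMap_map] using h4
  · simpa [List.map_map, Function.comp_def] using h5

theorem cj_forget_face {E : Type} {ed : H → D → A × Bool} {lb : E → A} {dt : E × Bool → D}
    {W' : List (E × Bool)} {gs : List (Face H (E × Bool))}
    (hl : ∀ f ∈ gs, ∀ x ∈ f.p, lm lb x = ed f.h (dt x))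
    (h : Cj (mk W' :: gs.map fun f => mk f.p)) :
    Cj (mk (W'.map (lm lb)) :: (gs.map (Face.map dt)).map fun f => mk (f.wd ed)) := by
  have := h.map (FreeGroup.map lb)
  simp only [List.map_cons, List.map_map, map_mk] at this ⊢
  convert this using 2
  refine List.map_congr_left fun f hf => ?_
  simp only [Function.comp_apply, map_mk, Face.wd, Face.map, List.map_map]
  congr 1
  exact (List.map_inj_left.2 (hl f hf)).symm

end

section Tagged
variable {E ι : Type}

theorem split_tag {wd : ι → List (E × Bool)} {fs : List ι} {x : E × Bool}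
    {u α v : List (E × Bool)} (hn : ((u ++ x :: α ++ bar x :: v) ++ fs.flatMap wd).Nodup)
    (h : Cj (mk (u ++ x :: α ++ bar x :: v) :: fs.map fun f => mk (wd f))) :
    Cj (mk (u ++ v) :: mk α :: fs.map fun f => mk (wd f)) := by
  have h1 : Cj (mk (x :: α ++ bar x :: (v ++ u)) :: fs.map fun f => mk (wd f)) := by
    refine h.of_isConj ?_
    have := isConj_rot u (x :: α ++ bar x :: v)
    simpa using this
  simp only [List.nodup_append, List.nodup_cons, List.mem_append, List.mem_cons,
    List.mem_flatMap] at hn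
  obtain ⟨f1, f2, hp, c1, c2⟩ := split_edge (wd := wd) (fs := fs)
    (not_fst_of_nodup (by tauto) fun h => hn.1.2.2 _ (Or.inr (Or.inr h)) _ (Or.inl rfl) rfl)
    (not_fst_of_nodup (by
        simp only [List.mem_append, not_or]
        exact ⟨fun h => hn.1.2.2 _ (Or.inr (Or.inl rfl)) _ (Or.inr h) rfl,
          fun h => hn.1.1.2.2 _ h _ (Or.inl rfl) rfl⟩)
      (by
        simp only [List.mem_append, not_or]
        exact ⟨hn.1.2.1.1, fun h => hn.1.2.2 _ (Or.inl h) _ (Or.inl rfl) rfl⟩))
    (fun f hf => not_fst_of_nodup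
      (fun h => hn.2.2 _ (Or.inl (Or.inr (Or.inl rfl))) _ ⟨f, hf, h⟩ rfl)
      (fun h => hn.2.2 _ (Or.inr (Or.inl rfl)) _ ⟨f, hf, h⟩ rfl)) h1
  have h2 := (c2.of_isConj (isConj_rot v u)).append c1
  refine h2.perm ?_
  rw [List.cons_append]
  refine List.Perm.cons _ (List.perm_middle.trans (List.Perm.cons _ ?_))
  rw [← List.map_append]
  exact (List.perm_append_comm.trans hp.symm).map _

theorem merge_tag {wd : ι → List (E × Bool)} {fs : List ι} {x : E × Bool}
    {u v u' v' : List (E × Bool)}
    (hn : ((u ++ x :: v) ++ ((u' ++ bar x :: v') ++ fs.flatMap wd)).Nodup)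
    (h : Cj (mk (u ++ x :: v) :: mk (u' ++ bar x :: v') :: fs.map fun f => mk (wd f))) :
    Cj (mk (u ++ v' ++ u' ++ v) :: fs.map fun f => mk (wd f)) := by
  have h1 : Cj (mk (x :: (v ++ u)) :: mk (bar x :: (v' ++ u')) :: fs.map fun f => mk (wd f)) := by
    have h2 := (h.of_isConj (isConj_rot u (x :: v))).perm (List.Perm.swap _ _ _)
    exact (h2.of_isConj (isConj_rot u' (bar x :: v'))).perm (List.Perm.swap _ _ _)
  simp only [List.nodup_append, List.nodup_cons, List.mem_append, List.mem_cons,
    List.mem_flatMap] at hn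
  have h3 := merge_edge (wd := wd) (fs := fs)
    (not_fst_of_nodup (by
        simp only [List.mem_append, not_or]
        exact ⟨hn.1.2.1.1, fun h => hn.1.2.2 _ h _ (Or.inl rfl) rfl⟩)
      (by
        simp only [List.mem_append, not_or]
        exact ⟨fun h => hn.2.2 _ (Or.inr (Or.inr h)) _ (Or.inl (Or.inr (Or.inl rfl))) rfl,
          fun h => hn.2.2 _ (Or.inl h) _ (Or.inl (Or.inr (Or.inl rfl))) rfl⟩))
    (not_fst_of_nodup (by
        simp only [List.mem_append, not_or]
        exact ⟨fun h => hn.2.2 _ (Or.inr (Or.inl rfl)) _ (Or.inl (Or.inr (Or.inr h))) rfl,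
          fun h => hn.2.2 _ (Or.inr (Or.inl rfl)) _ (Or.inl (Or.inl h)) rfl⟩)
      (by
        simp only [List.mem_append, not_or]
        exact ⟨hn.2.1.1.2.1.1, fun h => hn.2.1.1.2.2 _ h _ (Or.inl rfl) rfl⟩))
    (fun f hf => not_fst_of_nodup
      (fun h => hn.2.2 _ (Or.inr (Or.inl rfl)) _ (Or.inr ⟨f, hf, h⟩) rfl)
      (fun h => hn.2.1.2.2 _ (Or.inr (Or.inl rfl)) _ ⟨f, hf, h⟩ rfl)) h1
  refine h3.of_isConj ?_
  have := isConj_rot v (u ++ v' ++ u')
  simpa using this

/-- deleting the bridges of the outer word -/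
theorem exists_nobridge {wd : ι → List (E × Bool)} {fs : List ι} (n : ℕ) :
    ∀ W : List (E × Bool), W.length ≤ n → (W ++ fs.flatMap wd).Nodup →
      Cj (mk W :: fs.map fun f => mk (wd f)) →
      ∃ W' : List (E × Bool), W'.length ≤ W.length ∧ (W' ++ fs.flatMap wd).Nodup ∧
        Cj (mk W' :: fs.map fun f => mk (wd f)) ∧ ∀ x ∈ W', bar x ∉ W' := by
  induction n with
  | zero =>
    intro W hW hn h
    obtain rfl : W = [] := List.length_eq_zero_iff.1 (by omega)
    exact ⟨[], le_rfl, hn, h, by simp⟩
  | succ n ih =>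
    intro W hW hn h
    by_cases hb : ∀ x ∈ W, bar x ∉ W
    · exact ⟨W, le_rfl, hn, h, hb⟩
    push Not at hb
    obtain ⟨x, hx, hx'⟩ := hb
    have hnd := List.nodup_append.1 hn
    obtain ⟨u, v, B, γ1, γ2, e1, e2, e3⟩ := exists_rot2 hx hx'
    obtain ⟨α, rfl⟩ : ∃ α, γ1 = x :: α := by
      cases γ1 with
      | nil => simp at e3; exact (bar_ne x e3.1.symm).elim
      | cons y α => simp at e3; exact ⟨α, by rw [e3.1]⟩
    have hp : W.Perm (x :: α ++ bar x :: γ2) := by
      rw [e1, ← e3, ← e2]; exact List.perm_append_comm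
    have hcj : IsConj (mk W) (mk (x :: α ++ bar x :: γ2)) := by
      rw [e1, ← e3, ← e2]; exact isConj_rot _ _
    have n1 := hp.nodup_iff.1 hnd.1
    simp only [List.cons_append, List.nodup_cons, List.mem_append, List.mem_cons, not_or,
      List.nodup_append] at n1
    have c1 := delete_edge (wd := wd) (fs := fs)
      (not_fst_of_nodup n1.1.1 fun h => n1.2.2.2 _ h _ (Or.inl rfl) rfl)
      (not_fst_of_nodup n1.1.2.2 n1.2.2.1.1)
      (fun p hp => not_fst_of_nodup
        (fun h => hnd.2.2 x hx x (List.mem_flatMap.2 ⟨p, hp, h⟩) rfl)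
        (fun h => hnd.2.2 _ hx' _ (List.mem_flatMap.2 ⟨p, hp, h⟩) rfl))
      (h.of_isConj hcj)
    have hl : W.length = (α ++ γ2).length + 2 := by rw [hp.length_eq]; simp; omega
    have hs : (α ++ γ2).Sublist (x :: α ++ bar x :: γ2) :=
      ((List.sublist_cons_self _ _).append_left α).cons x
    obtain ⟨W', h1, h2⟩ := ih (α ++ γ2) (by omega)
      (((hp.append_right _).nodup_iff.1 hn).sublist (hs.append_right _)) c1
    exact ⟨W', by omega, h2⟩

end Tagged

end Crest.Agent.GSC
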