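import Crest.Agent.GSC.Reduce

/-! The global isoperimetric inequality, asphericity and the embedding of the base component. -/

set_option autoImplicit false

namespace Crest.Agent.GSC

open Design

variable {S V D C : Type} [Fintype D] [DecidableEq C] {A H M : Type} [AddCommGroup M]

/-- closed faces -/
def Design.Cl (Γ : Design S V D C) (β : D → D) (f : Face H D) : Prop :=
  f.op = false ∧ ∃ v, Γ.Path β v f.p v

/-- short closed faces -/
structure Design.SF (Γ : Design S V D C) (β : D → D) (H : Type) (ℓ : ℕ) : Type where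
  f : Face H D
  cl : Γ.Cl β f
  len : f.p.length ≤ ℓ

/-- the isoperimetric constant -/
noncomputable def cc (c0 : ℝ) (R0 : ℕ) : ℝ := min 1 (c0 / (12 * R0))

/-- the local scale -/
noncomputable def KK (c0 : ℝ) (R0 : ℕ) : ℕ := ⌈(600 / cc c0 R0) ^ 2⌉₊

/-- the geometric properties of the random graph -/
structure Geo (Γ : Design S V D C) (β : D → D) (x : V) (c0 : ℝ) (R0 g : ℕ) : Prop where
  c0_pos : 0 < c0
  R0_pos : 1 ≤ R0
  g_pos : 1 ≤ g
  girth : Γ.Girth β g
  diam : Γ.Diam β (R0 * g)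
  loc : Γ.LocIneq β x g ((3 * KK c0 R0 + 1) * R0) c0

variable {Γ : Design S V D C} {β : D → D} {ed : H → D → A × Bool} {c : H → D → M}
  {x y : V} {fA : A → S} {c0 : ℝ} {R0 g : ℕ}

theorem Design.Cl.ok {f : Face H D} (h : Γ.Cl β f) : Γ.Ok β x y f := by
  obtain ⟨h1, v, h2⟩ := h
  exact ⟨v, v, h2, by simp [h1], fun _ => rfl⟩

theorem subdiv1 (hS : Sheets Γ β ed c fA) {Δ : ℕ} (hΔ : 1 ≤ Δ) (hD : Γ.Diam β Δ) (h : H) (n : ℕ) :
    ∀ (p : List D) (v : V), p.length ≤ n → Γ.Path β v p v →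
      ∃ l : List (Γ.SF β H (3 * Δ)), l.length * Δ ≤ p.length + Δ ∧
        (l.map fun f => f.1.cs c).sum = (p.map (c h)).sum ∧
        CjP (l.map fun f => FreeGroup.mk (f.1.wd ed)) (FreeGroup.mk (p.map (ed h))) := by
  induction n with
  | zero =>
    intro p v hp h1
    obtain rfl : p = [] := List.length_eq_zero_iff.1 (by omega)
    exact ⟨[], by simp, rfl, CjP.nil⟩
  | succ n ih =>
    intro p v hp h1
    by_cases hl : p.length ≤ 3 * Δ
    · exact ⟨[⟨⟨false, h, p⟩, ⟨rfl, v, h1⟩, hl⟩], by simp, by simp [Face.cs],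
        CjP.cons_iff.2 ⟨1, 1, CjP.nil, by simp [Face.wd]⟩⟩
    obtain ⟨p1, p2, rfl, e⟩ : ∃ p1 p2, p = p1 ++ p2 ∧ p1.length = 2 * Δ :=
      ⟨p.take (2 * Δ), p.drop (2 * Δ), by simp, by simp; omega⟩
    obtain ⟨u, h2, h3⟩ := path_append.1 h1
    obtain ⟨q, h4, h5⟩ := hD _ _ _ h2
    simp only [List.length_append] at hp hl
    obtain ⟨l, k1, k2, k3⟩ := ih (q ++ p2) v (by simp; omega) (h4.append h3)
    refine ⟨⟨⟨false, h, p1 ++ rev β q⟩, ⟨rfl, v, h2.append (h4.rev hS.isM)⟩, by simp; omega⟩ :: l,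
      ?_, ?_, CjP.cons_iff.2 ⟨1, _, k3, ?_⟩⟩
    · simp only [List.length_append, List.length_cons, add_mul] at k1 ⊢; omega
    · rw [List.map_cons, List.sum_cons, k2]
      simp only [Face.cs, List.map_append, List.sum_append, sum_rev (hS.c_neg h)]
      abel
    · simp only [Face.wd, List.map_append, mk_append, mk_rev (hS.ed_bar h)]
      group

theorem subdiv (hS : Sheets Γ β ed c fA) {Δ : ℕ} (hΔ : 1 ≤ Δ) (hD : Γ.Diam β Δ) :
    ∀ fs : List (Face H D), (∀ f ∈ fs, Γ.Cl β f) →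
      ∃ l : List (Γ.SF β H (3 * Δ)), l.length * Δ ≤ per fs + fs.length * Δ ∧
        (l.map fun f => f.1.cs c).sum = (fs.map (Face.cs c)).sum ∧
        ∀ w, CjP (fs.map fun f => FreeGroup.mk (f.wd ed)) w → CjP (l.map fun f => FreeGroup.mk (f.1.wd ed)) w
  | [], _ => ⟨[], by simp, rfl, fun _ h => h⟩
  | f :: fs, h => by
    obtain ⟨l, k1, k2, k3⟩ := subdiv hS hΔ hD fs fun f' hf => h f' (by simp [hf])
    obtain ⟨-, v, hv⟩ := h f (by simp)
    obtain ⟨l', k4, k5, k6⟩ := subdiv1 hS hΔ hD f.h _ f.p v le_rfl hv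
    refine ⟨l' ++ l, ?_, ?_, fun w hw => ?_⟩
    · simp only [List.length_append, List.length_cons, add_mul, per_cons]; omega
    · rw [List.map_append, List.sum_append, k2, k5]; rfl
    · obtain ⟨u, w', h1, rfl⟩ := CjP.cons_iff.1 hw
      rw [List.map_append]
      exact (k6.conj u).append (k3 _ h1)

theorem ar_of_closed (hS : Sheets Γ β ed c fA) {Δ : ℕ} (hΔ : 1 ≤ Δ) (hD : Γ.Diam β Δ)
    {W : List (A × Bool)} {fs : List (Face H D)} (hf : ∀ f ∈ fs, Γ.Cl β f)
    (h : Cj (FreeGroup.mk W :: fs.map fun f => FreeGroup.mk (f.wd ed))) :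
    ∃ m, m * Δ ≤ per fs + fs.length * Δ ∧
      Ar (fun f : Γ.SF β H (3 * Δ) => f.1.wd ed) (fun f => f.1.cs c) W
        (fs.map (Face.cs c)).sum m := by
  obtain ⟨l, k1, k2, k3⟩ := subdiv hS hΔ hD fs hf
  exact ⟨l.length, k1, l, Cj.cons_iff.2 (k3 _ (Cj.cons_iff.1 h)), k2, rfl⟩

theorem per_le {ℓ : ℕ} : ∀ l : List (Γ.SF β H ℓ), per (l.map SF.f) ≤ l.length * ℓ
  | [] => by simp
  | f :: l => by
    have := per_le l
    have := f.len
    simp only [List.map_cons, per_cons, List.length_cons, add_mul]; omega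

theorem Geo.cc_pos (hG : Geo Γ β x c0 R0 g) : 0 < cc c0 R0 := by
  have : (0 : ℝ) < R0 := by exact_mod_cast hG.R0_pos
  exact lt_min one_pos (by have := hG.c0_pos; positivity)

theorem Geo.iso [Nonempty D] (hG : Geo Γ β x c0 R0 g) (hS : Sheets Γ β ed c fA) :
    ∀ W z n, Ar (fun f : Γ.SF β H (3 * (R0 * g)) => f.1.wd ed) (fun f => f.1.cs c) W z n →
      ∃ m, Ar (fun f : Γ.SF β H (3 * (R0 * g)) => f.1.wd ed) (fun f => f.1.cs c) W z m ∧
        cc c0 R0 * (3 * (R0 * g) : ℕ) * m ≤ W.length := by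
  have hΔ : 1 ≤ R0 * g := Nat.mul_pos hG.R0_pos hG.g_pos
  refine local_to_global hG.cc_pos (min_le_left _ _) (Nat.le_ceil _) (by omega)
    (fun f => by simpa [Face.wd] using f.len) ?_
  rintro W z n hn ⟨l, h1, h2, rfl⟩
  have h3 : Cfg Γ β ed c x x W 0 z (l.map SF.f) :=
    ⟨fun f hf => by obtain ⟨f, -, rfl⟩ := List.mem_map.1 hf; exact f.cl.ok,
      List.countP_eq_zero.2 fun f hf => by
        obtain ⟨f, -, rfl⟩ := List.mem_map.1 hf; simp [f.cl.1],
      by simpa [List.map_map, Function.comp_def] using h1,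
      by simpa [List.map_map, Function.comp_def] using h2⟩
  obtain ⟨gs, h4, h5⟩ := h3.exists_min
  have ho : ∀ f ∈ gs, f.op = false := fun f hf => by
    simpa using List.countP_eq_zero.1 h4.1.cnt f hf
  have hc : ∀ f ∈ gs, Γ.Cl β f := fun f hf => by
    obtain ⟨a, b, k1, -, k2⟩ := h4.1.ok f hf
    obtain rfl := k2 (ho f hf)
    exact ⟨ho f hf, a, k1⟩
  obtain ⟨m, k1, k2⟩ := ar_of_closed hS hΔ hG.diam hc h4.1.cj
  rw [h4.1.cl] at k2
  refine ⟨m, k2, ?_⟩
  have k3 := length_le_per (g := g) gs fun f hf ho => h4.girth hS hG.girth hf ho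
  rw [h4.1.cnt, zero_mul, add_zero] at k3
  have k4 : m * g ≤ 2 * per gs := by
    refine Nat.le_of_mul_le_mul_left (c := R0) ?_ hG.R0_pos
    have := Nat.mul_le_mul_left R0 k3
    have := Nat.mul_le_mul_right (per gs) hG.R0_pos
    nlinarith
  have k5 : c0 * per gs ≤ W.length := by
    by_cases hlo : g ≤ per gs
    · refine h4.ineq hS zero_le_one hG.g_pos hG.girth hG.loc hlo (h5.trans ((per_le l).trans ?_))
      have := Nat.mul_le_mul_right (3 * (R0 * g)) hn
      change _ ≤ KK c0 R0 * _ at this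
      nlinarith
    · cases gs with
      | nil => simp
      | cons f gs => simp only [List.length_cons, add_mul] at k3; omega
  have r0 : (0 : ℝ) < R0 := by exact_mod_cast hG.R0_pos
  have k6 : cc c0 R0 * (12 * R0) ≤ c0 := (le_div_iff₀ (by positivity)).1 (min_le_right _ _)
  have k7 : (m : ℝ) * g ≤ 2 * per gs := by exact_mod_cast k4
  have := hG.cc_pos
  calc _ = 6 * (cc c0 R0 * R0) * (m * g) := by push_cast; ring
    _ ≤ 6 * (cc c0 R0 * R0) * (2 * per gs) := by gcongr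
    _ = cc c0 R0 * (12 * R0) * per gs := by ring
    _ ≤ c0 * per gs := by gcongr
    _ ≤ _ := k5

/-- linear isoperimetric inequality -/
theorem Geo.fill [Nonempty D] (hG : Geo Γ β x c0 R0 g) (hS : Sheets Γ β ed c fA)
    {W : List (A × Bool)} {fs : List (Face H D)} (hf : ∀ f ∈ fs, Γ.Cl β f)
    (h : Cj (FreeGroup.mk W :: fs.map fun f => FreeGroup.mk (f.wd ed))) :
    ∃ l : List (Γ.SF β H (3 * (R0 * g))), Cj (FreeGroup.mk W :: l.map fun f => FreeGroup.mk (f.1.wd ed)) ∧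
      (l.map fun f => f.1.cs c).sum = (fs.map (Face.cs c)).sum ∧
      cc c0 R0 * (3 * (R0 * g) : ℕ) * l.length ≤ W.length := by
  obtain ⟨m, -, k⟩ := ar_of_closed hS (Nat.mul_pos hG.R0_pos hG.g_pos) hG.diam hf h
  obtain ⟨_, ⟨l, h1, h2, rfl⟩, h3⟩ := hG.iso hS _ _ _ k
  exact ⟨l, h1, h2, h3⟩

/-- asphericity -/
theorem Geo.asph [Nonempty D] (hG : Geo Γ β x c0 R0 g) (hS : Sheets Γ β ed c fA)
    {fs : List (Face H D)} (hf : ∀ f ∈ fs, Γ.Cl β f)
    (h : Cj (fs.map fun f => FreeGroup.mk (f.wd ed))) : (fs.map (Face.cs c)).sum = 0 := by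
  obtain ⟨l, -, h1, h2⟩ := hG.fill hS (W := []) hf (Cj.one_cons.2 h)
  have h3 : (0 : ℝ) < cc c0 R0 * (3 * (R0 * g) : ℕ) :=
    mul_pos hG.cc_pos (by exact_mod_cast Nat.mul_pos three_pos (Nat.mul_pos hG.R0_pos hG.g_pos))
  obtain rfl : l = [] := by
    rw [← List.length_eq_zero_iff]
    have : (l.length : ℝ) ≤ 0 := by
      simp only [List.length_nil, Nat.cast_zero] at h2
      by_contra h4
      have := mul_pos h3 (not_le.1 h4)
      linarith
    exact Nat.le_zero.1 (by exact_mod_cast this)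
  exact h1.symm

theorem Design.Path.reduced (hM : Γ.IsM β) : ∀ {p : List D} {a b : V}, Γ.Path β a p b → Rd β p →
    FreeGroup.IsReduced (p.map Γ.lab)
  | [], _, _, _, _ => FreeGroup.IsReduced.nil
  | [_], _, _, _, _ => FreeGroup.IsReduced.singleton
  | d :: e :: p, _, _, h, hr => by
    rw [Rd, List.isChain_cons_cons] at hr
    refine FreeGroup.isReduced_cons_cons.2 ⟨fun h1 => ?_, Path.reduced hM h.2 hr.2⟩
    rcases eq_or_bar h1.symm with h2 | h2
    · rw [h2]
    · exact (hr.1 (Γ.inj _ _ h.2.1 (by rw [h2, hM.lab_b]))).elim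

/-- the base component embeds -/
theorem Geo.emb [Nonempty D] (hG : Geo Γ β x c0 R0 g) (hS : Sheets Γ β ed c fA) {h0 : H}
    {γ : List D} (hγ : Γ.Path β x γ y) (hl : γ.length ≤ R0 * g)
    {fs : List (Face H D)} (hf : ∀ f ∈ fs, Γ.Cl β f)
    (h : Cj (FreeGroup.mk (γ.map (ed h0)) :: fs.map fun f => FreeGroup.mk (f.wd ed))) : y = x := by
  classical
  obtain ⟨l, h1, -, h2⟩ := hG.fill hS hf h
  have hΔ : 1 ≤ R0 * g := Nat.mul_pos hG.R0_pos hG.g_pos
  have hlen : l.length ≤ KK c0 R0 := by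
    have k1 : (γ.map (ed h0)).length ≤ ((R0 * g : ℕ) : ℝ) := by
      rw [List.length_map]; exact_mod_cast hl
    have k2 : (1 : ℝ) ≤ (R0 * g : ℕ) := by exact_mod_cast hΔ
    have k3 := hG.cc_pos
    have k4 : cc c0 R0 ≤ 1 := min_le_left _ _
    have k5 : cc c0 R0 * l.length ≤ 1 := by
      rw [Nat.cast_mul 3] at h2
      have : (0 : ℝ) ≤ cc c0 R0 * l.length := by positivity
      push_cast at h2 k1 k2
      nlinarith
    have k6 : (l.length : ℝ) ≤ (600 / cc c0 R0) ^ 2 := by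
      rw [div_pow, le_div_iff₀ (by positivity)]
      nlinarith
    exact_mod_cast k6.trans (Nat.le_ceil _)
  have h3 : Cfg Γ β ed c x y [] 1 _ (⟨true, h0, γ⟩ :: l.map SF.f) :=
    ⟨fun f hf => by
        rcases List.mem_cons.1 hf with rfl | hf
        · exact ⟨x, y, hγ, by simp, by simp⟩
        · obtain ⟨f, -, rfl⟩ := List.mem_map.1 hf; exact f.cl.ok,
      by
        rw [List.countP_cons, List.countP_eq_zero.2 fun f hf => by
          obtain ⟨f, -, rfl⟩ := List.mem_map.1 hf; simp [f.cl.1]]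
        rfl,
      Cj.one_cons.2 (by simpa [List.map_map, Function.comp_def, Face.wd] using h1), rfl⟩
  obtain ⟨gs, h4, h5⟩ := h3.exists_min
  by_cases hlo : g ≤ per gs
  · have k1 := h4.ineq hS le_rfl hG.g_pos hG.girth hG.loc hlo (h5.trans (by
      have := per_le l
      have := Nat.mul_le_mul_right (3 * (R0 * g)) hlen
      simp only [per_cons]
      nlinarith))
    have k2 : (0 : ℝ) < per gs := by exact_mod_cast hG.g_pos.trans hlo
    have := mul_pos hG.c0_pos k2
    simp at k1; linarith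
  · have ho : ∀ f ∈ gs, f.op = true := fun f hf => by
      cases ho : f.op
      · obtain ⟨gs', hp⟩ := exists_perm_cons hf
        have := h4.girth hS hG.girth hf ho
        rw [per_perm hp, per_cons] at hlo
        omega
      · rfl
    have k1 := h4.1.cnt
    rw [List.countP_eq_length.2 ho] at k1
    obtain ⟨f, rfl⟩ := List.length_eq_one_iff.1 k1
    obtain ⟨a, b, k2, k3, -⟩ := h4.1.ok f (by simp)
    obtain ⟨rfl, rfl⟩ := k3 (ho f (by simp))
    have k4 := (Cj.one_cons.1 h4.1.cj).map (FreeGroup.map fA)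
    simp only [List.map_cons, List.map_nil, map_mk, Cj.cons_iff, CjP.nil_iff, inv_eq_one, Face.wd,
      List.map_map, Function.comp_def, hS.ed_lab] at k4
    have k5 := (k2.reduced hS.isM (h4.rd hS (by simp))).reduce_eq
    have k6 := congrArg FreeGroup.toWord k4
    rw [FreeGroup.toWord_mk, FreeGroup.toWord_one] at k6
    have k7 : f.p = [] := by simpa using k5.symm.trans k6
    rw [k7] at k2
    exact k2.symm

end Crest.Agent.GSC
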