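import Crest.Agent.GSC.Kernel1

/-! The sequential first moment bound. -/

set_option autoImplicit false
set_option linter.unusedSectionVars false

namespace Crest.Agent.GSC

open Finset Classical

/-- edges prescribed by a list of steps -/
def edg {D X : Type} : List (D × D × X) → List (D × D)
  | t :: t' :: h => (t'.2.1, t.1) :: edg (t' :: h)
  | _ => []

lemma edg_length {D X : Type} : ∀ l : List (D × D × X), (edg l).length = l.length - 1
  | [] => rfl
  | [_] => rfl
  | t :: t' :: h => by simp [edg, edg_length (t' :: h)]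

def Valid {D X : Type} (β : D → D) (l : List (D × D × X)) : Prop :=
  ((edg l).flatMap fun p => [p.1, p.2]).Nodup ∧ ∀ p ∈ edg l, β p.1 = p.2

lemma markov {D X : Type} [Fintype D] [Fintype X] {Ω : Finset (D → D)} {M : ℕ} {L : ℝ}
    (hE : Design.EdgeBound Ω M L) (L0 : 0 ≤ L) (q : List (D × D × X) → ℝ) (q0 : ∀ l, 0 ≤ q l)
    (q1 : ∀ n, ∑ l ∈ LL _ n, q l ≤ 1) :
    4 * #{β ∈ Ω | ∃ n ≤ M, ∃ l, l.length = n + 1 ∧ Valid β l ∧ 4 * (M + 1) ≤ q l * L ^ n} ≤ #Ω := by
  let A : (D → D) → ℝ := fun β => ∑ n ∈ range (M + 1), ∑ l ∈ LL _ (n + 1),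
    if Valid β l then q l * L ^ n else 0
  have nn : ∀ β n l, 0 ≤ if Valid β l then q l * L ^ n else 0 := by
    intro β n l
    have := q0 l
    split_ifs <;> positivity
  have h1 : ∑ β ∈ Ω, A β ≤ (M + 1) * #Ω := by
    simp only [A]
    rw [sum_comm]
    refine (sum_le_card_nsmul _ _ (#Ω : ℝ) ?_).trans (by simp)
    intro n hn
    rw [sum_comm]
    refine le_trans (sum_le_sum (g := fun l => q l * #Ω) fun l hl => ?_) ?_
    · rw [← sum_filter, sum_const, nsmul_eq_mul]
      by_cases h : ((edg l).flatMap fun p => [p.1, p.2]).Nodup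
      · have e : (edg l).length = n := by rw [edg_length, LL_length hl]; rfl
        have := hE (edg l) (by rw [e]; exact Nat.lt_succ_iff.1 (mem_range.1 hn)) h
        rw [e] at this
        have := mul_le_mul_of_nonneg_left this (q0 l)
        refine le_trans (le_of_eq ?_) this
        simp only [Valid, h, true_and]
        ring
      · have := q0 l
        simp only [Valid, h, false_and, filter_false, card_empty, Nat.cast_zero, zero_mul]
        positivity
    · rw [← sum_mul]
      exact mul_le_of_le_one_left (by positivity) (q1 _)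
  set B := {β ∈ Ω | ∃ n ≤ M, ∃ l, l.length = n + 1 ∧ Valid β l ∧ 4 * (M + 1) ≤ q l * L ^ n}
  have h2 : #B • (4 * (M + 1) : ℝ) ≤ ∑ β ∈ B, A β := by
    apply card_nsmul_le_sum
    intro β hβ
    obtain ⟨n, hn, l, l1, l2, l3⟩ := (mem_filter.1 hβ).2
    refine le_trans ?_ (single_le_sum (fun n _ => sum_nonneg fun l _ => nn β n l)
      (mem_range.2 (Nat.lt_succ_of_le hn)))
    refine le_trans ?_ (single_le_sum (fun l _ => nn β n l) (l1 ▸ mem_LL l))
    rwa [if_pos l2]
  have h3 : ∑ β ∈ B, A β ≤ ∑ β ∈ Ω, A β := sum_le_sum_of_subset_of_nonneg (filter_subset _ _)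
    (fun β _ _ => sum_nonneg fun n _ => sum_nonneg fun l _ => nn β n l)
  rw [nsmul_eq_mul] at h2
  have h4 : (M + 1 : ℝ) * (4 * #B) ≤ (M + 1) * #Ω := by linarith
  exact_mod_cast le_of_mul_le_mul_left h4 (by positivity)

def hist {α : Type} (st : ℕ → α) : ℕ → List α
  | 0 => []
  | n + 1 => st n :: hist st n

lemma hist_rev {α : Type} (st : ℕ → α) (n : ℕ) : (hist st n).reverse = (List.range n).map st := by
  induction n with
  | zero => rfl
  | succ n ih => simp [hist, ih, List.range_succ]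

lemma hist_length {α : Type} (st : ℕ → α) (n : ℕ) : (hist st n).length = n := by
  induction n with
  | zero => rfl
  | succ n ih => simp [hist, ih]

lemma log_qq {α : Type} (k : List α → α → ℝ) (st : ℕ → α) (hk : ∀ l a, 0 < k l a) (n : ℕ) :
    0 < qq k (hist st n) ∧
      Real.log (qq k (hist st n)) = ∑ j ∈ range n, Real.log (k (hist st j) (st j)) := by
  induction n with
  | zero => simp [hist, qq]
  | succ n ih =>
    simp only [hist, qq]
    refine ⟨mul_pos (hk _ _) ih.1, ?_⟩
    rw [Real.log_mul (hk _ _).ne' ih.1.ne', sum_range_succ, ih.2, add_comm]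

lemma valid_hist {D X : Type} {β : D → D} {o : ℕ → D} {R : ℕ} (st : ℕ → D × D × X)
    (hb : ∀ d, β (β d) = d)
    (h1 : ∀ i < R, ∀ j < R, o i = o j → i = j) (h2 : ∀ i < R, ∀ j < R, o i ≠ β (o j))
    (h3 : ∀ j < R, (st j).2.1 = o j) (h4 : ∀ j < R, (st (j + 1)).1 = β (o j)) :
    ∀ n ≤ R, Valid β (hist st (n + 1)) ∧
      ∀ x ∈ (edg (hist st (n + 1))).flatMap fun p => [p.1, p.2], ∃ j < n, x = o j ∨ x = β (o j) := by
  intro n
  induction n with
  | zero => intro _; simp [hist, edg, Valid]
  | succ n ih =>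
    intro hn
    obtain ⟨⟨a1, a2⟩, a3⟩ := ih (by omega)
    have e : edg (hist st (n + 1 + 1)) = (o n, β (o n)) :: edg (hist st (n + 1)) := by
      rw [← h4 n (by omega), ← h3 n (by omega)]; rfl
    unfold Valid
    rw [e, List.flatMap_cons]
    refine ⟨⟨?_, ?_⟩, ?_⟩
    · simp only [List.cons_append, List.nil_append, List.nodup_cons, List.mem_cons, not_or]
      refine ⟨⟨h2 _ (by omega) _ (by omega), fun h => ?_⟩, fun h => ?_, a1⟩
      · obtain ⟨j, hj, h | h⟩ := a3 _ h
        · have := h1 _ (by omega) _ (by omega) h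
          omega
        · exact h2 _ (by omega) _ (by omega) h
      · obtain ⟨j, hj, h | h⟩ := a3 _ h
        · exact h2 _ (by omega) _ (by omega) h.symm
        · have := h1 n (by omega) j (by omega) (by rw [← hb (o n), h, hb])
          omega
    · intro p hp
      rcases List.mem_cons.1 hp with rfl | hp
      · rfl
      · exact a2 p hp
    · intro x hx
      simp only [List.cons_append, List.nil_append, List.mem_cons] at hx
      rcases hx with rfl | rfl | hx
      · exact ⟨n, by omega, Or.inl rfl⟩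
      · exact ⟨n, by omega, Or.inr rfl⟩
      · obtain ⟨j, hj, h⟩ := a3 _ hx
        exact ⟨j, by omega, h⟩

variable {S V D C : Type} [Fintype S] [Fintype V] [Fintype D] [DecidableEq C]
  (Γ : Design S V D C)

namespace Design

variable (w : Weights S) (xs : V) (M : ℕ) {L Fm γ : ℝ}

lemma mem_old (st : ℕ → St D M) (n : ℕ) (v : V) : v ∈ Γ.old xs M (hist st n) ↔
    v = xs ∨ ∃ j < n, v = Γ.src (st j).1 ∨ v = Γ.src (st j).2.1 := by
  induction n with
  | zero => simp [hist, old]
  | succ n ih =>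
    simp only [hist, old, mem_insert, ih, Nat.lt_succ_iff_lt_or_eq]
    grind

lemma old_card (h : List (St D M)) : #(Γ.old xs M h) ≤ 2 * h.length + 1 := by
  induction h with
  | nil => simp [old]
  | cons t h ih =>
    have h1 := card_insert_le (Γ.src t.2.1) (insert (Γ.src t.1) (Γ.old xs M h))
    have h2 := card_insert_le (Γ.src t.1) (Γ.old xs M h)
    simp only [old, List.length_cons]
    omega

lemma old_ne (h : List (St D M)) : (Γ.old xs M h).Nonempty := by
  cases h <;> simp [old]

lemma irr_pos (hF : 0 < Fm) (h : List (St D M)) (t : St D M) : 0 < Γ.irr xs M Fm h t := by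
  have : (0 : ℝ) < Fintype.card (Option (Bool × Fin (2 * M + 1))) := by
    exact_mod_cast Fintype.card_pos
  exact mul_pos (mul_pos (Γ.log_wt _ (Γ.old_ne xs M h) le_rfl).1
    (Γ.log_wt _ (insert_nonempty _ _) le_rfl).1) (by positivity)

lemma ker_pos (hL : 0 < L) (hF : 0 < Fm) (hγ : 0 < γ) (h : List (St D M)) (t : St D M) :
    0 < Γ.ker w xs M L Fm γ h t :=
  add_pos_of_pos_of_nonneg (mul_pos (sub_pos.2 (Real.exp_lt_one_iff.2 (by linarith)))
    (Γ.irr_pos xs M hF h t)) (mul_nonneg (Real.exp_pos _).le (Γ.reg_nonneg w M hL h t))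

lemma log_ker_irr (hL : 0 < L) (hF : 0 < Fm) (hγ : 0 < γ) (h : List (St D M)) (t : St D M)
    (hh : h.length ≤ M) :
    Real.log (1 - Real.exp (-γ)) - 2 * Real.log (2 * Fintype.card (S × Bool)) - Real.log Fm -
      3 * Real.log (4 * (M + 2)) - Real.log (Fintype.card V) *
        ((#(Γ.old xs M (t :: h)) : ℝ) - #(Γ.old xs M h)) ≤ Real.log (Γ.ker w xs M L Fm γ h t) := by
  have g0 : 0 < 1 - Real.exp (-γ) := sub_pos.2 (Real.exp_lt_one_iff.2 (by linarith))
  have h1 : Real.log ((1 - Real.exp (-γ)) * Γ.irr xs M Fm h t) ≤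
      Real.log (Γ.ker w xs M L Fm γ h t) :=
    Real.log_le_log (mul_pos g0 (Γ.irr_pos xs M hF h t))
      (le_add_of_nonneg_right (mul_nonneg (Real.exp_pos _).le (Γ.reg_nonneg w M hL h t)))
  have c1 := Γ.old_card xs M h
  have c2 := card_insert_le (Γ.src t.1) (Γ.old xs M h)
  have a1 := Γ.log_wt (O := Γ.old xs M h) t.1 (B := 4 * (M + 2)) (Γ.old_ne xs M h)
    (by exact_mod_cast (by omega))
  have a2 := Γ.log_wt (O := insert (Γ.src t.1) (Γ.old xs M h)) t.2.1 (B := 4 * (M + 2))
    (insert_nonempty _ _) (by exact_mod_cast (by omega))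
  have a3 : (0 : ℝ) < Fintype.card (Option (Bool × Fin (2 * M + 1))) := by
    exact_mod_cast Fintype.card_pos
  have a4 : Real.log (Fintype.card (Option (Bool × Fin (2 * M + 1)))) ≤ Real.log (4 * (M + 2)) := by
    apply Real.log_le_log a3
    simp only [Fintype.card_option, Fintype.card_prod, Fintype.card_bool, Fintype.card_fin]
    push_cast
    linarith
  rw [Real.log_mul g0.ne' (Γ.irr_pos xs M hF h t).ne', irr,
    Real.log_mul (mul_pos a1.1 a2.1).ne' (by positivity), Real.log_mul a1.1.ne' a2.1.ne',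
    Real.log_inv, Real.log_mul a3.ne' hF.ne'] at h1
  simp only [old]
  linarith [a1.2, a2.2]

lemma log_ker_reg (hF : 0 < Fm) (hγ : 0 < γ) (h : List (St D M)) (t : St D M)
    (hr : 0 < Γ.reg w M L h t) :
    - γ + Real.log (Γ.reg w M L h t) ≤ Real.log (Γ.ker w xs M L Fm γ h t) := by
  have g0 : 0 < 1 - Real.exp (-γ) := sub_pos.2 (Real.exp_lt_one_iff.2 (by linarith))
  have h1 : Real.log (Real.exp (-γ) * Γ.reg w M L h t) ≤
      Real.log (Γ.ker w xs M L Fm γ h t) :=
    Real.log_le_log (mul_pos (Real.exp_pos _) hr)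
      (le_add_of_nonneg_left (mul_pos g0 (Γ.irr_pos xs M hF h t)).le)
  rwa [Real.log_mul (Real.exp_pos _).ne' hr.ne', Real.log_exp] at h1

end Design

set_option maxHeartbeats 1600000 in
theorem kernelStmt : KernelStmt := by
  intro S _ w γ hγ
  obtain ⟨Fm, F0, hf, hd⟩ : ∃ Fm : ℝ, 0 < Fm ∧ (∀ a, w.Ff a ≤ Fm) ∧ ∀ a, w.Fd a ≤ Fm := by
    have h1 : ∀ a, 0 ≤ w.Ff a + w.Fd a := fun a => by linarith [w.one_le_Ff a, w.one_le_Fd a]
    have h2 := fun a => single_le_sum (fun a _ => h1 a) (mem_univ a)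
    refine ⟨∑ a, (w.Ff a + w.Fd a) + 1, ?_, fun a => ?_, fun a => ?_⟩
    · linarith [sum_nonneg (s := univ) fun a _ => h1 a]
    · linarith [h2 a, w.one_le_Fd a]
    · linarith [h2 a, w.one_le_Ff a]
  obtain ⟨E3, E30, hE3⟩ : ∃ E3 : ℝ, 0 ≤ E3 ∧ ∀ a, Real.log (w.Om a) ≤ E3 ∧
      - Real.log (w.Om a) - Real.log w.rho ≤ E3 := by
    have h1 : ∀ a, 0 ≤ Real.log (w.Om a) := fun a => Real.log_nonneg (w.one_lt_Om a).le
    have h2 := fun a => single_le_sum (fun a _ => h1 a) (mem_univ a)
    have h3 := Real.log_neg w.rho_pos w.rho_lt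
    have h4 := sum_nonneg (s := univ) fun a _ => h1 a
    exact ⟨∑ a, Real.log (w.Om a) - Real.log w.rho, by linarith, fun a =>
      ⟨by linarith [h2 a], by linarith [h1 a]⟩⟩
  set c0 : ℝ := |Real.log (1 - Real.exp (-γ))| + 2 * |Real.log (2 * Fintype.card (S × Bool))| +
    |Real.log Fm| + |Real.log w.C0| + |Real.log (1 - w.eta)| + E3 with hc0
  have c00 : 0 ≤ c0 := by positivity
  refine ⟨c0 + 8, by positivity, ?_⟩
  intro V D C _ _ _ Γ N M xs Ω N1 hN hΩ hE
  set L : ℝ := (1 - w.eta) * N with hL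
  have eta1 : 0 < 1 - w.eta := sub_pos.2 w.eta_lt
  have N0 : (0 : ℝ) < N := by exact_mod_cast N1
  have L0 : 0 < L := by positivity
  refine le_trans (Nat.mul_le_mul_left _ (card_le_card ?_))
    (markov hE L0.le (qq (Γ.ker w xs M L Fm γ)) (qq_nonneg (Γ.ker_nonneg w xs M L0 F0.le hγ.le))
      (Γ.sum_ker w xs M hN hL L0 F0 hf hd hγ.le))
  intro β hβ
  simp only [mem_filter] at hβ ⊢
  refine ⟨hβ.1, ?_⟩
  by_contra hcon
  apply hβ.2
  have hM := hΩ β hβ.1
  intro R o mode Irr hR inj inj' hmd hreg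
  set W := Real.log (Fintype.card V) with hW
  have V1 : (1 : ℝ) ≤ Fintype.card V := by
    have : Nonempty V := ⟨xs⟩
    exact_mod_cast Fintype.card_pos
  have W0 : 0 ≤ W := Real.log_nonneg V1
  set Lg := 1 + Real.log (M + 2) with hLg
  have Lg1 : 1 ≤ Lg := by
    have := Real.log_nonneg (show (1 : ℝ) ≤ M + 2 by linarith [Nat.cast_nonneg (α := ℝ) M])
    linarith
  rcases Nat.eq_zero_or_pos R with rfl | R0
  · simp only [range_zero, sum_empty, image_empty, union_empty, erase_empty, card_empty,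
      Nat.cast_zero, sub_self, mul_zero, zero_mul, zero_add]
    positivity
  obtain ⟨d0, hd0⟩ : ∃ d, Γ.src d = xs := by
    obtain ⟨d, hd⟩ := card_pos.1 (lt_of_lt_of_le (by norm_num) (hN.deg xs))
    exact ⟨d, (mem_filter.1 hd).2⟩
  let cv : Option (Bool × ℕ) → Option (Bool × Fin (2 * M + 1)) :=
    fun x => x.map fun y => (y.1, Fin.ofNat _ y.2)
  let st : ℕ → St D M := fun j =>
    (if j = 0 then d0 else β (o (j - 1)), if j < R then o j else β (o (j - 1)), cv (mode j))
  have s1 : ∀ j < R, (st j).2.1 = o j := fun j hj => by simp [st, hj]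
  have s2 : ∀ j, (st (j + 1)).1 = β (o j) := fun j => by simp [st]
  have s3 : (st 0).1 = d0 := rfl
  have hv := (valid_hist st (fun d => (hM d).1) inj inj' s1 (fun j _ => s2 j) R le_rfl).1
  have hq : qq (Γ.ker w xs M L Fm γ) (hist st (R + 1)) * L ^ R < 4 * (M + 1) := by
    by_contra h
    exact hcon ⟨R, hR, _, hist_length _ _, hv, not_lt.1 h⟩
  obtain ⟨q0, q1⟩ := log_qq (Γ.ker w xs M L Fm γ) st (Γ.ker_pos w xs M L0 F0 hγ) (R + 1)
  have hB : Real.log (4 * (M + 2)) ≤ 2 * Lg := by
    rw [Real.log_mul (by norm_num) (by positivity), show (4 : ℝ) = 2 ^ 2 by norm_num, Real.log_pow]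
    have := Real.log_two_lt_d9
    push_cast
    linarith
  have hq2 := (Real.log_le_log (by positivity) (hq.le.trans
    (show (4 * (M + 1) : ℝ) ≤ 4 * (M + 2) by linarith))).trans hB
  rw [Real.log_mul q0.ne' (by positivity), q1, Real.log_pow] at hq2
  let cr : ℕ → ℝ := fun i => if mode i = none then - Real.log (w.Om (Γ.lab (o i))) - Real.log w.rho
    else Real.log (w.Om (Γ.lab (o i)))
  let cr' : ℕ → ℝ := fun i => if i < R then cr i else 0
  have cr3 : ∀ i, cr' i ≤ E3 := by
    intro i
    simp only [cr', cr]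
    split_ifs
    · exact (hE3 _).2
    · exact (hE3 _).1
    · exact E30
  let n : ℕ → ℝ := fun j => #(Γ.old xs M (hist st j))
  let ℓ : ℕ → ℝ := fun j => Real.log (Γ.ker w xs M L Fm γ (hist st j) (st j))
  have hLW : W - |Real.log w.C0| - |Real.log (1 - w.eta)| ≤ Real.log L := by
    have h1 : (Fintype.card V : ℝ) ≤ w.C0 * N := by exact_mod_cast hN.card_V
    have h2 : (0 : ℝ) < w.C0 := by
      by_contra h
      have : (w.C0 : ℝ) * N ≤ 0 := mul_nonpos_of_nonpos_of_nonneg (not_lt.1 h) N0.le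
      linarith
    have h3 := Real.log_le_log (by positivity) h1
    rw [Real.log_mul h2.ne' N0.ne'] at h3
    rw [hL, Real.log_mul eta1.ne' N0.ne']
    linarith [le_abs_self (Real.log w.C0), neg_abs_le (Real.log (1 - w.eta))]
  set E' := (c0 + 6) * Lg with hE'
  have hI : ∀ j ≤ R, cr' j - W * (n (j + 1) - n j) - E' +
      (|Real.log w.C0| + |Real.log (1 - w.eta)|) ≤ ℓ j := by
    intro j hj
    have h1 := Γ.log_ker_irr w xs M L0 F0 hγ (hist st j) (st j) (by rw [hist_length]; omega)
    have h2 := mul_le_mul_of_nonneg_left Lg1 c00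
    have := cr3 j
    simp only [n, ℓ, hist]
    linarith [neg_abs_le (Real.log (1 - Real.exp (-γ))), le_abs_self (Real.log Fm),
      le_abs_self (Real.log (2 * Fintype.card (S × Bool)))]
  have hJ : ∀ j ∈ range R, cr' (j + 1) + W * (1 - (n (j + 1 + 1) - n (j + 1))) - γ -
      E' * ((if j + 1 ∈ Irr then 1 else 0) + if j + 1 = R then 1 else 0) ≤
      ℓ (j + 1) + Real.log L := by
    intro j hj
    rw [mem_range] at hj
    have E0 : 0 ≤ E' := by positivity
    have h0 := hI (j + 1) hj
    by_cases c1 : j + 1 ∈ Irr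
    · rw [if_pos c1]
      split_ifs <;> linarith
    by_cases c2 : j + 1 = R
    · rw [if_neg c1, if_pos c2]
      linarith
    rw [if_neg c1, if_neg c2]
    have hj' : j + 1 < R := by omega
    obtain ⟨r1, r2, r3, r4, r5, r6, r7⟩ := hreg j hj' c1
    have n1 : n (j + 1) + 1 ≤ n (j + 1 + 1) := by
      simp only [n]
      have : Γ.src (o (j + 1)) ∉ Γ.old xs M (hist st (j + 1)) := by
        rw [Design.mem_old]
        rintro (h | ⟨k, hk, h | h⟩)
        · exact r3 h
        · rcases k with _ | k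
          · exact r3 (h.trans hd0)
          · rw [s2] at h
            exact r5 k (by omega) h
        · rw [s1 k (by omega)] at h
          exact r4 k (by omega) h
      rw [← Nat.cast_add_one, ← card_insert_of_notMem this, Nat.cast_le]
      apply card_le_card
      rw [← s1 _ hj']
      exact insert_subset_insert _ (subset_insert _ _)
    have e1 : Γ.reg w M L (hist st (j + 1)) (st (j + 1)) =
        Γ.rw w M L (hist st (j + 1)) (cv (mode (j + 1))) (Γ.lab (o (j + 1))) := by
      rw [hist, Design.reg, if_pos (by simp only [st, r2]), if_pos, s1 _ hj', r2]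
      rw [s2, s1 _ hj', s1 _ hj]
      refine ⟨(hM _).2, r1, fun h => inj' _ hj' _ hj (Γ.inj _ _ r1 ?_)⟩
      rw [h, Γ.lab_cl _ _ (hM _).2]
    have hOm := w.one_lt_Om (Γ.lab (o (j + 1)))
    have hrho := w.rho_pos
    have e2 : 0 < Γ.reg w M L (hist st (j + 1)) (st (j + 1)) ∧
        Real.log (Γ.reg w M L (hist st (j + 1)) (st (j + 1))) + Real.log L = cr' (j + 1) := by
      rw [e1]
      simp only [cr', cr, if_pos hj']
      rcases hm : mode (j + 1) with _ | ⟨b, c⟩
      · simp only [cv, Option.map_none, Design.rw, if_true]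
        refine ⟨by positivity, ?_⟩
        rw [Real.log_inv, Real.log_mul (by positivity) L0.ne',
          Real.log_mul (by positivity) hrho.ne']
        ring
      · have hc := hmd _ hj' b c hm
        have e3 : Γ.fl M (hist st (j + 1)) (b, Fin.ofNat _ c) = some (Γ.lab (o (j + 1))) := by
          simp only [Design.fl, hist_rev, hist_length, Fin.val_ofNat,
            Nat.mod_eq_of_lt (Nat.lt_succ_of_le hc), List.getElem?_map]
          cases b
          · obtain ⟨a1, a2, a3⟩ := r7 c hm
            rw [List.getElem?_range (show c - (j + 1) < j + 1 by omega)]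
            simp [a3, s1 (c - (j + 1)) (by omega)]
          · obtain ⟨a1, a2, a3⟩ := r6 c hm
            rw [List.getElem?_range (show j + 1 - c < j + 1 by omega)]
            simp [a3, s1 (j + 1 - c) (by omega)]
        simp only [cv, Option.map_some, Design.rw, e3, if_true, reduceCtorEq, if_false]
        refine ⟨by positivity, ?_⟩
        rw [Real.log_div (by positivity) L0.ne']
        ring
    have h3 := Γ.log_ker_reg w xs M F0 hγ _ _ e2.1
    have h4 := mul_le_mul_of_nonneg_left n1 W0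
    simp only [ℓ]
    linarith [e2.2]
  have S1 := sum_le_sum hJ
  have S2 := hI 0 (by omega)
  have T1 : ∑ j ∈ range R, cr' (j + 1) + cr' 0 = ∑ j ∈ range R, cr j := by
    rw [← sum_range_succ', sum_range_succ]
    simp only [cr', lt_irrefl, if_false, add_zero]
    exact sum_congr rfl fun j hj => if_pos (mem_range.1 hj)
  have T2 : ∑ j ∈ range R, (n (j + 1 + 1) - n (j + 1)) = n (R + 1) - n (0 + 1) :=
    sum_range_sub (fun j => n (j + 1)) R
  have T3 : ∑ j ∈ range R, (if j + 1 ∈ Irr then (1 : ℝ) else 0) ≤ #Irr := by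
    rw [sum_boole, Nat.cast_le]
    exact card_le_card_of_injOn (· + 1) (fun j hj => (mem_filter.1 hj).2)
      (fun _ _ _ _ h => by simpa using h)
  have T4 : ∑ j ∈ range R, (if j + 1 = R then (1 : ℝ) else 0) ≤ 1 := by
    rw [sum_boole, Nat.cast_le_one, card_le_one]
    intro a ha b hb
    have := (mem_filter.1 ha).2
    have := (mem_filter.1 hb).2
    omega
  have T5 : n 0 = 1 := by simp [n, hist, Design.old]
  have T6 : n (R + 1) ≤ #((((range R).image fun i => Γ.src (o i)) ∪
        ((range R).image fun i => Γ.src (β (o i)))).erase xs) + 1 := by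
    simp only [n]
    rw [← Nat.cast_succ, Nat.cast_le]
    refine le_trans (card_le_card ?_) (card_insert_le xs _)
    intro v hv
    rw [Design.mem_old] at hv
    simp only [mem_insert, mem_erase, mem_union, mem_image, mem_range]
    by_cases hx : v = xs
    · exact Or.inl hx
    refine Or.inr ⟨hx, ?_⟩
    rcases hv with h | ⟨k, hk, h | h⟩
    · exact absurd h hx
    · rcases k with _ | k
      · exact absurd (h.trans hd0) hx
      · exact Or.inr ⟨k, by omega, by rw [h, s2]⟩
    · by_cases hk' : k < R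
      · exact Or.inl ⟨k, hk', by rw [h, s1 k hk']⟩
      · exact Or.inr ⟨k - 1, by omega, by rw [h]; simp [st, hk']⟩
  rw [sum_range_succ'] at hq2
  simp only [sum_sub_distrib, sum_add_distrib, ← mul_sum, sum_const, card_range, nsmul_eq_mul,
    mul_one] at S1 T2
  have E0 : 0 ≤ E' := by positivity
  have U1 := mul_le_mul_of_nonneg_left T3 E0
  have U2 := mul_le_mul_of_nonneg_left T4 E0
  have U3 := mul_le_mul_of_nonneg_left T6 W0
  have U4 : 0 ≤ (#Irr : ℝ) * Lg := by positivity
  rw [T2] at S1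
  rw [T5] at S2
  change ∑ j ∈ range R, ℓ (j + 1) + ℓ 0 + _ ≤ _ at hq2
  change ∑ j ∈ range R, cr j + _ ≤ _
  nlinarith [abs_nonneg (Real.log w.C0), abs_nonneg (Real.log (1 - w.eta))]

end Crest.Agent.GSC
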