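import Crest.Agent.GSC.RIface

/-! The sequential first moment bound, part 1: the kernel. -/

set_option autoImplicit false
set_option linter.unusedSectionVars false

namespace Crest.Agent.GSC

open Finset Classical

/-- lists of a given length -/
noncomputable def LL (α : Type) [Fintype α] : ℕ → Finset (List α)
  | 0 => {[]}
  | n + 1 => (LL α n ×ˢ univ).map ⟨fun p => p.2 :: p.1, fun p q h => by
      simp only [List.cons.injEq] at h
      exact Prod.ext h.2 h.1⟩

lemma mem_LL {α : Type} [Fintype α] (l : List α) : l ∈ LL α l.length := by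
  induction l with
  | nil => simp [LL]
  | cons a l ih => exact mem_map.2 ⟨(l, a), by simpa using ih, rfl⟩

lemma LL_length {α : Type} [Fintype α] {n : ℕ} : ∀ {l : List α}, l ∈ LL α n → l.length = n := by
  induction n with
  | zero => intro l h; simpa [LL] using h
  | succ n ih =>
    intro l h
    obtain ⟨p, h1, rfl⟩ := mem_map.1 h
    exact congrArg (· + 1) (ih (mem_product.1 h1).1)

lemma sum_LL {α : Type} [Fintype α] (n : ℕ) (G : List α → ℝ) :
    ∑ l ∈ LL α (n + 1), G l = ∑ l ∈ LL α n, ∑ a, G (a :: l) := by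
  rw [LL, sum_map, sum_product]; rfl

/-- product weight of a kernel -/
noncomputable def qq {α : Type} (k : List α → α → ℝ) : List α → ℝ
  | [] => 1
  | a :: l => k l a * qq k l

lemma qq_nonneg {α : Type} {k : List α → α → ℝ} (hk : ∀ l a, 0 ≤ k l a) : ∀ l, 0 ≤ qq k l
  | [] => zero_le_one
  | a :: l => mul_nonneg (hk l a) (qq_nonneg hk l)

lemma sum_qq {α : Type} [Fintype α] {k : List α → α → ℝ} (hk : ∀ l a, 0 ≤ k l a)
    (Φ : List α → ℝ) (h0 : Φ [] = 1) (h1 : ∀ l, 1 ≤ Φ l)
    (h2 : ∀ l, ∑ a, k l a * Φ (a :: l) ≤ Φ l) (n : ℕ) : ∑ l ∈ LL α n, qq k l ≤ 1 := by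
  have : ∑ l ∈ LL α n, qq k l * Φ l ≤ 1 := by
    induction n with
    | zero => simp [LL, qq, h0]
    | succ n ih =>
      rw [sum_LL]
      refine le_trans (sum_le_sum fun l _ => ?_) ih
      refine le_trans (le_of_eq ?_) (mul_le_mul_of_nonneg_left (h2 l) (qq_nonneg hk l))
      rw [mul_sum]
      refine sum_congr rfl fun a _ => ?_
      simp only [qq]; ring
  exact le_trans (sum_le_sum fun l _ => le_mul_of_one_le_right (qq_nonneg hk l) (h1 l)) this

variable {S V D C : Type} [Fintype S] [Fintype V] [Fintype D] [DecidableEq C]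
  (Γ : Design S V D C)

namespace Design

lemma kr_card_src_le (O : Finset V) : #{d | Γ.src d ∈ O} ≤ #O * Fintype.card (S × Bool) := by
  rw [← card_univ, ← card_product]
  apply card_le_card_of_injOn (fun d => (Γ.src d, Γ.lab d))
  · intro d hd
    simpa using hd
  · intro d _ e _ h
    simp only [Prod.mk.injEq] at h
    exact Γ.inj d e h.1 h.2

noncomputable def krwt (O : Finset V) (d : D) : ℝ :=
  if Γ.src d ∈ O then (2 * Fintype.card (S × Bool) * #O : ℝ)⁻¹
  else (2 * Fintype.card (S × Bool) * Fintype.card V : ℝ)⁻¹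

lemma wt_nonneg (O : Finset V) (d : D) : 0 ≤ Γ.krwt O d := by
  unfold krwt; split_ifs <;> positivity

lemma sum_wt (O : Finset V) : ∑ d, Γ.krwt O d ≤ 1 := by
  have key : ∀ (a b c : ℕ), a ≤ b * c → (a : ℝ) * (2 * c * b : ℝ)⁻¹ ≤ 1 / 2 := by
    intro a b c h
    rcases Nat.eq_zero_or_pos a with rfl | ha
    · simp
    · have hb : 0 < b := Nat.pos_of_ne_zero (by rintro rfl; omega)
      have hc : 0 < c := Nat.pos_of_ne_zero (by rintro rfl; omega)
      have : (a : ℝ) ≤ b * c := by exact_mod_cast h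
      rw [← div_eq_mul_inv, div_le_iff₀ (by positivity)]
      linarith
  unfold krwt
  rw [sum_ite, sum_const, sum_const, nsmul_eq_mul, nsmul_eq_mul]
  have h1 := key _ _ _ (Γ.kr_card_src_le O)
  have h2 := key #{d | ¬ Γ.src d ∈ O} (Fintype.card V) _
    (le_trans (card_le_card (fun d _ => by simp)) (Γ.kr_card_src_le univ))
  linarith

lemma log_wt {O : Finset V} (d : D) {B : ℝ} (hO : O.Nonempty) (hB : (#O : ℝ) ≤ B) :
    0 < Γ.krwt O d ∧ - Real.log (2 * Fintype.card (S × Bool)) - Real.log B -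
      Real.log (Fintype.card V) * ((#(insert (Γ.src d) O) : ℝ) - #O) ≤ Real.log (Γ.krwt O d) := by
  have h1 : (0 : ℝ) < Fintype.card (S × Bool) := by
    have : Nonempty (S × Bool) := ⟨Γ.lab d⟩
    exact_mod_cast Fintype.card_pos
  have h2 : (1 : ℝ) ≤ #O := by exact_mod_cast card_pos.2 hO
  have h3 : (0 : ℝ) < Fintype.card V := by
    have : Nonempty V := ⟨Γ.src d⟩
    exact_mod_cast Fintype.card_pos
  unfold krwt
  split_ifs with h
  · refine ⟨by positivity, ?_⟩
    rw [insert_eq_of_mem h, Real.log_inv,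
      Real.log_mul (x := 2 * _) (by positivity) (by positivity)]
    have := Real.log_le_log (by positivity) hB
    linarith
  · refine ⟨by positivity, ?_⟩
    rw [card_insert_of_notMem h, Real.log_inv,
      Real.log_mul (x := 2 * _) (by positivity) (by positivity)]
    have := Real.log_nonneg (h2.trans hB)
    push_cast
    linarith

lemma sum_cnt (d : D) (G : S × Bool → ℝ) :
    ∑ p, ∑ e, (if Γ.cl p = Γ.ci (Γ.cl d) ∧ Γ.src e = Γ.src p ∧ Γ.lab e ≠ bar (Γ.lab d)
      then G (Γ.lab e) else 0) = ∑ b ∈ univ.erase (bar (Γ.lab d)), Γ.cnt d b * G b := by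
  have h1 : ∀ p, ∑ e, (if Γ.cl p = Γ.ci (Γ.cl d) ∧ Γ.src e = Γ.src p ∧ Γ.lab e ≠ bar (Γ.lab d)
      then G (Γ.lab e) else 0) = ∑ b ∈ univ.erase (bar (Γ.lab d)),
        if Γ.cl p = Γ.ci (Γ.cl d) ∧ ∃ e', Γ.src e' = Γ.src p ∧ Γ.lab e' = b then G b else 0 := by
    intro p
    rw [← sum_filter, ← sum_filter]
    apply sum_bij (fun e _ => Γ.lab e)
    · intro e he
      simp only [mem_filter, mem_univ, true_and, mem_erase, and_true] at he ⊢
      exact ⟨he.2.2, he.1, e, he.2.1, rfl⟩
    · intro a ha b hb h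
      simp only [mem_filter, mem_univ, true_and] at ha hb
      exact Γ.inj _ _ (ha.2.1.trans hb.2.1.symm) h
    · intro b hb
      simp only [mem_filter, mem_univ, true_and, mem_erase, and_true] at hb ⊢
      obtain ⟨b1, b2, e, b3, rfl⟩ := hb
      exact ⟨e, ⟨b2, b3, b1⟩, rfl⟩
    · intro _ _; rfl
  rw [sum_congr rfl (fun p _ => h1 p), sum_comm]
  refine sum_congr rfl fun b _ => ?_
  rw [← sum_filter, sum_const, nsmul_eq_mul]
  unfold cnt
  congr 3

end Design

/-- steps -/
abbrev St (D : Type) (M : ℕ) : Type := D × D × Option (Bool × Fin (2 * M + 1))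

namespace Design

variable (w : Weights S) (xs : V) (M : ℕ) (L Fm γ : ℝ)

/-- old vertices -/
noncomputable def old : List (St D M) → Finset V
  | [] => {xs}
  | t :: h => insert (Γ.src t.2.1) (insert (Γ.src t.1) (old h))

/-- forced label -/
def fl (h : List (St D M)) (x : Bool × Fin (2 * M + 1)) : Option (S × Bool) :=
  if x.1 then (h.reverse[h.length - x.2]?).map fun t => Γ.lab t.2.1
  else (h.reverse[x.2 - h.length]?).map fun t => bar (Γ.lab t.2.1)

noncomputable def irr (h : List (St D M)) (t : St D M) : ℝ :=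
  Γ.krwt (Γ.old xs M h) t.1 * Γ.krwt (insert (Γ.src t.1) (Γ.old xs M h)) t.2.1 *
    ((Fintype.card (Option (Bool × Fin (2 * M + 1))) : ℝ) * Fm)⁻¹

noncomputable def rw (h : List (St D M)) (md : Option (Bool × Fin (2 * M + 1))) (b : S × Bool) : ℝ :=
  match md with
  | none => (w.Om b * w.rho * L)⁻¹
  | some x => if Γ.fl M h x = some b then w.Om b / L else 0

noncomputable def reg : List (St D M) → St D M → ℝ
  | [], _ => 0
  | t' :: h, t => if t.2.2 = t'.2.2 then
      (if Γ.cl t.1 = Γ.ci (Γ.cl t'.2.1) ∧ Γ.src t.2.1 = Γ.src t.1 ∧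
        Γ.lab t.2.1 ≠ bar (Γ.lab t'.2.1) then Γ.rw w M L (t' :: h) t'.2.2 (Γ.lab t.2.1) else 0)
      else 0

noncomputable def pf (md : Option (Bool × Fin (2 * M + 1))) (b : S × Bool) : ℝ :=
  if md = none then w.Ff b else w.Fd b

noncomputable def Phi : List (St D M) → ℝ
  | [] => 1
  | t :: _ => pf w M t.2.2 (Γ.lab t.2.1)

noncomputable def ker (h : List (St D M)) (t : St D M) : ℝ :=
  (1 - Real.exp (-γ)) * Γ.irr xs M Fm h t + Real.exp (-γ) * Γ.reg w M L h t

variable {L Fm γ}

lemma irr_nonneg (hF : 0 ≤ Fm) (h : List (St D M)) (t : St D M) : 0 ≤ Γ.irr xs M Fm h t :=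
  mul_nonneg (mul_nonneg (Γ.wt_nonneg _ _) (Γ.wt_nonneg _ _)) (by positivity)

lemma rw_nonneg (hL : 0 < L) (h : List (St D M)) (md : Option (Bool × Fin (2 * M + 1)))
    (b : S × Bool) : 0 ≤ Γ.rw w M L h md b := by
  have := w.one_lt_Om b
  have := w.rho_pos
  unfold rw
  split
  · positivity
  · split_ifs <;> positivity

lemma reg_nonneg (hL : 0 < L) (h : List (St D M)) (t : St D M) : 0 ≤ Γ.reg w M L h t := by
  cases h with
  | nil => exact le_rfl
  | cons t' h =>
    simp only [reg]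
    split_ifs
    · exact Γ.rw_nonneg w M hL _ _ _
    all_goals exact le_rfl

lemma ker_nonneg (hL : 0 < L) (hF : 0 ≤ Fm) (hγ : 0 ≤ γ) (h : List (St D M)) (t : St D M) :
    0 ≤ Γ.ker w xs M L Fm γ h t :=
  add_nonneg (mul_nonneg (sub_nonneg.2 (Real.exp_le_one_iff.2 (by linarith)))
    (Γ.irr_nonneg xs M hF h t)) (mul_nonneg (Real.exp_pos _).le (Γ.reg_nonneg w M hL h t))

lemma one_le_Phi (h : List (St D M)) : 1 ≤ Γ.Phi w M h := by
  cases h with
  | nil => exact le_rfl
  | cons t h =>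
    simp only [Phi, pf]
    split_ifs
    · exact w.one_le_Ff _
    · exact w.one_le_Fd _

lemma sum_irr (hF : 0 < Fm) (hf : ∀ a, w.Ff a ≤ Fm) (hd : ∀ a, w.Fd a ≤ Fm) (h : List (St D M)) :
    ∑ t, Γ.irr xs M Fm h t * Γ.Phi w M (t :: h) ≤ 1 := by
  have h1 : ∀ t, Γ.irr xs M Fm h t * Γ.Phi w M (t :: h) ≤ Γ.irr xs M Fm h t * Fm := by
    intro t
    apply mul_le_mul_of_nonneg_left _ (Γ.irr_nonneg xs M hF.le h t)
    simp only [Phi, pf]
    split_ifs
    · exact hf _
    · exact hd _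
  refine (sum_le_sum fun t _ => h1 t).trans ?_
  rw [Fintype.sum_prod_type]
  refine le_trans (sum_le_sum fun p _ => ?_) (Γ.sum_wt (Γ.old xs M h))
  rw [Fintype.sum_prod_type]
  refine le_trans (le_of_eq ?_) (mul_le_of_le_one_right (Γ.wt_nonneg _ _)
    (Γ.sum_wt (insert (Γ.src p) (Γ.old xs M h))))
  rw [mul_sum]
  refine sum_congr rfl fun e _ => ?_
  simp only [irr, sum_const, card_univ, nsmul_eq_mul]
  have : (0 : ℝ) < Fintype.card (Option (Bool × Fin (2 * M + 1))) := by
    exact_mod_cast Fintype.card_pos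
  field_simp

lemma sum_reg {N : ℕ} (hN : Γ.Large w N) (hL : L = (1 - w.eta) * N) (L0 : 0 < L)
    (h : List (St D M)) : ∑ t, Γ.reg w M L h t * Γ.Phi w M (t :: h) ≤ Γ.Phi w M h := by
  cases h with
  | nil => simp [reg, Phi]
  | cons t' h =>
    obtain ⟨p', d, md⟩ := t'
    have e1 := Γ.sum_cnt d (fun b => Γ.rw w M L ((p', d, md) :: h) md b * pf w M md b)
    have e2 : ∑ t, Γ.reg w M L ((p', d, md) :: h) t * Γ.Phi w M (t :: (p', d, md) :: h) =
        ∑ b ∈ univ.erase (bar (Γ.lab d)),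
          Γ.cnt d b * (Γ.rw w M L ((p', d, md) :: h) md b * pf w M md b) := by
      rw [← e1, Fintype.sum_prod_type]
      refine sum_congr rfl fun p _ => ?_
      rw [Fintype.sum_prod_type]
      refine sum_congr rfl fun e _ => ?_
      rw [sum_eq_single md]
      · simp [reg, Phi]
      · intro m _ hm
        simp [reg, hm]
      · simp
    rw [e2]
    have hr := w.rho_pos
    cases md with
    | none =>
      have := hN.D2 d
      simp only [rw, pf, Phi, if_true]
      rw [mul_assoc w.rho, ← hL, mul_comm, ← div_le_iff₀ (by positivity), sum_div] at this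
      refine le_trans (le_of_eq (sum_congr rfl fun b _ => ?_)) this
      have := w.one_lt_Om b
      field_simp
    | some x =>
      simp only [rw, pf, Phi, reduceCtorEq, if_false]
      by_cases hb : ∃ b ∈ univ.erase (bar (Γ.lab d)), Γ.fl M ((p', d, some x) :: h) x = some b
      · obtain ⟨b, b1, b2⟩ := hb
        rw [sum_eq_single_of_mem b b1]
        · have := hN.D1 d b (mem_erase.1 b1).1
          rw [← hL, mul_comm L, ← div_le_iff₀ L0] at this
          refine le_trans (le_of_eq ?_) this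
          rw [if_pos b2]; ring
        · intro c _ hc
          rw [if_neg (fun h => hc (Option.some.inj (h.symm.trans b2)))]; simp
      · rw [sum_eq_zero]
        · linarith [w.one_le_Fd (Γ.lab d)]
        · intro b b1
          rw [if_neg (fun h => hb ⟨b, b1, h⟩)]; simp

lemma sum_ker {N : ℕ} (hN : Γ.Large w N) (hL : L = (1 - w.eta) * N) (L0 : 0 < L) (hF : 0 < Fm)
    (hf : ∀ a, w.Ff a ≤ Fm) (hd : ∀ a, w.Fd a ≤ Fm) (hγ : 0 ≤ γ) (n : ℕ) :
    ∑ l ∈ LL (St D M) n, qq (Γ.ker w xs M L Fm γ) l ≤ 1 := by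
  refine sum_qq (Γ.ker_nonneg w xs M L0 hF.le hγ) (Γ.Phi w M) rfl (Γ.one_le_Phi w M) ?_ n
  intro h
  simp only [ker, add_mul, sum_add_distrib, mul_assoc, ← mul_sum]
  have h1 := (Γ.sum_irr w xs M hF hf hd h).trans (Γ.one_le_Phi w M h)
  have h2 := Γ.sum_reg w M hN hL L0 h
  have h3 : 0 ≤ 1 - Real.exp (-γ) := sub_nonneg.2 (Real.exp_le_one_iff.2 (by linarith))
  have h4 := mul_le_mul_of_nonneg_left h1 h3
  have h5 := mul_le_mul_of_nonneg_left h2 (Real.exp_pos (-γ)).le
  linarith

end Design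

end Crest.Agent.GSC
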