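import Crest.Agent.GSC.Level3

/-! The deterministic level-set argument. -/

set_option autoImplicit false
set_option linter.unusedSectionVars false

namespace Crest.Agent.GSC

open Finset Classical

variable {S V D C : Type} [Fintype D] [DecidableEq C] {Γ : Design S V D C} {β : D → D}

namespace LSys
variable {xs : V} {T : Type} [Fintype T] {X : LSys Γ β xs T}

lemma Enum.levels [Fintype V] (N : X.Enum) {mm : ℕ} (hm : ∀ d, X.m d ≤ mm) (cr : ℕ → ℝ)
    {W γ Z : ℝ} (hW : 0 ≤ W)
    (h : ∀ R ≤ N.R, ∑ i ∈ range R, cr i + W * ((R : ℝ) - #((((range R).image fun i => Γ.src (N.o i)) ∪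
        ((range R).image fun i => Γ.src (β (N.o i)))).erase xs)) ≤ R * γ + Z) :
    ∑ s, cr (N.idx s) ≤ Fintype.card T * γ + mm * Z := by
  have hex : ∀ j, ∃ i, ¬ (i < N.R ∧ j < X.m (N.o i)) := fun j => ⟨N.R, by omega⟩
  let Rj : ℕ → ℕ := fun j => Nat.find (hex j)
  have hR : ∀ j i, i < Rj j ↔ i < N.R ∧ j < X.m (N.o i) := by
    intro j i
    constructor
    · intro h
      exact not_not.1 (Nat.find_min (hex j) h)
    · intro h
      by_contra h'
      have h1 : Rj j ≤ i := by omega
      have := N.anti _ _ h1 h.1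
      exact Nat.find_spec (hex j) ⟨show Rj j < N.R by omega, show j < X.m (N.o (Rj j)) by omega⟩
  have hRle : ∀ j, Rj j ≤ N.R := fun j => Nat.find_min' (hex j) (by omega)
  have cnt : ∀ k ≤ mm, #{j ∈ range mm | j < k} = k := by
    intro k hk
    have : {j ∈ range mm | j < k} = range k := by
      ext j; simp only [mem_filter, mem_range]; omega
    rw [this, card_range]
  have A1 : ∀ f : ℕ → ℝ, ∑ j ∈ range mm, ∑ i ∈ range (Rj j), f i = ∑ s, f (N.idx s) := by
    intro f
    have e1 : ∀ j, ∑ i ∈ range (Rj j), f i =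
        ∑ i ∈ range N.R, if j < X.m (N.o i) then f i else 0 := by
      intro j
      rw [← sum_filter]
      congr 1
      ext i
      simp only [mem_filter, mem_range, hR]
    rw [sum_congr rfl (fun j _ => e1 j), sum_comm,
      ← sum_fiberwise_of_maps_to (s := univ) (t := range N.R) (g := N.idx)
        (fun s _ => mem_range.2 (N.idx_lt s))]
    refine sum_congr rfl fun i hi => ?_
    rw [← sum_filter, sum_const, cnt _ (hm _), N.m_o (mem_range.1 hi),
      sum_congr rfl (g := fun _ => f i) (fun s hs => by rw [(mem_filter.1 hs).2]), sum_const]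
  have A2 : ∑ j ∈ range mm, #((((range (Rj j)).image fun i => Γ.src (N.o i)) ∪
        ((range (Rj j)).image fun i => Γ.src (β (N.o i)))).erase xs) ≤ Fintype.card T := by
    refine le_trans ?_ X.sum_out'
    have e1 : ∀ j ∈ range mm, #((((range (Rj j)).image fun i => Γ.src (N.o i)) ∪
        ((range (Rj j)).image fun i => Γ.src (β (N.o i)))).erase xs) ≤
        ∑ v ∈ univ.erase xs, if j < X.out' v then 1 else 0 := by
      intro j _
      rw [← card_filter]
      apply card_le_card
      intro v hv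
      simp only [mem_erase, mem_union, mem_image, mem_range, hR, mem_filter, mem_univ,
        and_true] at hv ⊢
      refine ⟨hv.1, ?_⟩
      rcases hv.2 with ⟨i, h1, rfl⟩ | ⟨i, h1, rfl⟩
      · exact h1.2.trans_le (X.m_le _)
      · exact h1.2.trans_le (X.m_beta _ ▸ X.m_le _)
    refine (sum_le_sum e1).trans ?_
    rw [sum_comm]
    refine sum_le_sum fun v _ => ?_
    rw [← card_filter]
    refine (card_le_card (t := range (X.out' v)) ?_).trans (by simp)
    intro j hj
    exact mem_range.2 (mem_filter.1 hj).2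
  have A3 := A1 (fun _ => 1)
  simp only [sum_const, card_range, nsmul_eq_mul, mul_one, card_univ] at A3
  have A4 := sum_le_sum (s := range mm) (fun j _ => h _ (hRle j))
  rw [sum_add_distrib, sum_add_distrib, A1, ← mul_sum, sum_sub_distrib, ← sum_mul, A3, sum_const,
    card_range, nsmul_eq_mul, ← Nat.cast_sum] at A4
  have A5 := mul_nonneg hW (sub_nonneg.2 ((Nat.cast_le (α := ℝ)).2 A2))
  linarith

end LSys

theorem levelStmt : LevelStmt := by
  intro S _ w
  have hom : ∀ a, 0 < Real.log (w.Om a) := fun a => Real.log_pos (w.one_lt_Om a)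
  have hr : 0 < - Real.log w.rho := neg_pos.2 (Real.log_neg w.rho_pos w.rho_lt)
  obtain ⟨c, c0, hc, hcr⟩ : ∃ c : ℝ, 0 < c ∧ (∀ a, c ≤ Real.log (w.Om a)) ∧
      2 * c ≤ - Real.log w.rho := by
    have h1 : 0 ≤ ∑ a, (Real.log (w.Om a))⁻¹ := sum_nonneg fun a _ => (inv_pos.2 (hom a)).le
    have h2 : 0 < (- Real.log w.rho / 2)⁻¹ := by positivity
    refine ⟨(∑ a, (Real.log (w.Om a))⁻¹ + (- Real.log w.rho / 2)⁻¹)⁻¹, by positivity,
      fun a => ?_, ?_⟩
    · apply inv_le_of_inv_le₀ (hom a)
      have := single_le_sum (f := fun a => (Real.log (w.Om a))⁻¹)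
        (fun a _ => (inv_pos.2 (hom a)).le) (mem_univ a)
      linarith
    · have : (∑ a, (Real.log (w.Om a))⁻¹ + (- Real.log w.rho / 2)⁻¹)⁻¹ ≤ - Real.log w.rho / 2 :=
        inv_le_of_inv_le₀ (by positivity) (by linarith)
      linarith
  obtain ⟨A, A0, hA⟩ : ∃ A : ℝ, 0 < A ∧ ∀ a, Real.log (w.Om a) ≤ A := by
    have h1 : 0 ≤ ∑ a, Real.log (w.Om a) := sum_nonneg fun a _ => (hom a).le
    refine ⟨∑ a, Real.log (w.Om a) + 1, by linarith, fun a => ?_⟩
    have := single_le_sum (f := fun a => Real.log (w.Om a)) (fun a _ => (hom a).le) (mem_univ a)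
    linarith
  refine ⟨c / (3 * A), c / 3, by positivity, by positivity, fun K b => ?_⟩
  set nb : ℕ := 1 + (K + 2) + (2 * b + 2) with hnb
  set nb2 : ℕ := nb + 6 * (K + 3) + nb * (2 * K + 2) with hnb2
  refine ⟨3 / c * ((2 * K + 3 : ℕ) * ((nb2 * (2 * K + 2) : ℕ) + 2)), ?_⟩
  intro V D C _ _ _ Γ β xs g W E hM g3 hg hsp hW hE hL hcE T _ φ dart io Br Wr num
    hT1 hT2 hio br1 brwr hWr brx nbr numi nums hirr
  let X : LSys Γ β xs T := ⟨φ, dart, Br, Wr, num, hM, br1, brwr, brx, nbr, numi, nums⟩
  have : Nonempty T := Fintype.card_pos_iff.1 (by omega)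
  obtain ⟨N⟩ := X.exists_enum hg (by omega)
  have hout := X.out_le hg (by omega) hT2 hWr
  have hm : ∀ d, X.m d ≤ 2 * K + 3 := by
    intro d
    have h1 := X.m_le d
    have h2 := hout (Γ.src d)
    have h3 := (card_filter_le X.Br (fun s => Γ.src (β (X.dart s)) = Γ.src d)).trans br1
    unfold LSys.out' at h1
    omega
  let Bad : Finset V := {v | ¬ X.Good v}
  have hBad : #Bad ≤ nb := by
    have h1 : Bad ⊆ ({xs} ∪ Wr.image (fun s => Γ.src (β (dart s)))) ∪
        ({v | 3 ≤ X.deg v} : Finset V) := by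
      intro v hv
      simp only [mem_filter, mem_univ, true_and, mem_union, mem_singleton, mem_image]
      by_contra h
      push Not at h
      exact (mem_filter.1 hv).2 ⟨h.1.1, h.1.2, by omega⟩
    have h2 := X.branch_le hsp (by omega)
    have h3 := card_image_le (s := Wr) (f := fun s => Γ.src (β (dart s)))
    have h4 := card_union_le {xs} (Wr.image (fun s => Γ.src (β (dart s))))
    have h5 := (card_le_card h1).trans (card_union_le _ _)
    rw [card_singleton] at h4
    omega
  let I1 : Finset T := {s | ¬ ((io s = none ∧ io (φ s) = none) ∨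
    ∃ t, io (φ s) = some t ∧ io s = some (φ t))}
  let I2 : Finset T := {s | ∃ u, io s = some u ∧ Γ.src (dart u) ∈ Bad}
  have hI2 : #I2 ≤ nb * (2 * K + 2) := by
    refine le_trans ?_ ((X.out_set hout Bad).trans (Nat.mul_le_mul_right _ hBad))
    apply card_le_card_of_injOn (fun s => (io s).getD s)
    · intro s hs
      simp only [I2, coe_filter, mem_univ, true_and, Set.mem_ofPred_eq] at hs ⊢
      obtain ⟨u, h1, h2⟩ := hs
      rw [h1]; exact h2
    · intro s hs t ht h
      simp only [I2, coe_filter, mem_univ, true_and, Set.mem_ofPred_eq] at hs ht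
      obtain ⟨s', h1, -⟩ := hs
      obtain ⟨t', h2, -⟩ := ht
      simp only [h1, h2, Option.getD_some] at h
      have a1 := (hio _ _ h1).1
      have a2 := (hio _ _ h2).1
      rw [h, a2] at a1
      exact (Option.some.inj a1).symm
  let Bad2 : Finset V := Bad ∪ (I1 ∪ I2).image (fun s => Γ.src (dart (φ s)))
  have hBad2 : #Bad2 ≤ nb2 := by
    have h1 := card_union_le Bad ((I1 ∪ I2).image (fun s => Γ.src (dart (φ s))))
    have h2 := card_image_le (s := I1 ∪ I2) (f := fun s => Γ.src (dart (φ s)))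
    have h3 := card_union_le I1 I2
    have h4 : #I1 ≤ 6 * (K + 3) := hirr
    simp only [Bad2]
    omega
  let Irr : Finset ℕ := {i ∈ range N.R | Γ.src (N.o i) ∈ Bad2}
  have hIrr : #Irr ≤ nb2 * (2 * K + 2) := by
    refine le_trans ?_ ((X.out_set hout Bad2).trans (Nat.mul_le_mul_right _ hBad2))
    refine le_trans (card_le_card ?_) (card_image_le (f := N.idx))
    intro i hi
    simp only [Irr, mem_filter, mem_range, mem_image, mem_univ, true_and] at hi ⊢
    obtain ⟨s, hs⟩ := N.mem i hi.1
    exact ⟨s, hs ▸ hi.2, N.idx1 hi.1 hs⟩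
  have hmem : ∀ i < N.R, N.o i ∈ X.HD := fun i hi => by
    obtain ⟨s, hs⟩ := N.mem i hi
    exact hs ▸ X.dart_mem s
  have main := N.levels hm (fun i => if pick (N.Mi io i) = none then
      - Real.log (w.Om (Γ.lab (N.o i))) - Real.log w.rho else Real.log (w.Om (Γ.lab (N.o i))))
      (γ := c / 3) (Z := (#Irr + 2) * E) hW (by
    intro R hR
    have hRM : N.R ≤ K * g := N.R_le.trans hT2
    refine hL R N.o (fun i => pick (N.Mi io i)) Irr (by omega)
      (fun i hi j hj => N.inj i (by omega) j (by omega))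
      (fun i hi j hj => N.inj' i (by omega) j (by omega))
      (fun i hi b c h => (N.Mi_le (pick_some h)).trans (by omega)) ?_
    intro i hi hirr
    have h1 : Γ.src (N.o (i + 1)) ∉ Bad2 := fun h => hirr (mem_filter.2 ⟨mem_range.2 (by omega), h⟩)
    have h2 : X.Good (Γ.src (N.o (i + 1))) := by
      by_contra h
      exact h1 (mem_union_left _ (by simpa [Bad] using h))
    obtain ⟨s, hs⟩ := N.mem (i + 1) (by omega)
    obtain ⟨d, e, h3⟩ := h2.two (s := s) (by rw [hs])
    obtain ⟨j, hj, h4⟩ := N.good _ d e h3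
    have h5 : j = i := by
      rcases h4.all _ (hmem (i + 1) (by omega)) rfl with h | h
      · exact absurd h (N.inj' _ (by omega) _ (by omega))
      · have := N.inj _ (by omega) _ (by omega) h
        omega
    subst h5
    have h6 := N.Mi_step hio hj h4 (by
      intro s hs
      have h7 : s ∉ I1 ∪ I2 := fun h => h1 (mem_union_right _ (mem_image.2 ⟨s, h, hs⟩))
      simp only [I1, I2, mem_union, mem_filter, mem_univ, true_and, not_or, not_not, not_exists,
        not_and, Bad] at h7
      by_cases h8 : io s = none ∧ io (φ s) = none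
      · exact Or.inl h8
      · right
        by_contra h9
        exact h7.1 (fun a b => h8 ⟨a, b⟩) (fun t a b => h9 ⟨t, a, b, h7.2 _ b⟩))
    refine ⟨h4.hd.symm, by rw [h6], h2.1, fun k hk h => ?_, fun k hk h => ?_, fun c h => ?_,
      fun c h => ?_⟩
    · rcases h4.all _ (hmem k (by omega)) h.symm with h | h
      · exact N.inj' _ (by omega) _ (by omega) h
      · have := N.inj _ (by omega) _ (by omega) h
        omega
    · rcases h4.all _ (X.beta_mem (hmem k (by omega))) h.symm with h | h
      · have := N.inj _ (by omega) _ (by omega) (hM.injL h)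
        omega
      · exact N.inj' _ (by omega) _ (by omega) h.symm
    · exact N.Mi_true hio (pick_some h)
    · have := N.Mi_false hio (pick_some h)
      exact ⟨this.1, by omega, this.2.2⟩)
  have cred := N.credit hio (fun a => Real.log (w.Om a)) (fun a => by rw [w.Om_bar]) hc hA hcr c0.le
  have e : ∀ s, Real.log (w.Om (Γ.lab (N.o (N.idx s)))) = Real.log (w.Om (Γ.lab (X.dart s))) := by
    intro s
    rcases N.on s with h | h
    · rw [h]
    · rw [h, hM.labL, w.Om_bar]
  simp only [e, sub_eq_add_neg] at main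
  have h1 := cred.trans main
  have h2 : (#Irr : ℝ) ≤ (nb2 * (2 * K + 2) : ℕ) := Nat.cast_le.2 hIrr
  have h3 : (g : ℝ) ≤ Fintype.card T := Nat.cast_le.2 hT1
  have h4 : ((2 * K + 3 : ℕ) : ℝ) * ((#Irr + 2) * E) ≤ c / 3 * Fintype.card T := by
    have a1 : ((2 * K + 3 : ℕ) : ℝ) * ((#Irr + 2) * E) ≤
        ((2 * K + 3 : ℕ) : ℝ) * ((((nb2 * (2 * K + 2) : ℕ) : ℝ) + 2) * E) := by gcongr
    have a2 := mul_le_mul_of_nonneg_left (hcE.trans h3) (show 0 ≤ c / 3 by positivity)
    refine a1.trans (le_trans (le_of_eq ?_) a2)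
    field_simp
  rw [div_mul_eq_mul_div, div_le_iff₀ (by positivity)]
  linarith

end Crest.Agent.GSC
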