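import Crest.Agent.GSC.RIface

/-! The deterministic level-set argument, part 1: counting in a system of sides. -/

set_option autoImplicit false
set_option linter.unusedSectionVars false

namespace Crest.Agent.GSC

open Finset Classical

variable {S V D C : Type} [Fintype D] [DecidableEq C] {Γ : Design S V D C} {β : D → D}

lemma bar_ne' (a : S × Bool) : bar a ≠ a := by
  obtain ⟨x, b⟩ := a
  cases b <;> simp [bar]

lemma bar_bar' (a : S × Bool) : bar (bar a) = a := by
  obtain ⟨x, b⟩ := a
  cases b <;> simp [bar]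

lemma Design.IsM.bb (h : Γ.IsM β) (d : D) : β (β d) = d := (h d).1
lemma Design.IsM.labL (h : Γ.IsM β) (d : D) : Γ.lab (β d) = bar (Γ.lab d) := Γ.lab_cl d _ (h d).2
lemma Design.IsM.ne (h : Γ.IsM β) (d : D) : β d ≠ d := fun e => bar_ne' (Γ.lab d) (by
  rw [← h.labL, e])
lemma Design.IsM.injL (h : Γ.IsM β) {d e : D} (he : β d = β e) : d = e := by
  rw [← h.bb d, he, h.bb]

/-- A system of sides. -/
structure LSys (Γ : Design S V D C) (β : D → D) (xs : V) (T : Type) where
  φ : Equiv.Perm T
  dart : T → D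
  Br : Finset T
  Wr : Finset T
  num : T → ℕ
  isM : Γ.IsM β
  br1 : Br.card ≤ 1
  brwr : Br ⊆ Wr
  brx : ∀ s ∈ Br, Γ.src (dart (φ s)) = xs
  nbr : ∀ s, s ∉ Br → Γ.src (dart (φ s)) = Γ.src (β (dart s)) ∧ dart (φ s) ≠ β (dart s)
  numi : Function.Injective num
  nums : ∀ s, s ∉ Wr → num (φ s) = num s + 1

namespace LSys
variable {xs : V} {T : Type} [Fintype T] (X : LSys Γ β xs T)

noncomputable def rank (s : T) : ℕ := #{u | X.num u < X.num s}

lemma rank_lt {s t : T} (h : X.num s < X.num t) : X.rank s < X.rank t := by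
  apply card_lt_card
  rw [ssubset_iff_of_subset]
  · exact ⟨s, by simpa using h, by simp⟩
  · intro u hu
    simp only [mem_filter, mem_univ, true_and] at hu ⊢
    omega

lemma walk (k : ℕ) : ∀ s, (∀ u ∈ X.Wr, ¬ (X.num s ≤ X.num u ∧ X.num u ≤ X.num s + k)) →
    ∃ s' p, X.num s' = X.num s + k + 1 ∧
      Γ.Path β (Γ.src (X.dart s)) (X.dart s :: p) (Γ.src (X.dart s')) ∧
      Design.Rd β (X.dart s :: p) ∧ p.length = k ∧ X.rank s + k + 1 ≤ X.rank s' := by
  induction k with
  | zero =>
    intro s hs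
    have h1 : s ∉ X.Wr := fun h => hs s h (by omega)
    have h2 := X.nbr s (fun h => h1 (X.brwr h))
    have h3 := X.nums s h1
    exact ⟨X.φ s, [], h3, ⟨rfl, h2.1.symm⟩, List.isChain_singleton _, rfl,
      X.rank_lt (by omega)⟩
  | succ k ih =>
    intro s hs
    have h1 : s ∉ X.Wr := fun h => hs s h (by omega)
    have h2 := X.nbr s (fun h => h1 (X.brwr h))
    have h3 := X.nums s h1
    obtain ⟨s', p, a1, a2, a3, a4, a5⟩ := ih (X.φ s) (fun u hu h => hs u hu (by omega))
    have := X.rank_lt (s := s) (t := X.φ s) (by omega)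
    refine ⟨s', X.dart (X.φ s) :: p, by omega, ⟨rfl, h2.1 ▸ a2⟩, ?_, by simp [a4], by omega⟩
    exact List.isChain_cons_cons.2 ⟨h2.2, a3⟩

noncomputable def out (v : V) : ℕ := #{s | Γ.src (X.dart s) = v}

lemma out_le {g K : ℕ} (hg : Γ.Girth β g) (g0 : 0 < g) (hT : Fintype.card T ≤ K * g)
    (hW : X.Wr.card ≤ K + 2) (v : V) : X.out v ≤ 2 * K + 2 := by
  let P : T → ℕ := fun s => X.rank s + g * #{u ∈ X.Wr | X.num u < X.num s}
  have hP : ∀ s t, Γ.src (X.dart s) = v → Γ.src (X.dart t) = v → X.num s < X.num t →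
      P s + g ≤ P t := by
    intro s t hs ht hst
    have hsub : ({u ∈ X.Wr | X.num u < X.num s} : Finset T) ⊆ {u ∈ X.Wr | X.num u < X.num t} := by
      intro u hu
      simp only [mem_filter] at hu ⊢
      exact ⟨hu.1, by omega⟩
    by_cases h : ∃ u ∈ X.Wr, X.num s ≤ X.num u ∧ X.num u < X.num t
    · obtain ⟨u, u1, u2, u3⟩ := h
      have h1 : #{u ∈ X.Wr | X.num u < X.num s} < #{u ∈ X.Wr | X.num u < X.num t} := by
        apply card_lt_card
        rw [ssubset_iff_of_subset hsub]
        exact ⟨u, by simp [u1, u3], by simp [u2]⟩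
      have h2 := X.rank_lt hst
      have := Nat.mul_le_mul_left g (Nat.succ_le_of_lt h1)
      simp only [P]
      rw [Nat.mul_succ] at this
      omega
    · obtain ⟨s', p, a1, a2, a3, a4, a5⟩ := X.walk (X.num t - X.num s - 1) s
        (fun u hu h' => h ⟨u, hu, h'.1, by omega⟩)
      have : s' = t := X.numi (by omega)
      subst this
      rw [hs, ht] at a2
      have h1 := hg v _ a2 a3 (by simp)
      have := Nat.mul_le_mul_left g (card_le_card hsub)
      simp only [List.length_cons] at h1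
      simp only [P]
      omega
  have : X.out v ≤ #(range (2 * K + 2)) := by
    apply card_le_card_of_injOn (fun s => P s / g)
    · intro s _
      simp only [coe_range, Set.mem_Iio]
      rw [Nat.div_lt_iff_lt_mul g0]
      have h1 : X.rank s < Fintype.card T := by
        apply card_lt_card
        rw [ssubset_iff_of_subset (subset_univ _)]
        exact ⟨s, by simp, by simp⟩
      have h2 := Nat.mul_le_mul_left g ((card_filter_le X.Wr (fun u => X.num u < X.num s)).trans hW)
      simp only [P]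
      nlinarith
    · intro s hs t ht hst
      simp only [coe_filter, mem_univ, true_and, Set.mem_ofPred_eq] at hs ht
      by_contra hne
      have key : ∀ s t, P s + g ≤ P t → P s / g < P t / g := by
        intro s t h
        have := Nat.div_le_div_right (c := g) h
        rw [Nat.add_div_right _ g0] at this
        omega
      rcases lt_or_gt_of_ne (fun h => hne (X.numi h)) with h | h
      · exact (key _ _ (hP s t hs ht h)).ne hst
      · exact (key _ _ (hP t s ht hs h)).ne' hst
  simpa using this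

lemma out_set {K : ℕ} (h : ∀ v, X.out v ≤ K) (B : Finset V) :
    #{s | Γ.src (X.dart s) ∈ B} ≤ #B * K := by
  rw [card_eq_sum_card_fiberwise (f := fun s => Γ.src (X.dart s)) (t := B)
    (by intro s hs; simpa using hs)]
  refine (sum_le_card_nsmul _ _ K ?_).trans (by simp)
  intro v _
  refine le_trans (card_le_card ?_) (h v)
  intro s hs
  simp only [mem_filter, mem_univ, true_and] at hs ⊢
  exact hs.2

/-- number of sides along a dart -/
noncomputable def a (d : D) : ℕ := #{s | X.dart s = d}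

/-- number of sides along an edge -/
noncomputable def m (d : D) : ℕ := X.a d + X.a (β d)

lemma m_eq (d : D) : X.m d = #{s | X.dart s = d ∨ X.dart s = β d} := by
  rw [filter_or, card_union_of_disjoint]
  · rfl
  · rw [disjoint_filter]
    intro s _ h1 h2
    exact X.isM.ne d (h2.symm.trans h1)

lemma m_beta (d : D) : X.m (β d) = X.m d := by
  unfold m; rw [X.isM.bb, add_comm]

noncomputable def out' (v : V) : ℕ := X.out v + #{s ∈ X.Br | Γ.src (β (X.dart s)) = v}

lemma m_le (d : D) : X.m d ≤ X.out' (Γ.src d) := by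
  have h1 : X.out (Γ.src d) = X.a d + #{s | Γ.src (X.dart s) = Γ.src d ∧ X.dart s ≠ d} := by
    unfold out a
    rw [← card_filter_add_card_filter_not (fun s => X.dart s = d), filter_filter, filter_filter]
    congr 2
    ext s
    simp only [mem_filter, mem_univ, true_and]
    exact ⟨fun h => h.2, fun h => ⟨by rw [h], h⟩⟩
  have h2 : X.a (β d) ≤ #{s | Γ.src (X.dart s) = Γ.src d ∧ X.dart s ≠ d} +
      #{s ∈ X.Br | Γ.src (β (X.dart s)) = Γ.src d} := by
    unfold a
    rw [← card_filter_add_card_filter_not (fun s => s ∉ X.Br)]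
    apply add_le_add
    · apply card_le_card_of_injOn X.φ _ (X.φ.injective.injOn)
      intro s hs
      simp only [coe_filter, mem_filter, mem_univ, true_and, Set.mem_ofPred_eq] at hs ⊢
      have := X.nbr s hs.2
      rwa [hs.1, X.isM.bb] at this
    · apply card_le_card
      intro s hs
      simp only [mem_filter, mem_univ, true_and, not_not] at hs ⊢
      exact ⟨hs.2, by rw [hs.1, X.isM.bb]⟩
  unfold m out'
  omega

lemma sum_out' [Fintype V] : ∑ v ∈ univ.erase xs, X.out' v ≤ Fintype.card T := by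
  unfold out'
  rw [sum_add_distrib]
  have h1 : ∑ v ∈ univ.erase xs, X.out v = #{s | Γ.src (X.dart s) ≠ xs} := by
    rw [card_eq_sum_card_fiberwise (f := fun s => Γ.src (X.dart s)) (t := univ.erase xs)
      (by intro s hs; simpa using hs)]
    refine sum_congr rfl fun v hv => ?_
    unfold out
    congr 1
    ext s
    simp only [mem_filter, mem_univ, true_and]
    exact ⟨fun h => ⟨by rw [h]; exact (mem_erase.1 hv).1, h⟩, fun h => h.2⟩
  have h2 : ∑ v ∈ univ.erase xs, #{s ∈ X.Br | Γ.src (β (X.dart s)) = v} ≤ #X.Br := by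
    rw [card_eq_sum_card_fiberwise (f := fun s => Γ.src (β (X.dart s))) (s := X.Br) (t := univ)
      (by intro s hs; simp)]
    exact sum_le_sum_of_subset (erase_subset _ _)
  have h3 : #X.Br ≤ #{s | ¬ Γ.src (X.dart s) ≠ xs} := by
    apply card_le_card_of_injOn X.φ _ (X.φ.injective.injOn)
    intro s hs
    simpa using X.brx s hs
  have h4 := card_filter_add_card_filter_not (s := (univ : Finset T))
    (fun s => Γ.src (X.dart s) ≠ xs)
  rw [card_univ] at h4
  omega

/-- darts on the image graph -/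
noncomputable def HD : Finset D := {d | ∃ s, X.dart s = d ∨ X.dart s = β d}

lemma mem_HD {d : D} : d ∈ X.HD ↔ ∃ s, X.dart s = d ∨ X.dart s = β d := by simp [HD]

lemma dart_mem (s : T) : X.dart s ∈ X.HD := X.mem_HD.2 ⟨s, Or.inl rfl⟩
lemma beta_mem {d : D} (h : d ∈ X.HD) : β d ∈ X.HD := by
  obtain ⟨s, hs⟩ := X.mem_HD.1 h
  exact X.mem_HD.2 ⟨s, by rw [X.isM.bb]; exact hs.symm⟩

noncomputable def deg (v : V) : ℕ := #{d ∈ X.HD | Γ.src d = v}

lemma second {d : D} (hd : d ∈ X.HD) (h1 : Γ.src d ≠ xs)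
    (h2 : ∀ s ∈ X.Br, Γ.src (β (X.dart s)) ≠ Γ.src d) :
    ∃ e ∈ X.HD, Γ.src e = Γ.src d ∧ e ≠ d := by
  obtain ⟨s, hs | hs⟩ := X.mem_HD.1 hd
  · obtain ⟨u, rfl⟩ := X.φ.surjective s
    have := X.nbr u (fun h => h1 (hs ▸ X.brx u h))
    rw [hs] at this
    exact ⟨_, X.beta_mem (X.dart_mem u), this.1.symm, this.2.symm⟩
  · have := X.nbr s (fun h => h2 s h (by rw [hs, X.isM.bb]))
    rw [hs, X.isM.bb] at this
    exact ⟨_, X.dart_mem _, this⟩

lemma branch_le [Fintype V] {k b : ℕ} (hsp : Γ.Sparse β k b) (hT : 2 * Fintype.card T ≤ k) :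
    #{v | 3 ≤ X.deg v} ≤ 2 * b + 2 := by
  set A := X.HD.image Γ.src with hA
  have h1 : #X.HD ≤ 2 * Fintype.card T := by
    have : X.HD ⊆ univ.image X.dart ∪ univ.image (fun s => β (X.dart s)) := by
      intro d hd
      obtain ⟨s, hs | hs⟩ := X.mem_HD.1 hd
      · exact mem_union_left _ (mem_image.2 ⟨s, mem_univ _, hs⟩)
      · exact mem_union_right _ (mem_image.2 ⟨s, mem_univ _, by rw [hs, X.isM.bb]⟩)
    refine (card_le_card this).trans ((card_union_le _ _).trans ?_)
    have a1 := card_image_le (s := (univ : Finset T)) (f := X.dart)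
    have a2 := card_image_le (s := (univ : Finset T)) (f := fun s => β (X.dart s))
    rw [card_univ] at a1 a2
    omega
  have h2 := hsp A (card_image_le.trans (h1.trans hT))
  have h3 : #{d ∈ X.HD | (Γ.lab d).2 = true} ≤ Γ.span β A := by
    apply card_le_card
    intro d hd
    simp only [mem_filter, mem_univ, true_and] at hd ⊢
    exact ⟨hd.2, mem_image_of_mem _ hd.1, mem_image_of_mem _ (X.beta_mem hd.1)⟩
  have h4 : #{d ∈ X.HD | ¬ (Γ.lab d).2 = true} ≤ #{d ∈ X.HD | (Γ.lab d).2 = true} := by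
    apply card_le_card_of_injOn β _ (fun _ _ _ _ h => X.isM.injL h)
    intro d hd
    simp only [coe_filter, Set.mem_ofPred_eq] at hd ⊢
    refine ⟨X.beta_mem hd.1, ?_⟩
    rw [X.isM.labL]
    simpa [bar] using hd.2
  have h5 := card_filter_add_card_filter_not (s := X.HD) (fun d => (Γ.lab d).2 = true)
  have h6 : #X.HD = ∑ v ∈ A, X.deg v :=
    card_eq_sum_card_fiberwise (f := Γ.src) (fun d hd => mem_image_of_mem _ hd)
  set L := insert xs (X.Br.image fun s => Γ.src (β (X.dart s))) with hL
  have h7 : #L ≤ 2 := (card_insert_le _ _).trans (by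
    have := (card_image_le (s := X.Br) (f := fun s => Γ.src (β (X.dart s)))).trans X.br1
    omega)
  have h8 : ∀ v ∈ A, 2 + (if 3 ≤ X.deg v then 1 else 0) ≤ X.deg v + if v ∈ L then 1 else 0 := by
    intro v hv
    obtain ⟨d, hd, rfl⟩ := mem_image.1 hv
    have b1 : 0 < X.deg (Γ.src d) := card_pos.2 ⟨d, by simp [hd]⟩
    have b2 : Γ.src d ∉ L → 1 < X.deg (Γ.src d) := by
      intro h
      simp only [hL, mem_insert, mem_image, not_or, not_exists, not_and] at h
      obtain ⟨e, e1, e2, e3⟩ := X.second hd h.1 h.2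
      exact one_lt_card.2 ⟨e, by simp [e1, e2], d, by simp [hd], e3⟩
    split_ifs with c1 c2 c2
    · omega
    · omega
    · omega
    · have := b2 c2; omega
  have h9 := sum_le_sum h8
  rw [sum_add_distrib, sum_add_distrib, ← card_filter, ← card_filter, sum_const, smul_eq_mul,
    ← h6] at h9
  have h10 : #{v ∈ A | v ∈ L} ≤ #L := card_le_card (fun v hv => (mem_filter.1 hv).2)
  have h11 : #{v | 3 ≤ X.deg v} ≤ #{v ∈ A | 3 ≤ X.deg v} := by
    apply card_le_card
    intro v hv
    simp only [mem_filter, mem_univ, true_and] at hv ⊢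
    obtain ⟨d, hd⟩ := card_pos.1 (show 0 < X.deg v by omega)
    rw [mem_filter] at hd
    exact ⟨mem_image.2 ⟨d, hd⟩, hv⟩
  omega

end LSys

end Crest.Agent.GSC
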