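import Crest.Agent.GSC.Level1

/-! The deterministic level-set argument, part 2: ordering the edges. -/

set_option autoImplicit false
set_option linter.unusedSectionVars false

namespace Crest.Agent.GSC

open Finset Classical

variable {S V D C : Type} [Fintype D] [DecidableEq C] {Γ : Design S V D C} {β : D → D}

lemma exists_ix {T : Type} [Nonempty T] (F : Finset T) (κ : T → ℕ) (hκ : Function.Injective κ) :
    ∃ (e : ℕ → T) (ix : T → ℕ), (∀ i < #F, e i ∈ F ∧ ix (e i) = i) ∧
      (∀ s ∈ F, ix s < #F ∧ e (ix s) = s) ∧ (∀ s ∈ F, ∀ t ∈ F, κ s < κ t → ix s < ix t) ∧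
      (∀ s ∈ F, ∀ t ∈ F, κ t = κ s + 1 → ix t = ix s + 1) := by
  let ix : T → ℕ := fun s => #{t ∈ F | κ t < κ s}
  have h1 : ∀ s ∈ F, ∀ t ∈ F, κ s < κ t → ix s < ix t := by
    intro s hs t _ h
    apply card_lt_card
    rw [ssubset_iff_of_subset]
    · exact ⟨s, by simp [hs, h], by simp⟩
    · intro u hu
      simp only [mem_filter] at hu ⊢
      exact ⟨hu.1, by omega⟩
  have h2 : ∀ s ∈ F, ix s < #F := by
    intro s hs
    apply card_lt_card
    rw [ssubset_iff_of_subset (filter_subset _ _)]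
    exact ⟨s, hs, by simp⟩
  have h3 : Set.InjOn ix F := by
    intro s hs t ht h
    by_contra hne
    rcases lt_or_gt_of_ne (fun h => hne (hκ h)) with h' | h'
    · exact (h1 s hs t ht h').ne h
    · exact (h1 t ht s hs h').ne' h
  have h4 : F.image ix = range #F := by
    apply eq_of_subset_of_card_le
    · intro i hi
      obtain ⟨s, hs, rfl⟩ := mem_image.1 hi
      exact mem_range.2 (h2 s hs)
    · rw [card_range, card_image_of_injOn h3]
  have h5 : ∀ i < #F, ∃ s ∈ (F : Set T), ix s = i := by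
    intro i hi
    have := h4 ▸ mem_range.2 hi
    simpa using this
  refine ⟨Function.invFunOn ix F, ix, fun i hi => ⟨Function.invFunOn_mem (h5 i hi),
    Function.invFunOn_eq (h5 i hi)⟩, fun s hs => ⟨h2 s hs, h3.leftInvOn_invFunOn hs⟩, h1, ?_⟩
  intro s hs t _ h
  have : ({u ∈ F | κ u < κ t} : Finset T) = insert s {u ∈ F | κ u < κ s} := by
    ext u
    simp only [mem_filter, mem_insert]
    constructor
    · intro hu
      by_cases h' : κ u = κ s
      · exact Or.inl (hκ h')
      · exact Or.inr ⟨hu.1, by omega⟩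
    · rintro (rfl | hu)
      · exact ⟨hs, by omega⟩
      · exact ⟨hu.1, by omega⟩
  simp only [ix]
  rw [this, card_insert_of_notMem (by simp)]

namespace LSys
variable {xs : V} {T : Type} [Fintype T] (X : LSys Γ β xs T)

/-- a good vertex -/
def Good (v : V) : Prop :=
  v ≠ xs ∧ (∀ s ∈ X.Wr, Γ.src (β (X.dart s)) ≠ v) ∧ X.deg v ≤ 2

variable {X}

lemma Good.c1 {v : V} (hv : X.Good v) {s : T} (h : Γ.src (β (X.dart s)) = v) :
    Γ.src (X.dart (X.φ s)) = v ∧ X.dart (X.φ s) ≠ β (X.dart s) ∧ X.num (X.φ s) = X.num s + 1 := by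
  have h1 : s ∉ X.Wr := fun h' => hv.2.1 s h' h
  have h2 := X.nbr s (fun h => h1 (X.brwr h))
  exact ⟨h2.1.trans h, h2.2, X.nums s h1⟩

lemma Good.c2 {v : V} (hv : X.Good v) {s : T} (h : Γ.src (X.dart (X.φ s)) = v) :
    Γ.src (β (X.dart s)) = v := by
  have h2 := X.nbr s (fun h' => hv.1 (h.symm.trans (X.brx s h')))
  exact h2.1.symm.trans h

/-- the two darts at a good vertex -/
structure Two (X : LSys Γ β xs T) (v : V) (d e : D) : Prop where
  good : X.Good v
  hd : Γ.src d = v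
  he : Γ.src e = v
  ne : d ≠ e
  md : d ∈ X.HD
  me : e ∈ X.HD
  all : ∀ c ∈ X.HD, Γ.src c = v → c = d ∨ c = e

lemma Two.symm {v : V} {d e : D} (h : X.Two v d e) : X.Two v e d :=
  ⟨h.good, h.he, h.hd, h.ne.symm, h.me, h.md, fun c h1 h2 => (h.all c h1 h2).symm⟩

lemma Good.two {v : V} (hv : X.Good v) {s : T} (h : Γ.src (X.dart s) = v) :
    ∃ d e, X.Two v d e := by
  obtain ⟨u, rfl⟩ := X.φ.surjective s
  have h1 := hv.c2 h
  have h2 := hv.c1 h1
  refine ⟨_, _, hv, h, h1, h2.2.1, X.dart_mem _, X.beta_mem (X.dart_mem _), fun c c1 c2 => ?_⟩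
  by_contra hc
  push Not at hc
  have : 2 < X.deg v := two_lt_card_iff.2 ⟨c, X.dart (X.φ u), β (X.dart u), by simp [c1, c2],
    by simp [h, X.dart_mem], by simp [h1, X.beta_mem (X.dart_mem _)], hc.1, hc.2, h2.2.1⟩
  have := hv.2.2
  omega

lemma Two.fwd {v : V} {d e : D} (h : X.Two v d e) {t : T} (ht : X.dart t = β d) :
    X.dart (X.φ t) = e ∧ X.num (X.φ t) = X.num t + 1 := by
  have h1 := h.good.c1 (s := t) (by rw [ht, X.isM.bb, h.hd])
  rw [ht, X.isM.bb] at h1
  exact ⟨(h.all _ (X.dart_mem _) h1.1).resolve_left h1.2.1, h1.2.2⟩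

lemma Two.bwd {v : V} {d e : D} (h : X.Two v d e) {t : T} (ht : X.dart (X.φ t) = d) :
    X.dart t = β e ∧ X.num (X.φ t) = X.num t + 1 := by
  have h0 := h.good.c2 (s := t) (by rw [ht, h.hd])
  have h1 := h.good.c1 h0
  rw [ht] at h1
  have := (h.all _ (X.beta_mem (X.dart_mem _)) h0).resolve_left h1.2.1.symm
  exact ⟨by rw [← this, X.isM.bb], h1.2.2⟩

lemma Two.a_eq {v : V} {d e : D} (h : X.Two v d e) : X.a (β d) = X.a e := by
  unfold a
  apply card_bij (fun t _ => X.φ t)
  · intro t ht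
    simp only [mem_filter, mem_univ, true_and] at ht ⊢
    exact (h.fwd ht).1
  · intro a _ b _ hab
    exact X.φ.injective hab
  · intro t ht
    obtain ⟨u, rfl⟩ := X.φ.surjective t
    simp only [mem_filter, mem_univ, true_and] at ht ⊢
    exact ⟨u, (h.symm.bwd ht).1, rfl⟩

lemma Two.m_eq {v : V} {d e : D} (h : X.Two v d e) : X.m d = X.m e := by
  unfold m
  rw [h.a_eq, h.symm.a_eq, add_comm]

lemma Two.noloop {g : ℕ} (hg : Γ.Girth β g) (g1 : 1 < g) {v : V} {d e : D} (h : X.Two v d e) :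
    e ≠ β d := by
  intro he
  have := hg v [d] ⟨h.hd, by rw [← he]; exact h.he⟩ (List.isChain_singleton _) (by simp)
  simp at this
  omega

variable (X)

/-- an ordering of the edges of the image graph -/
structure Enum where
  R : ℕ
  o : ℕ → D
  idx : T → ℕ
  R_le : R ≤ Fintype.card T
  idx_lt : ∀ s, idx s < R
  on : ∀ s, X.dart s = o (idx s) ∨ X.dart s = β (o (idx s))
  mem : ∀ i < R, ∃ s, X.dart s = o i
  inj : ∀ i < R, ∀ j < R, o i = o j → i = j
  inj' : ∀ i < R, ∀ j < R, o i ≠ β (o j)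
  anti : ∀ i j, i ≤ j → j < R → X.m (o j) ≤ X.m (o i)
  good : ∀ v d e, X.Two v d e → ∃ i, i + 1 < R ∧ X.Two v (β (o i)) (o (i + 1))

lemma exists_enum [Nonempty T] {g : ℕ} (hg : Γ.Girth β g) (g1 : 1 < g) : Nonempty X.Enum := by
  have bb := X.isM.bb
  have h1 : ∀ s, ∃ f, (X.dart f = X.dart s ∨ X.dart f = β (X.dart s)) ∧
      ∀ t, (X.dart t = X.dart s ∨ X.dart t = β (X.dart s)) → X.num f ≤ X.num t := by
    intro s
    obtain ⟨f, f1, f2⟩ := exists_min_image
      ({t | X.dart t = X.dart s ∨ X.dart t = β (X.dart s)} : Finset T) X.num ⟨s, by simp⟩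
    exact ⟨f, by simpa using f1, fun t ht => f2 t (by simpa using ht)⟩
  choose fs fs1 fs2 using h1
  have fs3 : ∀ s t, (X.dart t = X.dart s ∨ X.dart t = β (X.dart s)) → fs t = fs s := by
    intro s t h
    apply X.numi
    apply le_antisymm
    · apply fs2
      have := fs1 s
      grind
    · apply fs2
      have := fs1 t
      grind
  have fs4 : ∀ s, fs (fs s) = fs s := fun s => fs3 _ _ (fs1 s)
  obtain ⟨B, hB⟩ : ∃ B, ∀ s, X.num s < B :=
    ⟨univ.sup X.num + 1, fun s => Nat.lt_succ_of_le (le_sup (f := X.num) (mem_univ s))⟩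
  have mle : ∀ d, X.m d ≤ Fintype.card T := fun d => by rw [X.m_eq]; exact card_le_univ _
  let κ : T → ℕ := fun s => X.num s + B * (Fintype.card T - X.m (X.dart s))
  have hκ : Function.Injective κ := by
    intro s t h
    have := congrArg (· % B) h
    simp only [κ, Nat.add_mul_mod_self_left, Nat.mod_eq_of_lt (hB _)] at this
    exact X.numi this
  let F : Finset T := {s | fs s = s}
  have hF : ∀ s, s ∈ F ↔ fs s = s := by simp [F]
  obtain ⟨e, ix, e1, e2, e3, e4⟩ := exists_ix F κ hκ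
  have e5 : ∀ s, fs s ∈ F := fun s => (hF _).2 (fs4 s)
  have key : ∀ v d d', X.Two v d d' → ∀ s t, s ∈ F → t ∈ F → (X.dart s = d ∨ X.dart s = β d) →
      (X.dart t = d' ∨ X.dart t = β d') → X.num s < X.num t →
      ∃ i, i + 1 < #F ∧ X.Two v (β (X.dart (e i))) (X.dart (e (i + 1))) := by
    intro v d d' h s t hs ht h1 h2 h3
    have h4 : ∀ u, (X.dart u = d' ∨ X.dart u = β d') → X.num t ≤ X.num u := by
      intro u hu
      rw [← (hF t).1 ht]
      apply fs2
      grind
    rcases h1 with h1 | h1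
    · obtain ⟨u, rfl⟩ := X.φ.surjective s
      have h5 := h.bwd h1
      have := h4 u (Or.inr h5.1)
      omega
    · have h5 := h.fwd h1
      have := h4 _ (Or.inl h5.1)
      have h6 : t = X.φ s := X.numi (by omega)
      subst h6
      have h7 : κ (X.φ s) = κ s + 1 := by
        simp only [κ]
        rw [h5.1, h5.2, h1, X.m_beta, h.m_eq]; ring
      have h8 := e4 s hs _ ht h7
      refine ⟨ix s, by rw [← h8]; exact (e2 _ ht).1, ?_⟩
      rw [← h8, (e2 _ ht).2, (e2 _ hs).2, h1, bb, h5.1]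
      exact h
  refine ⟨⟨#F, fun i => X.dart (e i), fun s => ix (fs s), card_le_univ _, fun s => (e2 _ (e5 s)).1,
    ?_, fun i _ => ⟨_, rfl⟩, ?_, ?_, ?_, ?_⟩⟩
  · intro s
    rw [(e2 _ (e5 s)).2]
    have := fs1 s
    grind
  · intro i hi j hj h
    have := fs3 _ _ (Or.inl h)
    rw [(hF _).1 (e1 i hi).1, (hF _).1 (e1 j hj).1] at this
    rw [← (e1 i hi).2, this, (e1 j hj).2]
  · intro i hi j hj h
    have := fs3 _ _ (Or.inr h)
    rw [(hF _).1 (e1 i hi).1, (hF _).1 (e1 j hj).1] at this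
    rw [this] at h
    exact X.isM.ne _ h.symm
  · intro i j hij hj
    by_contra hlt
    have h1 : κ (e j) < κ (e i) := by
      have a1 := mle (X.dart (e j))
      have a2 : Fintype.card T - X.m (X.dart (e j)) + 1 ≤ Fintype.card T - X.m (X.dart (e i)) := by
        omega
      have a3 := Nat.mul_le_mul_left B a2
      have := hB (e j)
      simp only [κ]
      rw [Nat.mul_succ] at a3
      omega
    have := e3 _ (e1 j hj).1 _ (e1 i (by omega)).1 h1
    rw [(e1 j hj).2, (e1 i (by omega)).2] at this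
    omega
  · intro v d d' h
    obtain ⟨s, hs⟩ := X.mem_HD.1 h.md
    obtain ⟨t, ht⟩ := X.mem_HD.1 h.me
    have a1 := fs1 s
    have a2 := fs1 t
    have a3 : X.dart (fs s) = d ∨ X.dart (fs s) = β d := by grind
    have a4 : X.dart (fs t) = d' ∨ X.dart (fs t) = β d' := by grind
    have a5 : fs s ≠ fs t := by
      intro h'
      have := h.ne
      have := h.noloop hg g1
      grind
    rcases lt_or_gt_of_ne (fun h => a5 (X.numi h)) with h' | h'
    · exact key v d d' h _ _ (e5 s) (e5 t) a3 a4 h'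
    · exact key v d' d h.symm _ _ (e5 t) (e5 s) a4 a3 h'

end LSys

end Crest.Agent.GSC
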