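import Crest.Agent.GSC.Level2

/-! The deterministic level-set argument, part 3: modes. -/

set_option autoImplicit false
set_option linter.unusedSectionVars false

namespace Crest.Agent.GSC

open Finset Classical

variable {S V D C : Type} [Fintype D] [DecidableEq C] {Γ : Design S V D C} {β : D → D}

noncomputable def pick {α : Type} (A : Set α) : Option α :=
  if h : A.Nonempty then some h.some else none

lemma pick_some {α : Type} {A : Set α} {x : α} (h : pick A = some x) : x ∈ A := by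
  unfold pick at h
  split_ifs at h with h'
  cases h
  exact h'.some_mem

lemma pick_none {α : Type} {A : Set α} (h : pick A = none) (x : α) : x ∉ A := by
  intro hx
  unfold pick at h
  rw [dif_pos ⟨x, hx⟩] at h
  cases h

namespace LSys
variable {xs : V} {T : Type} [Fintype T] {X : LSys Γ β xs T}

namespace Enum
variable (N : X.Enum)

lemma idx1 {s : T} {i : ℕ} (hi : i < N.R) (h : X.dart s = N.o i) : N.idx s = i := by
  rcases N.on s with h' | h'
  · exact N.inj _ (N.idx_lt s) _ hi (h'.symm.trans h)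
  · exact absurd (h.symm.trans h') (N.inj' _ hi _ (N.idx_lt s))

lemma idx2 {s : T} {i : ℕ} (hi : i < N.R) (h : X.dart s = β (N.o i)) : N.idx s = i := by
  rcases N.on s with h' | h'
  · exact absurd (h'.symm.trans h) (N.inj' _ (N.idx_lt s) _ hi)
  · exact N.inj _ (N.idx_lt s) _ hi (X.isM.injL (h'.symm.trans h))

lemma m_o {i : ℕ} (hi : i < N.R) : X.m (N.o i) = #{s | N.idx s = i} := by
  rw [X.m_eq]
  congr 1
  ext s
  simp only [mem_filter, mem_univ, true_and]
  exact ⟨fun h => h.elim (N.idx1 hi) (N.idx2 hi), fun h => h ▸ N.on s⟩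

/-- the side runs along the orientation -/
def sg (s : T) : Prop := X.dart s = N.o (N.idx s)

lemma sg1 {s : T} {i : ℕ} (hi : i < N.R) (h : X.dart s = N.o i) : N.idx s = i ∧ N.sg s :=
  ⟨N.idx1 hi h, by unfold sg; rw [N.idx1 hi h, h]⟩

lemma sg2 {s : T} {i : ℕ} (hi : i < N.R) (h : X.dart s = β (N.o i)) : N.idx s = i ∧ ¬ N.sg s :=
  ⟨N.idx2 hi h, by unfold sg; rw [N.idx2 hi h, h]; exact X.isM.ne _⟩

lemma nsg {s : T} (h : ¬ N.sg s) : X.dart s = β (N.o (N.idx s)) := (N.on s).resolve_left h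

lemma step {s : T} (h : X.Good (Γ.src (X.dart (X.φ s)))) :
    (N.sg s ∧ N.sg (X.φ s) ∧ N.idx (X.φ s) = N.idx s + 1) ∨
      (¬ N.sg s ∧ ¬ N.sg (X.φ s) ∧ N.idx s = N.idx (X.φ s) + 1) := by
  obtain ⟨d, e, h1⟩ := h.two rfl
  obtain ⟨i, hi, h2⟩ := N.good _ d e h1
  rcases h2.all _ (X.dart_mem _) rfl with h3 | h3
  · have a := N.sg2 (by omega) (h2.bwd h3).1
    have b := N.sg2 (by omega) h3
    exact Or.inr ⟨a.2, b.2, by omega⟩
  · have h4 := (h2.symm.bwd h3).1
    rw [X.isM.bb] at h4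
    have a := N.sg1 (by omega) h4
    have b := N.sg1 (by omega) h3
    exact Or.inl ⟨a.2, b.2, by omega⟩

noncomputable def mu (s t : T) : Bool × ℕ :=
  if N.sg s ↔ N.sg t then (false, N.idx s + N.idx t) else (true, N.idx s - N.idx t)

variable (io : T → Option T)

def Ms (s : T) : Set (Bool × ℕ) := {x | ∃ t, io s = some t ∧ N.idx t < N.idx s ∧ x = N.mu s t}

def Mi (i : ℕ) : Set (Bool × ℕ) := {x | ∃ s, N.idx s = i ∧ x ∈ N.Ms io s}

variable {io}

variable (hio : ∀ s t, io s = some t → io t = some s ∧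
  Γ.lab (X.dart t) = bar (Γ.lab (X.dart s)) ∧ X.dart t ≠ β (X.dart s))
include hio

lemma idx_ne {s t : T} (h : io s = some t) : N.idx s ≠ N.idx t := by
  intro e
  have h1 := hio s t h
  have h2 := N.on s
  have h3 := N.on t
  have h4 := X.isM.bb
  have h5 := bar_ne (Γ.lab (X.dart s))
  rw [← e] at h3
  grind

lemma Ms_step {s : T} (h : X.Good (Γ.src (X.dart (X.φ s))))
    (hr : (io s = none ∧ io (X.φ s) = none) ∨ ∃ t, io (X.φ s) = some t ∧ io s = some (X.φ t) ∧
      X.Good (Γ.src (X.dart (X.φ t)))) : N.Ms io (X.φ s) = N.Ms io s := by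
  rcases hr with ⟨h1, h2⟩ | ⟨t, h1, h2, h3⟩
  · simp [Ms, h1, h2]
  · have a1 := N.step h
    have a2 := N.step h3
    have a3 := N.idx_ne hio h1
    have a4 := N.idx_ne hio h2
    have a5 : X.dart t ≠ X.dart s := by
      intro e
      have b1 := h.c1 (h.c2 rfl)
      have b2 := (hio _ _ h1).2.1
      apply b1.2.1
      apply Γ.inj _ _ (h.c2 rfl).symm
      rw [X.isM.labL, ← e, b2, bar_bar]
    have a6 : (N.sg s ↔ N.sg t) → N.idx s ≠ N.idx t := by
      intro e1 e2
      apply a5
      by_cases c : N.sg s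
      · have c' := e1.1 c
        unfold sg at c c'
        rw [c, c', e2]
      · rw [N.nsg c, N.nsg (fun c' => c (e1.2 c')), e2]
    have a7 : N.mu (X.φ s) t = N.mu s (X.φ t) ∧
        (N.idx t < N.idx (X.φ s) ↔ N.idx (X.φ t) < N.idx s) := by
      unfold mu
      rcases a1 with ⟨b1, b2, b3⟩ | ⟨b1, b2, b3⟩ <;> rcases a2 with ⟨c1, c2, c3⟩ | ⟨c1, c2, c3⟩ <;>
        simp only [b1, b2, c1, c2, iff_self, if_true, false_iff, not_true, if_false,
          iff_false, Prod.mk.injEq, true_and, forall_const, false_imp_iff] at a6 ⊢ <;> omega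
    ext x
    simp only [Ms, h1, h2, Option.some.injEq, exists_eq_left', Set.mem_ofPred_eq, a7.1, a7.2]

lemma Mi_step {v : V} {i : ℕ} (hi : i + 1 < N.R) (h : X.Two v (β (N.o i)) (N.o (i + 1)))
    (hr : ∀ s, Γ.src (X.dart (X.φ s)) = v → (io s = none ∧ io (X.φ s) = none) ∨
      ∃ t, io (X.φ s) = some t ∧ io s = some (X.φ t) ∧ X.Good (Γ.src (X.dart (X.φ t)))) :
    N.Mi io (i + 1) = N.Mi io i := by
  have key : ∀ s, Γ.src (X.dart (X.φ s)) = v → N.Ms io (X.φ s) = N.Ms io s :=
    fun s hs => N.Ms_step hio (hs ▸ h.good) (hr s hs)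
  have bb := X.isM.bb
  ext x
  constructor
  · rintro ⟨s, h1, h2⟩
    rcases h1 ▸ N.on s with h3 | h3
    · obtain ⟨u, rfl⟩ := X.φ.surjective s
      have h4 := (h.symm.bwd h3).1
      rw [bb] at h4
      exact ⟨u, N.idx1 (by omega) h4, key u (h3 ▸ h.he) ▸ h2⟩
    · have h4 := (h.symm.fwd h3).1
      exact ⟨X.φ s, N.idx2 (by omega) h4, key s (h4 ▸ h.hd) ▸ h2⟩
  · rintro ⟨s, h1, h2⟩
    rcases h1 ▸ N.on s with h3 | h3
    · have h4 := (h.fwd (t := s) (by rw [bb, h3])).1
      exact ⟨X.φ s, N.idx1 hi h4, key s (h4 ▸ h.he) ▸ h2⟩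
    · obtain ⟨u, rfl⟩ := X.φ.surjective s
      have h4 := (h.bwd h3).1
      exact ⟨u, N.idx2 hi h4, key u (h3 ▸ h.hd) ▸ h2⟩

lemma Mi_true {i c : ℕ} (h : (true, c) ∈ N.Mi io i) :
    1 ≤ c ∧ c ≤ i ∧ Γ.lab (N.o i) = Γ.lab (N.o (i - c)) := by
  obtain ⟨s, rfl, t, h1, h2, h3⟩ := h
  unfold mu at h3
  split_ifs at h3 with h4
  · simp at h3
  · simp only [Prod.mk.injEq, true_and] at h3
    refine ⟨by omega, by omega, ?_⟩
    rw [show N.idx s - c = N.idx t by omega]
    have h5 := (hio s t h1).2.1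
    by_cases c : N.sg s
    · have c' : ¬ N.sg t := fun c' => h4 ⟨fun _ => c', fun _ => c⟩
      rw [N.nsg c', c, X.isM.labL] at h5
      exact (bar_injective h5).symm
    · have c' : N.sg t := by tauto
      rw [N.nsg c, c', X.isM.labL, bar_bar] at h5
      exact h5.symm

lemma Mi_false {i c : ℕ} (h : (false, c) ∈ N.Mi io i) :
    i ≤ c ∧ c - i < i ∧ Γ.lab (N.o i) = bar (Γ.lab (N.o (c - i))) := by
  obtain ⟨s, rfl, t, h1, h2, h3⟩ := h
  unfold mu at h3
  split_ifs at h3 with h4
  · simp only [Prod.mk.injEq, true_and] at h3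
    refine ⟨by omega, by omega, ?_⟩
    rw [show c - N.idx s = N.idx t by omega]
    have h5 := (hio s t h1).2.1
    by_cases c : N.sg s
    · rw [h4.1 c, c] at h5
      rw [h5, bar_bar]
    · rw [N.nsg c, N.nsg (fun c' => c (h4.2 c')), X.isM.labL, X.isM.labL, bar_bar] at h5
      exact h5.symm
  · simp at h3

omit hio in
lemma Mi_le {i c : ℕ} {b : Bool} (h : (b, c) ∈ N.Mi io i) : c ≤ 2 * N.R := by
  obtain ⟨s, rfl, t, h1, h2, h3⟩ := h
  have := N.idx_lt s
  unfold mu at h3
  split_ifs at h3 with h4 <;> simp only [Prod.mk.injEq] at h3 <;> omega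

/-- pairing of free internal sides with determined sides -/
lemma credit (om : S × Bool → ℝ) (hom : ∀ a, om (bar a) = om a) {c A r : ℝ}
    (hc : ∀ a, c ≤ om a) (hA : ∀ a, om a ≤ A) (hr : 2 * c ≤ r) (c0 : 0 ≤ c) :
    c * Fintype.card T - A * #{s | io s = none} ≤
      ∑ s, (if pick (N.Mi io (N.idx s)) = none then - om (Γ.lab (X.dart s)) + r
        else om (Γ.lab (X.dart s))) := by
  let fr : T → Prop := fun s => pick (N.Mi io (N.idx s)) = none
  let ω : T → ℝ := fun s => om (Γ.lab (X.dart s)) - c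
  have h1 : ∑ s ∈ {s | fr s ∧ io s ≠ none}, ω s ≤ ∑ s ∈ {s | ¬ fr s}, ω s := by
    have hi : Set.InjOn (fun s => (io s).getD s) ({s | fr s ∧ io s ≠ none} : Finset T) := by
      intro s hs t ht h
      simp only [coe_filter, mem_univ, true_and, Set.mem_ofPred_eq] at hs ht
      obtain ⟨s', h1⟩ := Option.ne_none_iff_exists'.1 hs.2
      obtain ⟨t', h2⟩ := Option.ne_none_iff_exists'.1 ht.2
      simp only [h1, h2, Option.getD_some] at h
      have a1 := (hio _ _ h1).1
      have a2 := (hio _ _ h2).1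
      rw [h, a2] at a1
      exact (Option.some.inj a1).symm
    calc _ = ∑ s ∈ {s | fr s ∧ io s ≠ none}, ω ((io s).getD s) := by
          refine sum_congr rfl fun s hs => ?_
          simp only [mem_filter, mem_univ, true_and] at hs
          obtain ⟨s', h1⟩ := Option.ne_none_iff_exists'.1 hs.2
          simp only [h1, Option.getD_some, ω, (hio _ _ h1).2.1, hom]
      _ = ∑ s ∈ ({s | fr s ∧ io s ≠ none} : Finset T).image (fun s => (io s).getD s), ω s :=
          (sum_image hi).symm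
      _ ≤ _ := by
          apply sum_le_sum_of_subset_of_nonneg
          · intro t ht
            obtain ⟨s, hs, rfl⟩ := mem_image.1 ht
            simp only [mem_filter, mem_univ, true_and] at hs ⊢
            obtain ⟨s', h1⟩ := Option.ne_none_iff_exists'.1 hs.2
            simp only [h1, Option.getD_some]
            intro h2
            rcases lt_or_gt_of_ne (N.idx_ne hio h1) with h3 | h3
            · exact pick_none h2 _ ⟨s', rfl, s, (hio _ _ h1).1, h3, rfl⟩
            · exact pick_none hs.1 _ ⟨s, rfl, s', h1, h3, rfl⟩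
          · intro s _ _
            simp only [ω]
            linarith [hc (Γ.lab (X.dart s))]
  rw [sum_filter, sum_filter] at h1
  rw [card_filter, ← card_univ, card_eq_sum_ones]
  push_cast
  rw [mul_sum, mul_sum, ← sub_nonneg] at *
  rw [← sum_sub_distrib] at h1
  rw [← sum_sub_distrib, ← sum_sub_distrib]
  refine h1.trans (sum_le_sum fun s _ => ?_)
  have b1 := hc (Γ.lab (X.dart s))
  have b2 := hA (Γ.lab (X.dart s))
  by_cases c1 : pick (N.Mi io (N.idx s)) = none <;> by_cases c2 : io s = none <;>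
    simp [fr, ω, c1, c2] <;> linarith

end Enum

end LSys

end Crest.Agent.GSC
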