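import Crest.Agent.GSC.Rand
import Crest.Agent.GSC.Level
import Crest.Agent.GSC.Kernel

/-! The probabilistic part. -/

namespace Crest.Agent.GSC

theorem randomPart : RandomPart := randomPart_of' kernelStmt levelStmt

end Crest.Agent.GSC
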