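import Crest.Agent.GSC.Core
import Crest.Agent.GSC.RandAll

/-! The core theorem on random graphical presentations. -/

namespace Crest.Agent.GSC

theorem coreStmt : CoreStmt := core_of randomPart

end Crest.Agent.GSC
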