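import Crest.Agent.GSC.Iface

/-! Group elements attached to vertices, and the dart-pair cancellation lemma. -/

set_option autoImplicit false

namespace Crest.Agent.GSC

open Finset

namespace Design

variable {S V D C : Type} [Fintype D] [DecidableEq C] (Γ : Design S V D C) {β : D → D}

theorem pr_path_append {x y z : V} {p q : List D} (hp : Γ.Path β x p y) (hq : Γ.Path β y q z) :
    Γ.Path β x (p ++ q) z := by
  induction p generalizing x with
  | nil => cases hp; exact hq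
  | cons d p ih => exact ⟨hp.1, ih hp.2⟩

theorem pr_path_rev (hM : Γ.IsM β) {x y : V} {p : List D} (hp : Γ.Path β x p y) :
    Γ.Path β y (p.reverse.map β) x := by
  induction p generalizing x with
  | nil => cases hp; rfl
  | cons d p ih =>
    rw [List.reverse_cons, List.map_append]
    refine Γ.pr_path_append (ih hp.2) ⟨rfl, ?_⟩
    rw [(hM d).1]
    exact hp.1

theorem pr_ev_append (u v : List (S × Bool)) : Γ.ev β (u ++ v) = Γ.ev β u * Γ.ev β v := by
  rw [ev, ev, ev, ← map_mul, FreeGroup.mul_mk]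

theorem pr_ev_nil : Γ.ev β [] = 1 := by
  rw [ev, ← FreeGroup.one_eq_mk, map_one]

theorem pr_ev_rev (hM : Γ.IsM β) (p : List D) :
    Γ.ev β ((p.reverse.map β).map Γ.lab) = (Γ.ev β (p.map Γ.lab))⁻¹ := by
  rw [ev, ev, ← map_inv, FreeGroup.inv_mk]
  congr 2
  rw [FreeGroup.invRev, List.map_map, List.map_map, List.map_reverse]
  congr 1
  refine List.map_congr_left fun d _ => ?_
  exact Γ.lab_cl d (β d) (hM d).2

theorem pr_ev_closed {x : V} {p : List D} (hp : Γ.Path β x p x) : Γ.ev β (p.map Γ.lab) = 1 :=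
  PresentedGroup.one_of_mem ⟨x, p, hp, rfl⟩

/-- the component of a vertex -/
def Comp (β : D → D) (x0 x : V) : Prop := ∃ p, Γ.Path β x0 p x

theorem comp_refl (x0 : V) : Γ.Comp β x0 x0 := ⟨[], rfl⟩

theorem comp_step {x0 : V} {d : D} (h : Γ.Comp β x0 (Γ.src d)) : Γ.Comp β x0 (Γ.src (β d)) := by
  obtain ⟨p, hp⟩ := h
  exact ⟨p ++ [d], Γ.pr_path_append hp ⟨rfl, rfl⟩⟩

/-- an invariant of the matching is constant on components -/
theorem comp_inv {ι : Type*} (f : V → ι) (hf : ∀ d, f (Γ.src (β d)) = f (Γ.src d)) {x0 x : V}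
    (h : Γ.Comp β x0 x) : f x = f x0 := by
  obtain ⟨p, hp⟩ := h
  induction p generalizing x0 with
  | nil => cases hp; rfl
  | cons d p ih => rw [ih hp.2, hf, hp.1]

theorem exists_pi (hM : Γ.IsM β) (x0 : V) : ∃ π : V → Γ.Grp β,
    (∀ x p, Γ.Path β x0 p x → π x = Γ.ev β (p.map Γ.lab)) ∧
    ∀ d, Γ.Comp β x0 (Γ.src d) → π (Γ.src (β d)) = π (Γ.src d) * Γ.ev β [Γ.lab d] := by
  classical
  have h1 : ∀ x p, Γ.Path β x0 p x →
      (if h : Γ.Comp β x0 x then Γ.ev β (h.choose.map Γ.lab) else 1) = Γ.ev β (p.map Γ.lab) := by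
    intro x p hp
    have h : Γ.Comp β x0 x := ⟨p, hp⟩
    rw [dif_pos h]
    have := Γ.pr_ev_closed (Γ.pr_path_append h.choose_spec (Γ.pr_path_rev hM hp))
    rw [List.map_append, pr_ev_append, Γ.pr_ev_rev hM, mul_inv_eq_one] at this
    exact this
  refine ⟨_, h1, fun d ⟨p, hp⟩ => ?_⟩
  rw [h1 _ _ hp, h1 _ _ (Γ.pr_path_append hp (q := [d]) ⟨rfl, rfl⟩), List.map_append,
    pr_ev_append]
  rfl

open Classical in
/-- the pairing of two vertices -/
noncomputable def om {K : Type} [Field K] (A : D → K) (x y : V) : K :=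
  ∑ d ∈ univ.filter (fun d => Γ.src d = x), ∑ e ∈ univ.filter (fun e => Γ.src e = y),
    if Γ.lab d = Γ.lab e then A d * A e else 0

open Classical in
theorem pair_sum [Fintype V] (hM : Γ.IsM β) {K G : Type} [Field K] [Group G] (h2 : (2 : K) ≠ 0)
    (x0 y0 : V) (π1 π2 : V → G) (γ : S × Bool → G)
    (h1 : ∀ d, Γ.Comp β x0 (Γ.src d) → π1 (Γ.src (β d)) = π1 (Γ.src d) * γ (Γ.lab d))
    (h1' : ∀ d, Γ.Comp β y0 (Γ.src d) → π2 (Γ.src (β d)) = π2 (Γ.src d) * γ (Γ.lab d))
    (A : D → K)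
    (hA : ∀ d e, Γ.Comp β x0 (Γ.src d) → Γ.Comp β y0 (Γ.src e) → Γ.lab d = Γ.lab e →
      A (β d) * A (β e) = - (A d * A e)) :
    ∑ x ∈ univ.filter (Γ.Comp β x0), ∑ y ∈ univ.filter (Γ.Comp β y0),
      MonoidAlgebra.single (π1 x * (π2 y)⁻¹) (Γ.om A x y) = 0 := by
  let F : D × D → MonoidAlgebra K G := fun z =>
    if Γ.Comp β x0 (Γ.src z.1) ∧ Γ.Comp β y0 (Γ.src z.2) ∧ Γ.lab z.1 = Γ.lab z.2 then
      MonoidAlgebra.single (π1 (Γ.src z.1) * (π2 (Γ.src z.2))⁻¹) (A z.1 * A z.2) else 0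
  have hββ : Function.Involutive β := fun d => (hM d).1
  have hcomp : ∀ x d, Γ.Comp β x (Γ.src (β d)) ↔ Γ.Comp β x (Γ.src d) := fun x d =>
    ⟨fun h => by simpa [hββ d] using Γ.comp_step h, Γ.comp_step⟩
  have hlab : ∀ d, Γ.lab (β d) = bar (Γ.lab d) := fun d => Γ.lab_cl d (β d) (hM d).2
  have hF : ∀ z : D × D, F (β z.1, β z.2) = - F z := by
    rintro ⟨d, e⟩
    simp only [F, hcomp, hlab, bar_injective.eq_iff]
    split_ifs with h
    · rw [h1 d h.1, h1' e h.2.1, hA d e h.1 h.2.1 h.2.2, h.2.2, MonoidAlgebra.single_neg]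
      congr 2
      group
    · simp
  have hsum : ∑ z, F z = 0 := by
    have e1 : ∑ z, F z = ∑ z : D × D, F (β z.1, β z.2) :=
      (Equiv.sum_comp (Equiv.prodCongr hββ.toPerm hββ.toPerm) F).symm
    simp only [hF, Finset.sum_neg_distrib] at e1
    have e2 : (2 : K) • ∑ z, F z = 0 := by
      rw [two_smul]
      nth_rewrite 1 [e1]
      exact neg_add_cancel _
    exact (smul_eq_zero.1 e2).resolve_left h2
  rw [← hsum, Fintype.sum_prod_type]
  symm
  rw [← Finset.sum_fiberwise (s := univ) (g := Γ.src), Finset.sum_filter (p := Γ.Comp β x0)]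
  refine Finset.sum_congr rfl fun x _ => ?_
  split_ifs with hx
  swap
  · refine Finset.sum_eq_zero fun d hd => Finset.sum_eq_zero fun e _ => ?_
    simp only [F]
    rw [if_neg]
    rw [(mem_filter.1 hd).2]
    exact fun h => hx h.1
  rw [Finset.sum_comm, ← Finset.sum_fiberwise (s := univ) (g := Γ.src),
    Finset.sum_filter (p := Γ.Comp β y0)]
  refine Finset.sum_congr rfl fun y _ => ?_
  split_ifs with hy
  swap
  · refine Finset.sum_eq_zero fun e he => Finset.sum_eq_zero fun d _ => ?_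
    simp only [F]
    rw [if_neg]
    rw [(mem_filter.1 he).2]
    exact fun h => hy h.2.1
  rw [Finset.sum_comm, om, ← MonoidAlgebra.singleAddHom_apply, map_sum]
  refine Finset.sum_congr rfl fun d hd => ?_
  rw [map_sum]
  refine Finset.sum_congr rfl fun e he => ?_
  simp only [F, (mem_filter.1 hd).2, (mem_filter.1 he).2, hx, hy, true_and]
  split_ifs <;> simp

open Classical in
/-- a one-sided unit which is a left zero divisor -/
theorem not_df [Fintype V] (hM : Γ.IsM β) {K : Type} [Field K] (h2 : (2 : K) ≠ 0)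
    (x0 y0 z0 : V) (hemb : ∀ y p, Γ.Path β z0 p y → Γ.ev β (p.map Γ.lab) = 1 → y = z0)
    (A : D → K) (α : V → K) (hz0 : α z0 ≠ 0)
    (hA : ∀ d e, Γ.Comp β x0 (Γ.src d) → Γ.Comp β y0 (Γ.src e) ∨ Γ.Comp β z0 (Γ.src e) →
      Γ.lab d = Γ.lab e → A (β d) * A (β e) = - (A d * A e))
    (hXY : ∀ x y, Γ.Comp β x0 x → Γ.Comp β y0 y →
      Γ.om A x y = α x * α y - if x = x0 ∧ y = y0 then 1 else 0)
    (hXZ : ∀ x z, Γ.Comp β x0 x → Γ.Comp β z0 z → Γ.om A x z = α x * α z) :
    ∃ a b : MonoidAlgebra K (Γ.Grp β), a * b = 1 ∧ b * a ≠ 1 := by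
  obtain ⟨π1, p1, q1⟩ := Γ.exists_pi hM x0
  obtain ⟨π2, p2, q2⟩ := Γ.exists_pi hM y0
  obtain ⟨π3, p3, q3⟩ := Γ.exists_pi hM z0
  have s12 := Γ.pair_sum hM h2 x0 y0 π1 π2 (fun s => Γ.ev β [s]) q1 q2 A
    fun d e hd he => hA d e hd (Or.inl he)
  have s13 := Γ.pair_sum hM h2 x0 z0 π1 π3 (fun s => Γ.ev β [s]) q1 q3 A
    fun d e hd he => hA d e hd (Or.inr he)
  have e1 : π1 x0 = 1 := (p1 x0 [] rfl).trans Γ.pr_ev_nil
  have e2 : π2 y0 = 1 := (p2 y0 [] rfl).trans Γ.pr_ev_nil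
  have e3 : π3 z0 = 1 := (p3 z0 [] rfl).trans Γ.pr_ev_nil
  set a : MonoidAlgebra K (Γ.Grp β) :=
    ∑ x ∈ univ.filter (Γ.Comp β x0), MonoidAlgebra.single (π1 x) (α x) with ha
  set b : MonoidAlgebra K (Γ.Grp β) :=
    ∑ y ∈ univ.filter (Γ.Comp β y0), MonoidAlgebra.single (π2 y)⁻¹ (α y) with hb
  set c : MonoidAlgebra K (Γ.Grp β) :=
    ∑ y ∈ univ.filter (Γ.Comp β z0), MonoidAlgebra.single (π3 y)⁻¹ (α y) with hc
  have hac : a * c = 0 := by
    rw [← s13, ha, hc, Finset.sum_mul_sum]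
    refine Finset.sum_congr rfl fun x hx => Finset.sum_congr rfl fun y hy => ?_
    rw [MonoidAlgebra.single_mul_single, hXZ x y (mem_filter.1 hx).2 (mem_filter.1 hy).2]
  have hab : a * b = 1 := by
    have : a * b - 1 = 0 := by
      rw [← s12, ha, hb, Finset.sum_mul_sum]
      have e : (1 : MonoidAlgebra K (Γ.Grp β)) = ∑ x ∈ univ.filter (Γ.Comp β x0),
          ∑ y ∈ univ.filter (Γ.Comp β y0), MonoidAlgebra.single (π1 x * (π2 y)⁻¹)
            (if x = x0 ∧ y = y0 then (1:K) else 0) := by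
        rw [Finset.sum_eq_single x0, Finset.sum_eq_single y0]
        · simp [e1, e2, MonoidAlgebra.one_def]
        · intro y _ hy; simp [hy]
        · intro h; exact (h (by simpa using Γ.comp_refl y0)).elim
        · intro x _ hx; simp [hx]
        · intro h; exact (h (by simpa using Γ.comp_refl x0)).elim
      rw [e, ← Finset.sum_sub_distrib]
      refine Finset.sum_congr rfl fun x hx => ?_
      rw [← Finset.sum_sub_distrib]
      refine Finset.sum_congr rfl fun y hy => ?_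
      rw [MonoidAlgebra.single_mul_single, hXY x y (mem_filter.1 hx).2 (mem_filter.1 hy).2,
        MonoidAlgebra.single_sub]
    exact sub_eq_zero.1 this
  refine ⟨a, b, hab, fun hba => hz0 ?_⟩
  have hc0 : c = 0 := by rw [← one_mul c, ← hba, mul_assoc, hac, mul_zero]
  have := congrArg (fun u => u.coeff 1) hc0
  simp only [hc, MonoidAlgebra.coeff_sum, Finsupp.finsetSum_apply, MonoidAlgebra.coeff_zero,
    Finsupp.zero_apply] at this
  rw [Finset.sum_eq_single z0] at this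
  · simpa [e3] using this
  · intro y hy hne
    obtain ⟨p, hp⟩ := (mem_filter.1 hy).2
    rw [MonoidAlgebra.coeff_single, Finsupp.single_apply, if_neg]
    intro h
    exact hne (hemb y p hp (by rw [← p3 y p hp]; exact inv_eq_one.1 h))
  · intro h; exact (h (by simpa using Γ.comp_refl z0)).elim

end Design

end Crest.Agent.GSC
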