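import Crest.Agent.GSC.Cut

/-! A mod two length-area inequality: some pair of opposite quarters is close. -/

set_option autoImplicit false

namespace Crest.Agent.GSC

open FreeGroup (mk of lift invRev mul_mk inv_mk)

variable {E ι : Type}

theorem pth_sum {φ : E × Bool → E × Bool} (F : E × Bool → ZMod 2) :
    ∀ {l : List (E × Bool)} {a b : E × Bool}, Pth φ a l b →
      (l.map fun x => F x + F (φ x)).sum = F a + F b
  | [], a, b, h => by
    obtain rfl : a = b := h
    simp [CharTwo.add_self_eq_zero]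
  | x :: l, a, b, h => by
    obtain rfl := h.head
    rw [List.map_cons, List.sum_cons, pth_sum F h.2, add_assoc, ← add_assoc (F (φ a)),
      CharTwo.add_self_eq_zero, zero_add]

theorem sameCycle_bar (φ : Equiv.Perm (E × Bool)) (x : E × Bool) :
    (nu φ).SameCycle (bar x) (φ x) := ⟨1, by simp⟩

theorem parity {wd : ι → List (E × Bool)} {φ : Equiv.Perm (E × Bool)} {fs : List ι}
    {h1 h2 h3 h4 : E × Bool} {β1 β2 β3 β4 : List (E × Bool)}
    (hS : Sys wd φ (h1 :: β1 ++ (h2 :: β2 ++ (h3 :: β3 ++ h4 :: β4))) fs)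
    (hb : ∀ x ∈ h1 :: β1 ++ (h2 :: β2 ++ (h3 :: β3 ++ h4 :: β4)),
      bar x ∉ h1 :: β1 ++ (h2 :: β2 ++ (h3 :: β3 ++ h4 :: β4)))
    {D : ℕ} (hD : fs.length < D * D) :
    (∃ σ ∈ h1 :: β1 ++ [h2], ∃ τ ∈ h3 :: β3 ++ [h4], Near wd φ fs D σ τ) ∨
      ∃ σ ∈ h2 :: β2 ++ [h3], ∃ τ ∈ h4 :: β4 ++ [h1], Near wd φ fs D σ τ := by
  classical
  by_contra hcon
  rw [not_or] at hcon
  obtain ⟨c1, c2⟩ := hcon
  let Fl : List (E × Bool) → ℕ → E × Bool → Prop := fun A t x => ∃ σ ∈ A, Near wd φ fs t σ x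
  let Cr : List (E × Bool) → ℕ → ι → Prop := fun A t f =>
    ∃ x ∈ wd f, ∃ y ∈ wd f, Fl A t x ∧ ¬ Fl A t y
  have cr_uniq : ∀ A t t' f, f ∈ fs → Cr A t f → Cr A t' f → t = t' := by
    have : ∀ A t t' f, f ∈ fs → Cr A t f → Cr A t' f → ¬ t < t' := by
      rintro A t t' f hf ⟨x, hx, -, -, ⟨σ, hσ, hn⟩, -⟩ ⟨-, -, y, hy, -, hy'⟩ hlt
      exact hy' ⟨σ, hσ, (hn.face hf hx hy).mono hlt⟩
    intro A t t' f hf h h'
    exact le_antisymm (not_lt.1 (this A t' t f hf h' h)) (not_lt.1 (this A t t' f hf h h'))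
  have fl_bar : ∀ A t x, Fl A t (φ x) ↔ Fl A t (bar x) := fun A t x =>
    ⟨fun ⟨σ, hσ, hn⟩ => ⟨σ, hσ, hn.right (sameCycle_bar φ x).symm⟩,
     fun ⟨σ, hσ, hn⟩ => ⟨σ, hσ, hn.right (sameCycle_bar φ x)⟩⟩
  set A1 := h1 :: β1 ++ [h2] with hA1
  set A2 := h2 :: β2 ++ [h3] with hA2
  obtain ⟨t, ht, s, hs, hts⟩ : ∃ t < D, ∃ s < D, ∀ f ∈ fs, Cr A1 t f → ¬ Cr A2 s f := by
    by_contra hc
    push Not at hc
    have hD0 : 0 < D := Nat.pos_of_ne_zero (by rintro rfl; simp at hD)
    have : Nonempty ι := ⟨(hc 0 hD0 0 hD0).choose⟩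
    choose! g hg using hc
    have := Finset.card_le_card_of_injOn (s := Finset.range D ×ˢ Finset.range D)
      (t := fs.toFinset) (fun p => g p.1 p.2) ?_ ?_
    · rw [Finset.card_product, Finset.card_range] at this
      have := List.toFinset_card_le fs
      omega
    · intro p hp
      simp only [Finset.coe_product, Finset.coe_range, Set.mem_prod, Set.mem_Iio] at hp
      simpa using (hg p.1 hp.1 p.2 hp.2).1
    · intro p hp q hq e
      simp only [Finset.coe_product, Finset.coe_range, Set.mem_prod, Set.mem_Iio] at hp hq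
      have k1 := hg p.1 hp.1 p.2 hp.2
      have k2 := hg q.1 hq.1 q.2 hq.2
      simp only at e
      rw [← e] at k2
      exact Prod.ext (cr_uniq _ _ _ _ k1.1 k1.2.1 k2.2.1) (cr_uniq _ _ _ _ k1.1 k1.2.2 k2.2.2)
  let F : E × Bool → ZMod 2 := fun x => if Fl A1 t x then 1 else 0
  let Gd : E × Bool → ZMod 2 := fun x => if Fl A2 s x then 1 else 0
  have hF : ∀ x, F (φ x) = F (bar x) := fun x => if_congr (fl_bar _ _ x) rfl rfl
  have hG : ∀ x, Gd (φ x) = Gd (bar x) := fun x => if_congr (fl_bar _ _ x) rfl rfl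
  have hFc : ∀ f, ¬ Cr A1 t f → ∀ x ∈ wd f, ∀ y ∈ wd f, F x = F y := by
    intro f hf x hx y hy
    refine if_congr ⟨fun h => ?_, fun h => ?_⟩ rfl rfl
    · by_contra h'; exact hf ⟨x, hx, y, hy, h, h'⟩
    · by_contra h'; exact hf ⟨y, hy, x, hx, h, h'⟩
  have hGc : ∀ f, ¬ Cr A2 s f → ∀ x ∈ wd f, ∀ y ∈ wd f, Gd x = Gd y := by
    intro f hf x hx y hy
    refine if_congr ⟨fun h => ?_, fun h => ?_⟩ rfl rfl
    · by_contra h'; exact hf ⟨x, hx, y, hy, h, h'⟩
    · by_contra h'; exact hf ⟨y, hy, x, hx, h, h'⟩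
  let J : E × Bool → ZMod 2 := fun x => (F x + F (φ x)) * Gd x
  have hJf : ∀ f ∈ fs, ∀ x ∈ wd f, J (bar x) = J x := by
    intro f hf x hx
    have hx' := (hS.cf f hf).mem hx
    simp only [J, hF, bar_bar]
    by_cases hc : Cr A1 t f
    · rw [← hG x, hGc f (hts f hf hc) _ hx' _ hx, add_comm]
    · rw [← hF x, hFc f hc _ hx' _ hx, CharTwo.add_self_eq_zero, zero_mul, zero_mul]
  have tot : ((h1 :: β1 ++ (h2 :: β2 ++ (h3 :: β3 ++ h4 :: β4)) ++ fs.flatMap wd).map J).sum
      = 0 := by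
    rw [← List.sum_toFinset J hS.nd]
    refine Finset.sum_involution (fun x _ => bar x) ?_ (fun x _ _ => bar_ne x) ?_
      (fun x _ => bar_bar x)
    · intro x hx
      rw [List.mem_toFinset] at hx
      have : J (bar x) = J x := by
        rcases List.mem_append.1 hx with hx1 | hx1
        · rcases List.mem_append.1 (hS.bar_mem hx) with hx2 | hx2
          · exact (hb x hx1 hx2).elim
          · obtain ⟨f, hf, hx3⟩ := List.mem_flatMap.1 hx2
            have := hJf f hf _ hx3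
            rw [bar_bar] at this
            exact this.symm
        · obtain ⟨f, hf, hx3⟩ := List.mem_flatMap.1 hx1
          exact hJf f hf _ hx3
      show J x + J (bar x) = 0
      rw [this, CharTwo.add_self_eq_zero]
    · intro x hx
      rw [List.mem_toFinset] at hx ⊢
      exact hS.bar_mem hx
  have inner : ∀ gs : List ι, gs ⊆ fs → ((gs.flatMap wd).map J).sum = 0 := by
    intro gs hgs
    induction gs with
    | nil => simp
    | cons f gs ih =>
      have hf : f ∈ fs := hgs (by simp)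
      rw [List.flatMap_cons, List.map_append, List.sum_append,
        ih fun x hx => hgs (by simp [hx]), add_zero]
      by_cases hc : Cr A1 t f
      · cases e : wd f with
        | nil => simp
        | cons a l =>
          have h5 := pth_sum F ((hS.cf f hf) a l e)
          rw [CharTwo.add_self_eq_zero, e] at h5
          have : (a :: l).map J = (a :: l).map fun x => (F x + F (φ x)) * Gd a :=
            List.map_congr_left fun x hx => by
              simp only [J]
              rw [hGc f (hts f hf hc) x (e ▸ hx) a (by simp [e])]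
          rw [this, List.sum_map_mul_right, h5, zero_mul]
      · refine List.sum_eq_zero fun z hz => ?_
        obtain ⟨x, hx, rfl⟩ := List.mem_map.1 hz
        simp only [J]
        rw [hFc f hc _ ((hS.cf f hf).mem hx) _ hx, CharTwo.add_self_eq_zero, zero_mul]
  obtain ⟨b2, p1, q2⟩ := pth_append.1 (hS.cW h1 _ rfl)
  obtain rfl := q2.head
  obtain ⟨b3, p2, q3⟩ := pth_append.1 q2
  obtain rfl := q3.head
  obtain ⟨b4, p3, p4⟩ := pth_append.1 q3
  obtain rfl := p4.head
  have F1 : ∀ x ∈ A1, F x = 1 := fun x hx =>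
    if_pos ⟨x, hx, Near.vx (Equiv.Perm.SameCycle.refl _ _)⟩
  have G2 : ∀ x ∈ A2, Gd x = 1 := fun x hx =>
    if_pos ⟨x, hx, Near.vx (Equiv.Perm.SameCycle.refl _ _)⟩
  have F3 : ∀ x ∈ b3 :: β3 ++ [b4], F x = 0 := fun x hx =>
    if_neg fun ⟨σ, hσ, hn⟩ => c1 ⟨σ, hσ, x, hx, hn.mono ht.le⟩
  have G4 : ∀ x ∈ b4 :: β4 ++ [h1], Gd x = 0 := fun x hx =>
    if_neg fun ⟨σ, hσ, hn⟩ => c2 ⟨σ, hσ, x, hx, hn.mono hs.le⟩
  have nxt : ∀ {a b x : E × Bool} {l : List (E × Bool)}, Pth φ a (a :: l) b → x ∈ a :: l →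
      φ x ∈ a :: l ++ [b] := by
    intro a b x l h hx
    rcases h.mem hx with h | h
    · simp at h; simp [h]
    · simp [h]
  have s1 : ((h1 :: β1).map J).sum = 0 := List.sum_eq_zero fun z hz => by
    obtain ⟨x, hx, rfl⟩ := List.mem_map.1 hz
    simp only [J]
    rw [F1 _ (nxt p1 hx), F1 x (List.mem_append_left _ hx), CharTwo.add_self_eq_zero, zero_mul]
  have s3 : ((b3 :: β3).map J).sum = 0 := List.sum_eq_zero fun z hz => by
    obtain ⟨x, hx, rfl⟩ := List.mem_map.1 hz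
    simp only [J]
    rw [F3 _ (nxt p3 hx), F3 x (List.mem_append_left _ hx), add_zero, zero_mul]
  have s4 : ((b4 :: β4).map J).sum = 0 := List.sum_eq_zero fun z hz => by
    obtain ⟨x, hx, rfl⟩ := List.mem_map.1 hz
    simp only [J]
    rw [G4 x (List.mem_append_left _ hx), mul_zero]
  have s2 : ((b2 :: β2).map J).sum = 1 := by
    have : (b2 :: β2).map J = (b2 :: β2).map fun x => F x + F (φ x) :=
      List.map_congr_left fun x hx => by
        simp only [J]
        rw [G2 x (List.mem_append_left _ hx), mul_one]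
    rw [this, pth_sum F p2, F1 b2 (by simp [hA1]), F3 b3 (by simp), add_zero]
  simp only [List.map_append, List.sum_append, s1, s2, s3, s4, inner fs fun _ h => h] at tot
  simp at tot

theorem dec_quarters {α : Type*} {α1 β2 α3 β4 : List α} {h2 h4 σ τ : α}
    (hσ : σ ∈ α1 ++ [h2]) (hτ : τ ∈ α3 ++ [h4]) :
    ∃ u X v, α1 ++ (h2 :: β2 ++ (α3 ++ h4 :: β4)) = u ++ (σ :: X ++ τ :: v) ∧
      β2.length ≤ X.length ∧ β4.length ≤ v.length := by
  have key : ∀ {a : List α} {h x : α} (b : List α), x ∈ a ++ [h] →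
      ∃ u X, a ++ h :: b = u ++ x :: X ∧ b.length ≤ X.length := by
    intro a h x b hx
    rcases List.mem_append.1 hx with hx | hx
    · obtain ⟨u, v, rfl⟩ := List.append_of_mem hx
      exact ⟨u, v ++ h :: b, by simp, by simp; omega⟩
    · obtain rfl := List.mem_singleton.1 hx
      exact ⟨a, b, rfl, le_rfl⟩
  obtain ⟨u, X1, e1, l1⟩ := key β2 hσ
  obtain ⟨X2, v, e2, l2⟩ := key β4 hτ
  refine ⟨u, X1 ++ X2, v, ?_, by simp; omega, l2⟩
  rw [e2, ← List.append_assoc, e1]; simp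

/-- A diagram without bridges can be cut into two pieces with balanced boundaries. -/
theorem balanced_cut [Finite E] {wd : ι → List (E × Bool)} {φ : Equiv.Perm (E × Bool)}
    {fs : List ι} {W : List (E × Bool)} (hS : Sys wd φ W fs) (hb : ∀ x ∈ W, bar x ∉ W)
    {ℓ D q : ℕ} (hℓ : ∀ f ∈ fs, (wd f).length ≤ ℓ) (hD : fs.length < D * D) (hq : 1 ≤ q)
    (hW : 4 * q ≤ W.length) :
    ∃ X Y, IsConj (mk (X ++ Y)) (mk W) ∧ X.length + Y.length = W.length ∧ q ≤ X.length ∧ q ≤ Y.length ∧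
      CutOut wd fs X Y D ℓ := by
  have sp : ∀ (l : List (E × Bool)), q ≤ l.length →
      ∃ h β r, l = h :: β ++ r ∧ β.length + 1 = q := by
    intro l hl
    cases l with
    | nil => simp at hl; omega
    | cons h l =>
      refine ⟨h, l.take (q - 1), l.drop (q - 1), by simp, ?_⟩
      simp at hl ⊢; omega
  obtain ⟨h1, β1, r1, rfl, l1⟩ := sp W (by omega)
  simp only [List.length_append, List.length_cons] at hW
  obtain ⟨h2, β2, r2, rfl, l2⟩ := sp r1 (by omega)
  simp only [List.length_append, List.length_cons] at hW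
  obtain ⟨h3, β3, r3, rfl, l3⟩ := sp r2 (by omega)
  simp only [List.length_append, List.length_cons] at hW
  obtain ⟨h4, β4, rfl⟩ : ∃ h β, r3 = h :: β := by
    cases r3 with
    | nil => simp at hW; omega
    | cons h β => exact ⟨h, β, rfl⟩
  simp only [List.length_cons] at hW
  rcases parity hS hb hD with ⟨σ, hσ, τ, hτ, hn⟩ | ⟨σ, hσ, τ, hτ, hn⟩
  · obtain ⟨u, X, v, e, k1, k2⟩ := dec_quarters (β2 := β2) (β4 := β4) hσ hτ
    rw [e] at hS
    have hS2 := hS.rot
    have e2 : σ :: X ++ τ :: v ++ u = σ :: X ++ τ :: (v ++ u) := by simp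
    rw [e2] at hS2
    refine ⟨σ :: X, τ :: (v ++ u), ?_, ?_, by simp; omega, by simp; omega,
      cut ℓ D φ σ τ X _ fs hS2 hℓ hn⟩
    · rw [e, ← e2]; exact isConj_rot _ _
    · rw [e]; simp; omega
  · obtain ⟨u, X, v, e, k1, k2⟩ := dec_quarters (β2 := β3) (β4 := β1) hσ hτ
    have hS1 := hS.rot
    have e1 : h2 :: β2 ++ (h3 :: β3 ++ h4 :: β4) ++ h1 :: β1 =
        h2 :: β2 ++ (h3 :: β3 ++ (h4 :: β4 ++ h1 :: β1)) := by simp
    rw [e1, e] at hS1
    have hS2 := hS1.rot
    have e2 : σ :: X ++ τ :: v ++ u = σ :: X ++ τ :: (v ++ u) := by simp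
    rw [e2] at hS2
    refine ⟨σ :: X, τ :: (v ++ u), ?_, ?_, by simp; omega, by simp; omega,
      cut ℓ D φ σ τ X _ fs hS2 hℓ hn⟩
    · refine IsConj.trans ?_ (isConj_rot _ _)
      rw [e1, e, ← e2]; exact isConj_rot _ _
    · have := congrArg List.length e
      simp at this ⊢; omega

end Crest.Agent.GSC
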