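import Crest.Agent.GSC.Defs

/-! Interfaces between the pieces of the probabilistic part. -/

set_option autoImplicit false

namespace Crest.Agent.GSC

open Finset

namespace Design

variable {S V D C : Type} [Fintype D] [DecidableEq C] (Γ : Design S V D C)

open Classical in
/-- admissible matchings of girth at least `g` -/
noncomputable def Omega (g : ℕ) : Finset (D → D) := {β | Γ.IsM β ∧ Γ.Girth β g}

open Classical in
/-- at most an `L ^ (-|F|)` fraction of `Ω` contains a given set `F` of at most `M` edges -/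
def EdgeBound (Ω : Finset (D → D)) (M : ℕ) (L : ℝ) : Prop :=
  ∀ F : List (D × D), F.length ≤ M → (F.flatMap fun p => [p.1, p.2]).Nodup →
    (#{β ∈ Ω | ∀ p ∈ F, β p.1 = p.2} : ℝ) * L ^ F.length ≤ #Ω

open Classical in
/-- number of edges spanned by a vertex set -/
noncomputable def span (β : D → D) (A : Finset V) : ℕ :=
  #{d | (Γ.lab d).2 = true ∧ Γ.src d ∈ A ∧ Γ.src (β d) ∈ A}

/-- small vertex sets span few edges -/
def Sparse (β : D → D) (k b : ℕ) : Prop := ∀ A : Finset V, A.card ≤ k → Γ.span β A ≤ A.card + b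

open Classical in
/-- The inequality for ordered edge sequences with modes. -/
def LocSeq [Fintype S] (w : Weights S) (β : D → D) (xs : V) (M : ℕ) (W γ E : ℝ) : Prop :=
  ∀ (R : ℕ) (o : ℕ → D) (mode : ℕ → Option (Bool × ℕ)) (Irr : Finset ℕ), R ≤ M →
    (∀ i < R, ∀ j < R, o i = o j → i = j) → (∀ i < R, ∀ j < R, o i ≠ β (o j)) →
    (∀ i < R, ∀ b c, mode i = some (b, c) → c ≤ 2 * M) →
    (∀ i, i + 1 < R → i + 1 ∉ Irr →
      Γ.src (o (i + 1)) = Γ.src (β (o i)) ∧ mode (i + 1) = mode i ∧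
      Γ.src (o (i + 1)) ≠ xs ∧ (∀ k ≤ i, Γ.src (o (i + 1)) ≠ Γ.src (o k)) ∧
      (∀ k < i, Γ.src (o (i + 1)) ≠ Γ.src (β (o k))) ∧
      (∀ c, mode (i + 1) = some (true, c) →
        1 ≤ c ∧ c ≤ i + 1 ∧ Γ.lab (o (i + 1)) = Γ.lab (o (i + 1 - c))) ∧
      (∀ c, mode (i + 1) = some (false, c) →
        i + 1 ≤ c ∧ c - (i + 1) ≤ i ∧ Γ.lab (o (i + 1)) = bar (Γ.lab (o (c - (i + 1)))))) →
    ∑ i ∈ range R, (if mode i = none then - Real.log (w.Om (Γ.lab (o i))) - Real.log w.rho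
        else Real.log (w.Om (Γ.lab (o i)))) +
      W * ((R : ℝ) - #((((range R).image fun i => Γ.src (o i)) ∪
        ((range R).image fun i => Γ.src (β (o i)))).erase xs)) ≤
      R * γ + (#Irr + 2) * E

end Design

/-- (RA1) switching: girth-conditioned edge probabilities. -/
def SwitchStmt : Prop :=
  ∀ (S V D C : Type) [Fintype S] [Fintype D] [DecidableEq C] (Γ : Design S V D C) (N g M : ℕ),
    (∀ d, N ≤ #{e | Γ.cl e = Γ.cl d}) →
    4 * (2 * Fintype.card S + 1) ^ (g + 1) + 2 * M + 4 < N →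
    (Γ.Omega g).Nonempty ∧
      Design.EdgeBound (Γ.Omega g) M ((N : ℝ) - 4 * (2 * Fintype.card S + 1) ^ (g + 1) - 2 * M - 4)

open Classical in
/-- (RA2) sparsity and diameter: with `N ≥ (2|S|+1)^(2g)`-type scale. -/
def SparseStmt : Prop :=
  ∀ (s C0 : ℕ), ∃ R0 : ℕ, 1 ≤ R0 ∧ ∀ K : ℕ, ∃ b g0 : ℕ,
    ∀ (S V D C : Type) [Fintype S] [Fintype V] [Fintype D] [DecidableEq C]
      (Γ : Design S V D C) (N g : ℕ) (Ω : Finset (D → D)),
      Fintype.card S = s → Fintype.card V ≤ C0 * N → (∀ x, 3 ≤ #{d | Γ.src d = x}) →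
      g0 ≤ g → (2 * s + 1) ^ (2 * g) ≤ N → N < (2 * s + 1) ^ (2 * g + 2) →
      (∀ β ∈ Ω, Γ.IsM β) → Design.EdgeBound Ω (N / 8) (N / 2) →
      4 * #{β ∈ Ω | ¬ (Γ.Sparse β (2 * (K * g)) b ∧ Γ.Diam β (R0 * g))} ≤ #Ω

open Classical in
/-- (RB) the sequential first moment bound. -/
def KernelStmt : Prop :=
  ∀ (S : Type) [Fintype S] (w : Weights S) (γ : ℝ), 0 < γ → ∃ c1 : ℝ, 0 ≤ c1 ∧
    ∀ (V D C : Type) [Fintype V] [Fintype D] [DecidableEq C]
      (Γ : Design S V D C) (N M : ℕ) (xs : V) (Ω : Finset (D → D)), 1 ≤ N → Γ.Large w N →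
      (∀ β ∈ Ω, Γ.IsM β) → Design.EdgeBound Ω M ((1 - w.eta) * N) →
      4 * #{β ∈ Ω | ¬ Γ.LocSeq w β xs M (Real.log (Fintype.card V)) γ
        (c1 * (1 + Real.log (M + 2)))} ≤ #Ω

/-- (RC) the deterministic level-set argument. -/
def LevelStmt : Prop :=
  ∀ (S : Type) [Fintype S] (w : Weights S), ∃ c0 γ : ℝ, 0 < c0 ∧ 0 < γ ∧ ∀ K b : ℕ, ∃ c2 : ℝ,
    ∀ (V D C : Type) [Fintype V] [Fintype D] [DecidableEq C]
      (Γ : Design S V D C) (β : D → D) (xs : V) (g : ℕ) (W E : ℝ),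
      Γ.IsM β → 3 ≤ g → Γ.Girth β g → Γ.Sparse β (2 * (K * g)) b → 0 ≤ W → 0 ≤ E →
      Γ.LocSeq w β xs (K * g) W γ E → c2 * E ≤ g → Γ.LocIneq β xs g K c0

end Crest.Agent.GSC
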