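import Crest.Agent.GSC.Sparse

/-! (RD) assembly of the probabilistic part. -/

set_option autoImplicit false

namespace Crest.Agent.GSC

open Finset

theorem Design.EdgeBound.mono {D : Type} [Fintype D] {Ω : Finset (D → D)} {M : ℕ} {L L' : ℝ}
    (h : Design.EdgeBound Ω M L) (h0 : 0 ≤ L') (hL : L' ≤ L) : Design.EdgeBound Ω M L' := by
  intro F hF hn
  refine le_trans ?_ (h F hF hn)
  gcongr

theorem log_le_lin (c : ℝ) (K : ℕ) :
    ∃ g0 : ℕ, ∀ g ≥ g0, c * (1 + Real.log ((K * g : ℕ) + 2)) ≤ g := by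
  set c' := |c| + 1 with hc'
  have hc0 : 0 < c' := by positivity
  have hcc : c ≤ c' := by linarith [le_abs_self c]
  set a : ℝ := 2 * c' * (K + 1) with ha
  have ha0 : 0 < a := by positivity
  obtain ⟨g0, hg0⟩ := exists_nat_ge (2 * (c' * (Real.log a) + 1))
  refine ⟨g0, fun g hg => ?_⟩
  have hg' : (g0 : ℝ) ≤ g := by exact_mod_cast hg
  have h0 : (0 : ℝ) ≤ g := by positivity
  have hK : (0 : ℝ) ≤ K := by positivity
  push_cast
  have h1 : Real.log (K * g + 2) ≤ (K * g + 2) / a - 1 + Real.log a := by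
    have := Real.log_le_sub_one_of_pos (x := (K * g + 2) / a) (by positivity)
    rw [Real.log_div (by positivity) ha0.ne'] at this
    linarith
  have h2 : 0 ≤ 1 + Real.log (K * g + 2) := by
    have := Real.log_nonneg (x := K * g + 2) (by nlinarith)
    linarith
  have h3 : c' * ((K * g + 2) / a) ≤ g / 2 + 1 := by
    rw [ha, ← mul_div_assoc, div_le_iff₀ (by positivity)]
    nlinarith [mul_nonneg hc0.le h0, mul_nonneg hc0.le hK]
  calc _ ≤ c' * (1 + Real.log (K * g + 2)) := mul_le_mul_of_nonneg_right hcc h2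
    _ ≤ c' * ((K * g + 2) / a + Real.log a) := mul_le_mul_of_nonneg_left (by linarith) hc0.le
    _ ≤ _ := by linarith

theorem randomPart_of (h1 : SwitchStmt) (h2 : SparseStmt) (h3 : KernelStmt) (h4 : LevelStmt) :
    RandomPart := by
  classical
  intro S _ w
  obtain ⟨c0, γ, hc0, hγ, h4⟩ := h4 S w
  obtain ⟨c1, hc1, h3⟩ := h3 S w γ hγ
  obtain ⟨R0, hR0, h2⟩ := h2 (Fintype.card S) w.C0
  refine ⟨c0, R0, hc0, hR0, fun K => ?_⟩
  obtain ⟨b, g0, h2⟩ := h2 K
  obtain ⟨c2, h4⟩ := h4 K b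
  obtain ⟨g1, hg1⟩ := log_le_lin (c2 * c1) K
  set t := 2 * Fintype.card S + 1 with ht
  obtain ⟨a, ha⟩ := exists_nat_gt (1 / w.eta)
  set A := (a + 32) * (4 * t + 2 * K + 4) with hA
  set g2 := max (max g0 g1) (2 * A + 3) with hg2
  refine ⟨(t ^ 2) ^ g2, fun V D C _ _ _ Γ N xs hN hL => ?_⟩
  have ht3 : 3 ≤ t := by
    obtain ⟨d, -⟩ := card_pos.1 (lt_of_lt_of_le (by norm_num) (hL.deg xs))
    have : 0 < Fintype.card S := Fintype.card_pos_iff.2 ⟨(Γ.lab d).1⟩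
    omega
  have ht2 : 1 < t ^ 2 := by nlinarith
  have hN0 : N ≠ 0 := by
    have : 0 < (t ^ 2) ^ g2 := by positivity
    omega
  set g := Nat.log (t ^ 2) N with hg
  have hgg : g2 ≤ g := Nat.le_log_of_pow_le ht2 hN
  have hN1 : t ^ (2 * g) ≤ N := by rw [pow_mul]; exact Nat.pow_log_le_self _ hN0
  have hN2 : N < t ^ (2 * g + 2) := by
    rw [show 2 * g + 2 = 2 * (g + 1) by ring, pow_mul]; exact Nat.lt_pow_succ_log_self ht2 N
  have hg0 : g0 ≤ g := le_trans ((le_max_left _ _).trans (le_max_left _ _)) hgg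
  have hg1' : g1 ≤ g := le_trans ((le_max_right _ _).trans (le_max_left _ _)) hgg
  have hg3 : 2 * A + 3 ≤ g := le_trans (le_max_right _ _) hgg
  have k1 : A * (g + 1) ≤ t ^ g :=
    (lin_le_two_pow A g (by omega)).trans (Nat.pow_le_pow_left (by omega) _)
  have k2 : (a + 32) * (4 * t ^ (g + 1) + 2 * (K * g) + 4) ≤ N := by
    have b1 : 1 ≤ t ^ g := Nat.one_le_pow _ _ (by omega)
    have b2 : g ≤ t ^ g := (Nat.lt_pow_self (by omega)).le
    have b3 : 4 * t ^ (g + 1) + 2 * (K * g) + 4 ≤ (4 * t + 2 * K + 4) * t ^ g := by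
      have := Nat.mul_le_mul_left K b2
      rw [pow_succ]; nlinarith
    calc _ ≤ (a + 32) * ((4 * t + 2 * K + 4) * t ^ g) := Nat.mul_le_mul_left _ b3
      _ = A * t ^ g := by rw [hA]; ring
      _ ≤ t ^ g * t ^ g := Nat.mul_le_mul_right _ (le_trans (Nat.le_mul_of_pos_right _ (by omega)) k1)
      _ = t ^ (2 * g) := by ring
      _ ≤ N := hN1
  have k3 : 32 * (4 * t ^ (g + 1) + 2 * (K * g) + 4) ≤ N :=
    le_trans (Nat.mul_le_mul_right _ (by omega)) k2
  have k4 : a * (4 * t ^ (g + 1) + 2 * (K * g) + 4) ≤ N :=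
    le_trans (Nat.mul_le_mul_right _ (by omega)) k2
  obtain ⟨hne, e1⟩ := h1 S V D C Γ N g (N / 8) (fun d => by convert hL.cl_ge d)
    (by rw [← ht]; omega)
  obtain ⟨-, e2⟩ := h1 S V D C Γ N g (K * g) (fun d => by convert hL.cl_ge d)
    (by rw [← ht]; omega)
  have hΩ : ∀ β ∈ Γ.Omega g, Γ.IsM β ∧ Γ.Girth β g := fun β hβ => by
    simpa [Design.Omega] using hβ
  have ht' : (2 * Fintype.card S + 1 : ℝ) = t := by rw [ht]; push_cast; ring
  rw [ht'] at e1 e2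
  have s1 := h2 S V D C Γ N g _ rfl hL.card_V (fun x => by convert hL.deg x) hg0 hN1 hN2
    (fun β hβ => (hΩ β hβ).1) (e1.mono (by positivity) (by
      have b1 : N + 2 * (4 * t ^ (g + 1) + 2 * (N / 8) + 4) ≤ 2 * N := by omega
      have b2 : ((N + 2 * (4 * t ^ (g + 1) + 2 * (N / 8) + 4) : ℕ) : ℝ) ≤ ((2 * N : ℕ) : ℝ) :=
        Nat.cast_le.2 b1
      rw [Nat.cast_add, Nat.cast_mul, Nat.cast_add, Nat.cast_add, Nat.cast_mul, Nat.cast_mul,
        Nat.cast_mul, Nat.cast_pow] at b2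
      push_cast at b2 ⊢
      linarith))
  have s2 := h3 V D C Γ N (K * g) xs _ (by omega) hL (fun β hβ => (hΩ β hβ).1)
    (e2.mono (mul_nonneg (by linarith [w.eta_lt]) (by positivity)) (by
      have b1 : (a : ℝ) * (4 * t ^ (g + 1) + 2 * ((K * g : ℕ) : ℝ) + 4) ≤ N := by exact_mod_cast k4
      have b2 := w.eta_pos
      rw [div_lt_iff₀ b2] at ha
      have b3 : (0 : ℝ) ≤ 4 * t ^ (g + 1) + 2 * ((K * g : ℕ) : ℝ) + 4 := by positivity
      nlinarith [mul_le_mul_of_nonneg_left b1 b2.le, mul_le_mul_of_nonneg_right ha.le b3]))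
  obtain ⟨β, hβ, hβ'⟩ := exists_mem_notMem_of_card_lt_card (t := Γ.Omega g)
    (s := ((Γ.Omega g).filter fun β => ¬ (Γ.Sparse β (2 * (K * g)) b ∧ Γ.Diam β (R0 * g))) ∪
      ((Γ.Omega g).filter fun β => ¬ Γ.LocSeq w β xs (K * g) (Real.log (Fintype.card V)) γ
        (c1 * (1 + Real.log ((K * g : ℕ) + 2))))) (by
      have := hne.card_pos
      refine lt_of_le_of_lt (card_union_le _ _) ?_
      omega)
  simp only [mem_union, mem_filter, hβ, true_and, not_or, not_not] at hβ'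
  obtain ⟨⟨p1, p2⟩, p3⟩ := hβ'
  refine ⟨β, g, (hΩ β hβ).1, by omega, (hΩ β hβ).2, p2,
    h4 V D C Γ β xs g _ _ (hΩ β hβ).1 (by omega) (hΩ β hβ).2 p1 (Real.log_natCast_nonneg _)
      (mul_nonneg hc1 ?_) p3 ?_⟩
  · have := Real.log_nonneg (x := ((K * g : ℕ) : ℝ) + 2)
      (by linarith [(by positivity : (0 : ℝ) ≤ (K * g : ℕ))])
    linarith
  · rw [← mul_assoc]; exact hg1 g hg1'

theorem randomPart_of' (h3 : KernelStmt) (h4 : LevelStmt) : RandomPart :=
  randomPart_of switchStmt sparseStmt h3 h4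

end Crest.Agent.GSC
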