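import Crest.Agent.GSC.Face

/-! Reduced diagrams and the local isoperimetric inequality. -/

set_option autoImplicit false

namespace Crest.Agent.GSC

open FreeGroup (mk of lift invRev mul_mk inv_mk)
open Design

variable {S V D C : Type} [Fintype D] [DecidableEq C] {A H M : Type} [AddCommGroup M]

/-- a face is a path from `x` to `y` (open) or a closed path -/
def Design.Ok (Γ : Design S V D C) (β : D → D) (x y : V) (f : Face H D) : Prop :=
  ∃ a b, Γ.Path β a f.p b ∧ (f.op = true → a = x ∧ b = y) ∧ (f.op = false → a = b)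

/-- a diagram with faces read on `Γ` -/
structure Cfg (Γ : Design S V D C) (β : D → D) (ed : H → D → A × Bool) (c : H → D → M)
    (x y : V) (W : List (A × Bool)) (n0 : ℕ) (z : M) (fs : List (Face H D)) : Prop where
  ok : ∀ f ∈ fs, Γ.Ok β x y f
  cnt : fs.countP Face.op = n0
  cj : Cj (mk W :: fs.map fun f => mk (f.wd ed))
  cl : (fs.map (Face.cs c)).sum = z

/-- the compatibility of letters and classes with the matching -/
structure Sheets (Γ : Design S V D C) (β : D → D) (ed : H → D → A × Bool) (c : H → D → M)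
    (fA : A → S) : Prop where
  isM : Γ.IsM β
  ed_bar : ∀ h d, ed h (β d) = bar (ed h d)
  ed_inj : ∀ h h' d, ed h d = ed h' d → h = h'
  ed_lab : ∀ h d, lm fA (ed h d) = Γ.lab d
  c_neg : ∀ h d, c h (β d) = - c h d

variable {Γ : Design S V D C} {β : D → D} {ed : H → D → A × Bool} {c : H → D → M}
  {x y : V} {W : List (A × Bool)} {n0 : ℕ} {z : M} {fA : A → S}

theorem exists_perm_cons {α : Type*} {a : α} {l : List α} (h : a ∈ l) :
    ∃ l', l.Perm (a :: l') := by
  obtain ⟨u, v, rfl⟩ := List.append_of_mem h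
  exact ⟨u ++ v, List.perm_middle⟩

theorem Cfg.perm {fs gs : List (Face H D)} (h : Cfg Γ β ed c x y W n0 z fs) (p : fs.Perm gs) :
    Cfg Γ β ed c x y W n0 z gs :=
  ⟨fun f hf => h.ok f (p.symm.subset hf), p.countP_eq _ ▸ h.cnt, h.cj.perm ((p.map _).cons _),
    (p.map _).sum_eq.symm.trans h.cl⟩

theorem Cfg.swap1 {f f' : Face H D} {fs : List (Face H D)}
    (h : Cfg Γ β ed c x y W n0 z (f :: fs)) (hop : f'.op = f.op) (ok : Γ.Ok β x y f')
    (hw : IsConj (FreeGroup.mk (f.wd ed)) (FreeGroup.mk (f'.wd ed))) (hc : f'.cs c = f.cs c) :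
    Cfg Γ β ed c x y W n0 z (f' :: fs) := by
  refine ⟨fun g hg => ?_, ?_, ?_, ?_⟩
  · rcases List.mem_cons.1 hg with rfl | hg
    · exact ok
    · exact h.ok g (by simp [hg])
  · rw [← h.cnt, List.countP_cons, List.countP_cons, hop]
  · exact ((h.cj.perm (List.Perm.swap _ _ _)).of_isConj hw).perm (List.Perm.swap _ _ _)
  · rw [← h.cl, List.map_cons, List.map_cons, hc]

/-- minimal diagrams -/
def MinC (Γ : Design S V D C) (β : D → D) (ed : H → D → A × Bool) (c : H → D → M)
    (x y : V) (W : List (A × Bool)) (n0 : ℕ) (z : M) (fs : List (Face H D)) : Prop :=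
  Cfg Γ β ed c x y W n0 z fs ∧ ∀ gs, Cfg Γ β ed c x y W n0 z gs → per gs ≤ per fs →
    2 * per fs + fs.length ≤ 2 * per gs + gs.length

theorem Cfg.exists_min {fs : List (Face H D)} (h : Cfg Γ β ed c x y W n0 z fs) :
    ∃ gs, MinC Γ β ed c x y W n0 z gs ∧ per gs ≤ per fs := by
  classical
  have hex : ∃ n, ∃ gs, Cfg Γ β ed c x y W n0 z gs ∧ per gs ≤ per fs ∧
      2 * per gs + gs.length = n := ⟨_, fs, h, le_rfl, rfl⟩
  obtain ⟨gs, h1, h2, h3⟩ := Nat.find_spec hex
  exact ⟨gs, ⟨h1, fun gs' k1 k2 => h3 ▸ Nat.find_min' hex ⟨gs', k1, k2.trans h2, rfl⟩⟩, h2⟩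

theorem MinC.perm {fs gs : List (Face H D)} (h : MinC Γ β ed c x y W n0 z fs) (p : fs.Perm gs) :
    MinC Γ β ed c x y W n0 z gs :=
  ⟨h.1.perm p, by rw [← per_perm p, ← p.length_eq]; exact h.2⟩

theorem MinC.ne_nil {fs : List (Face H D)} (h : MinC Γ β ed c x y W n0 z fs) {f : Face H D}
    (hf : f ∈ fs) (ho : f.op = false) : f.p ≠ [] := by
  intro e
  obtain ⟨gs, hp⟩ := exists_perm_cons hf
  obtain ⟨h1, h2⟩ := h.perm hp
  have := h2 gs ⟨fun g hg => h1.ok g (by simp [hg]), by simpa [ho] using h1.cnt, ?_,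
    by simpa [Face.cs, e] using h1.cl⟩ (by simp)
  · simp at this; omega
  · have h3 := h1.cj.perm (List.Perm.swap _ _ _)
    simpa [Face.wd, e, mk_nil, Cj.one_cons] using h3

theorem MinC.rd (hS : Sheets Γ β ed c fA) {fs : List (Face H D)}
    (h : MinC Γ β ed c x y W n0 z fs) {f : Face H D} (hf : f ∈ fs) : Rd β f.p := by
  refine List.isChain_iff_forall_rel_of_append_cons_cons.2 ?_
  rintro d _ u v e rfl
  obtain ⟨gs, hp⟩ := exists_perm_cons hf
  obtain ⟨h1, h2⟩ := h.perm hp
  obtain ⟨a, b, k1, k2⟩ := h1.ok f (by simp)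
  rw [e] at k1
  obtain ⟨a', k3, k4, -, k5⟩ := path_append.1 k1
  rw [hS.isM.inv, k4] at k5
  have := h2 _ (h1.swap1 (f' := ⟨f.op, f.h, u ++ v⟩) rfl ⟨a, b, k3.append k5, k2⟩ ?_ ?_)
    (by simp [e]; omega)
  · simp [e] at this
  · simp only [Face.wd, e, List.map_append, List.map_cons, mk_append, hS.ed_bar]
    rw [mk_cons, mk_cons (bar _), mk_bar, mul_inv_cancel_left]
  · simp [Face.cs, e, hS.c_neg]

theorem MinC.cyc (hS : Sheets Γ β ed c fA) {fs : List (Face H D)}
    (h : MinC Γ β ed c x y W n0 z fs) {f : Face H D} (hf : f ∈ fs) (ho : f.op = false)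
    (d : D) (α : List D) : f.p ≠ β d :: (α ++ [d]) := by
  intro e
  obtain ⟨gs, hp⟩ := exists_perm_cons hf
  obtain ⟨h1, h2⟩ := h.perm hp
  obtain ⟨a, b, k1, k2⟩ := h1.ok f (by simp)
  rw [e, path_cons, hS.isM.inv] at k1
  obtain ⟨a', k3, k4, -⟩ := path_append.1 k1.2
  have := h2 _ (h1.swap1 (f' := ⟨f.op, f.h, α⟩) rfl ⟨_, _, k3, by simp [ho], fun _ => k4⟩ ?_ ?_)
    (by simp [e]; omega)
  · simp [e] at this
  · simp only [Face.wd, e, List.map_append, List.map_cons, hS.ed_bar, List.map_nil]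
    rw [mk_cons, mk_append, mk_bar]
    exact isConj_iff.2 ⟨mk [ed f.h d], by group⟩
  · simp [Face.cs, e, hS.c_neg]

section Tag
variable {E : Type} {lb : E → A} {dt : E × Bool → D} {W' : List (E × Bool)}

theorem no_split (hS : Sheets Γ β ed c fA) {f : Face H (E × Bool)}
    {gs : List (Face H (E × Bool))}
    (h : MinC Γ β ed c x y (W'.map (lm lb)) n0 z ((f :: gs).map (Face.map dt)))
    (hl : ∀ g ∈ f :: gs, ∀ s ∈ g.p, lm lb s = ed g.h (dt s))
    (hn : (W' ++ (f :: gs).flatMap Face.p).Nodup)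
    (hc : Cj (mk W' :: (f :: gs).map fun g => mk g.p)) {s : E × Bool} {u α v : List (E × Bool)}
    (e : f.p = u ++ s :: α ++ bar s :: v) : dt (bar s) ≠ β (dt s) := by
  intro hb
  obtain ⟨h1, h2⟩ := h
  have c1 := split_tag (wd := id) (fs := W' :: gs.map Face.p) (x := s) (u := u) (α := α) (v := v)
    (by
      rw [← e]
      refine (List.Perm.nodup_iff ?_).1 hn
      simp only [List.flatMap_cons, id, List.flatMap_map, ← List.append_assoc]
      exact List.perm_append_comm.append_right _)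
    (by
      rw [← e]
      simpa [List.map_map, Function.comp_def] using hc.perm (List.Perm.swap _ _ _))
  obtain ⟨a, b, k1, k2⟩ := h1.ok (f.map dt) (by simp)
  simp only [Face.map, e, List.map_append, List.map_cons, hb] at k1
  obtain ⟨a1, k3, k4, k5⟩ := path_append.1 k1
  obtain ⟨a2, k6, k7, k8⟩ := path_append.1 k3
  rw [hS.isM.inv, k7] at k5
  have hl' := hl f (by simp)
  have := h2 (((⟨f.op, f.h, u ++ v⟩ : Face H _) :: ⟨false, f.h, α⟩ :: gs).map (Face.map dt))
    ⟨?_, ?_, cj_forget_face ?_ ?_, ?_⟩ (by simp [Face.map, e]; omega)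
  · simp [Face.map, e] at this; omega
  · simp only [List.map_cons, List.forall_mem_cons]
    exact ⟨⟨a, b, by simpa [Face.map] using k6.append k5, k2⟩,
      ⟨_, _, k8, by simp [Face.map], fun _ => k4⟩, fun g hg => h1.ok g (by simp at hg ⊢; tauto)⟩
  · rw [← h1.cnt]; simp [Face.map, List.countP_cons]
  · simp only [List.forall_mem_cons]
    exact ⟨fun t ht => hl' t (by rw [e]; simp at ht ⊢; tauto),
      fun t ht => hl' t (by rw [e]; simp [ht]), fun g hg => hl g (by simp [hg])⟩
  · simp only [List.map_cons, id, List.map_map, Function.comp_def] at c1 ⊢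
    exact c1.perm (((List.Perm.swap _ _ _).cons _).trans (List.Perm.swap _ _ _))
  · rw [← h1.cl]
    simp only [Face.map, Face.cs, e, List.map_cons, List.map_append, List.sum_cons,
      List.sum_append, hb, hS.c_neg]
    abel

theorem no_merge (hS : Sheets Γ β ed c fA) {f f' : Face H (E × Bool)}
    {gs : List (Face H (E × Bool))}
    (h : MinC Γ β ed c x y (W'.map (lm lb)) n0 z ((f :: f' :: gs).map (Face.map dt)))
    (hl : ∀ g ∈ f :: f' :: gs, ∀ s ∈ g.p, lm lb s = ed g.h (dt s))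
    (hn : (W' ++ (f :: f' :: gs).flatMap Face.p).Nodup)
    (hc : Cj (mk W' :: (f :: f' :: gs).map fun g => mk g.p)) {s : E × Bool}
    (h1 : s ∈ f.p) (h2 : bar s ∈ f'.p) (ho : f'.op = false) : dt (bar s) ≠ β (dt s) := by
  intro hb
  have hl1 := hl f (by simp)
  have hl2 := hl f' (by simp)
  have eh : f'.h = f.h := by
    refine hS.ed_inj _ _ (β (dt s)) ?_
    rw [hS.ed_bar f.h, ← hl1 s h1, ← hb, ← hl2 _ h2, lm_bar]
  obtain ⟨u, v, e⟩ := List.append_of_mem h1
  obtain ⟨u', v', e'⟩ := List.append_of_mem h2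
  obtain ⟨h1, h2⟩ := h
  have c1 := merge_tag (wd := id) (fs := W' :: gs.map Face.p) (x := s) (u := u) (v := v)
    (u' := u') (v' := v')
    (by
      rw [← e, ← e']
      refine (List.Perm.nodup_iff ?_).1 hn
      simp only [List.flatMap_cons, id, List.flatMap_map, ← List.append_assoc]
      refine List.Perm.append_right _ ?_
      rw [List.append_assoc]
      exact List.perm_append_comm)
    (by
      rw [← e, ← e']
      simpa [List.map_map, Function.comp_def] using
        hc.perm ((List.Perm.swap _ _ _).trans ((List.Perm.swap _ _ _).cons _)))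
  obtain ⟨a, b, k1, k2⟩ := h1.ok (f.map dt) (by simp)
  obtain ⟨a', b', k1', -, k2'⟩ := h1.ok (f'.map dt) (by simp)
  obtain rfl := k2' ho
  simp only [Face.map, e, e', List.map_append, List.map_cons, hb] at k1 k1'
  obtain ⟨a1, k3, k4, k5⟩ := path_append.1 k1
  obtain ⟨a2, k6, k7, k8⟩ := path_append.1 k1'
  rw [hS.isM.inv, k4] at k8
  rw [k7] at k5
  have := h2 (((⟨f.op, f.h, u ++ v' ++ u' ++ v⟩ : Face H _) :: gs).map (Face.map dt))
    ⟨?_, ?_, cj_forget_face ?_ ?_, ?_⟩ (by simp [Face.map, e, e']; omega)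
  · simp [Face.map, e, e'] at this; omega
  · simp only [List.map_cons, List.forall_mem_cons]
    exact ⟨⟨a, b, by simpa [Face.map] using ((k3.append k8).append k6).append k5, k2⟩,
      fun g hg => h1.ok g (by simp at hg ⊢; tauto)⟩
  · rw [← h1.cnt]; simp [Face.map, List.countP_cons, ho]
  · simp only [List.forall_mem_cons]
    refine ⟨fun t ht => ?_, fun g hg => hl g (by simp [hg])⟩
    simp only [List.mem_append] at ht
    rcases ht with ((ht | ht) | ht) | ht
    · exact hl1 t (by simp [e, ht])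
    · exact eh ▸ hl2 t (by simp [e', ht])
    · exact eh ▸ hl2 t (by simp [e', ht])
    · exact hl1 t (by simp [e, ht])
  · simp only [List.map_cons, id, List.map_map, Function.comp_def] at c1 ⊢
    exact c1.perm (List.Perm.swap _ _ _)
  · rw [← h1.cl]
    simp only [Face.map, Face.cs, e, e', eh, List.map_cons, List.map_append, List.sum_cons,
      List.sum_append, hb, hS.c_neg]
    abel

theorem no_orig (hS : Sheets Γ β ed c fA) (hn0 : n0 ≤ 1) {gs : List (Face H (E × Bool))}
    (h : MinC Γ β ed c x y (W'.map (lm lb)) n0 z (gs.map (Face.map dt)))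
    (hl : ∀ g ∈ gs, ∀ s ∈ g.p, lm lb s = ed g.h (dt s))
    (hn : (W' ++ gs.flatMap Face.p).Nodup)
    (hc : Cj (mk W' :: gs.map fun g => mk g.p)) {s : E × Bool}
    (h1 : s ∈ gs.flatMap Face.p) (h2 : bar s ∈ gs.flatMap Face.p) : dt (bar s) ≠ β (dt s) := by
  have sym : dt (bar (bar s)) ≠ β (dt (bar s)) → dt (bar s) ≠ β (dt s) := fun k e =>
    k (by rw [bar_bar, e, hS.isM.inv])
  have tr : ∀ {gs' : List (Face H (E × Bool))}, gs.Perm gs' →
      MinC Γ β ed c x y (W'.map (lm lb)) n0 z (gs'.map (Face.map dt)) ∧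
      (∀ g ∈ gs', ∀ s ∈ g.p, lm lb s = ed g.h (dt s)) ∧ (W' ++ gs'.flatMap Face.p).Nodup ∧
      Cj (mk W' :: gs'.map fun g => mk g.p) := fun p =>
    ⟨h.perm (p.map _), fun g hg => hl g (p.symm.subset hg),
      ((p.flatMap_right _).append_left W').nodup_iff.1 hn, hc.perm ((p.map _).cons _)⟩
  obtain ⟨f, hf, h1⟩ := List.mem_flatMap.1 h1
  obtain ⟨gs1, p1⟩ := exists_perm_cons hf
  have h3 := (p1.flatMap_right _).subset h2
  rw [List.flatMap_cons, List.mem_append] at h3
  rcases h3 with h3 | h3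
  · obtain ⟨k1, k2, k3, k4⟩ := tr p1
    obtain ⟨u, v, e⟩ := List.append_of_mem h1
    rw [e, List.mem_append, List.mem_cons] at h3
    rcases h3 with h3 | h3 | h3
    · obtain ⟨u1, u2, rfl⟩ := List.append_of_mem h3
      exact sym (no_split hS k1 k2 k3 k4 (u := u1) (α := u2) (v := v) (by rw [e, bar_bar]))
    · exact (bar_ne s h3).elim
    · obtain ⟨v1, v2, rfl⟩ := List.append_of_mem h3
      exact no_split hS k1 k2 k3 k4 (u := u) (α := v1) (v := v2) (by rw [e]; simp)
  · obtain ⟨f', hf', h3⟩ := List.mem_flatMap.1 h3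
    obtain ⟨gs2, p2⟩ := exists_perm_cons hf'
    have p3 := p1.trans (p2.cons f)
    obtain ⟨k1, k2, k3, k4⟩ := tr p3
    cases ho : f'.op
    · exact no_merge hS k1 k2 k3 k4 h1 h3 ho
    · have ho' : f.op = false := by
        have := k1.1.cnt
        cases hf : f.op
        · rfl
        · simp [Face.map, ho, hf] at this; omega
      obtain ⟨k1, k2, k3, k4⟩ := tr (p3.trans (List.Perm.swap _ _ _))
      exact sym (no_merge hS k1 k2 k3 k4 h3 (by rwa [bar_bar]) ho')

end Tag

theorem Cyc.last {α : Type*} {φ : α → α} {u : List α} {s : α} (h : Cyc φ (u ++ [s])) :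
    (u = [] ∧ φ s = s) ∨ ∃ r, u = φ s :: r := by
  cases u with
  | nil => exact Or.inl ⟨rfl, (cyc_cons.1 h).2⟩
  | cons a r => exact Or.inr ⟨r, by rw [Pth.last (l := a :: r) (cyc_cons.1 h)]⟩

theorem Cyc.next {α : Type*} {φ : α → α} {w : List α} {s : α} (h : Cyc φ w) (hs : s ∈ w) :
    (∃ u v, w = u ++ s :: φ s :: v) ∨ ∃ u, w = u ++ [s] := by
  obtain ⟨u, v, rfl⟩ := List.append_of_mem hs
  cases v with
  | nil => exact Or.inr ⟨u, rfl⟩
  | cons t v => exact Or.inl ⟨u, v, by rw [(cyc_cons.1 h.rot).2.head]⟩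

theorem idxOf_next {α : Type*} [BEq α] [LawfulBEq α] {u v : List α} {s t : α}
    (h : (u ++ s :: t :: v).Nodup) :
    (u ++ s :: t :: v).idxOf t = (u ++ s :: t :: v).idxOf s + 1 := by
  simp only [List.nodup_append, List.nodup_cons, List.mem_cons, not_or] at h
  rw [List.idxOf_append_of_notMem fun k => h.2.2 _ k _ (Or.inr (Or.inl rfl)) rfl,
    List.idxOf_append_of_notMem fun k => h.2.2 _ k _ (Or.inl rfl) rfl,
    List.idxOf_cons_ne _ h.2.1.1.1, List.idxOf_cons_self, List.idxOf_cons_self]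

omit [Fintype D] in
theorem length_le_per {g : ℕ} : ∀ fs : List (Face H D),
    (∀ f ∈ fs, f.op = false → g ≤ f.p.length) → fs.length * g ≤ per fs + fs.countP Face.op * g
  | [], _ => by simp
  | f :: fs, h => by
    have h1 := length_le_per fs fun f' hf => h f' (by simp [hf])
    have h2 := h f (by simp)
    cases ho : f.op
    · have := h2 ho
      simp [ho, add_mul]; omega
    · simp [ho, add_mul]; omega

theorem MinC.girth (hS : Sheets Γ β ed c fA) {g : ℕ} (hG : Γ.Girth β g) {fs : List (Face H D)}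
    (h : MinC Γ β ed c x y W n0 z fs) {f : Face H D} (hf : f ∈ fs) (ho : f.op = false) :
    g ≤ f.p.length := by
  obtain ⟨a, b, h1, -, h2⟩ := h.1.ok f hf
  obtain rfl := h2 ho
  exact hG _ _ h1 (h.rd hS hf) (h.ne_nil hf ho)

open Finset in
theorem card_last {α : Type} [DecidableEq α] (gs : List (Face H α)) (q : Face H α → Bool)
    (T : Finset α) (X : Finset T) (hX : ∀ s ∈ X, ∃ f ∈ gs, q f = true ∧ ∃ u, f.p = u ++ [s.1]) :
    #X ≤ gs.countP q := by
  refine (card_le_card_of_injOn (t := ((gs.filter q).filterMap fun f => f.p.getLast?).toFinset)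
    Subtype.val (fun s hs => ?_) Subtype.val_injective.injOn).trans ?_
  · obtain ⟨f, hf, h1, u, h2⟩ := hX s hs
    simp only [mem_coe, List.mem_toFinset, List.mem_filterMap, List.mem_filter]
    exact ⟨f, ⟨hf, h1⟩, by simp [h2]⟩
  · rw [List.countP_eq_length_filter]
    exact (List.toFinset_card_le _).trans (List.length_filterMap_le _ _)

open Finset in
theorem MinC.ineq [Nonempty D] (hS : Sheets Γ β ed c fA) (hn0 : n0 ≤ 1) {g K : ℕ} {c0 : ℝ}
    (hg : 1 ≤ g) (hG : Γ.Girth β g) (hL : Γ.LocIneq β x g K c0) {fs : List (Face H D)}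
    (h : MinC Γ β ed c x y W n0 z fs) (hlo : g ≤ per fs) (hhi : per fs ≤ K * g) :
    c0 * per fs ≤ W.length := by
  classical
  have hF : fs.length ≤ K + 1 := by
    have h1 := length_le_per (g := g) fs fun f hf ho => h.girth hS hG hf ho
    rw [h.1.cnt] at h1
    have h2 := Nat.mul_le_mul_right g hn0
    exact Nat.le_of_mul_le_mul_right (c := g) (by rw [add_mul]; omega) hg
  obtain ⟨E, hE, lb, dt, W0, gs, rfl, rfl, hl, nd0, cj0⟩ := exists_tag_face ed fs W h.1.cj
  obtain ⟨W', hW', nd, cj, hb⟩ := exists_nobridge (wd := Face.p) _ W0 le_rfl nd0 cj0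
  obtain ⟨φ, hφ, hfix⟩ := exists_sys (wd := Face.p) nd cj
  set L := gs.flatMap Face.p with hLd
  have ndL : L.Nodup := (List.nodup_append.1 nd).2.1
  have dis : ∀ s ∈ W', s ∉ L := fun s h1 h2 => (List.nodup_append.1 nd).2.2 s h1 s h2 rfl
  have φL : ∀ s ∈ L, φ s ∈ L := fun s hs => by
    obtain ⟨f, hf, h1⟩ := List.mem_flatMap.1 hs
    exact List.mem_flatMap.2 ⟨f, hf, (hφ.cf f hf).mem h1⟩
  have hLφ : ∀ s, φ s ∈ L.toFinset ↔ s ∈ L.toFinset := fun s => by
    simp only [List.mem_toFinset]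
    refine ⟨fun h1 => ?_, φL s⟩
    by_contra h2
    by_cases h3 : s ∈ W'
    · exact dis _ (hφ.cW.mem h3) h1
    · exact h2 (by rwa [hfix s (by simp [h2, h3])] at h1)
  have hlab : ∀ s ∈ L, Γ.lab (dt s) = lm fA (lm lb s) := fun s hs => by
    obtain ⟨f, hf, h1⟩ := List.mem_flatMap.1 hs
    rw [hl f hf s h1, hS.ed_lab]
  have mem : ∀ s : L.toFinset, s.1 ∈ L := fun s => List.mem_toFinset.1 s.2
  let io : L.toFinset → Option L.toFinset := fun s =>
    if h : bar s.1 ∈ L.toFinset then some ⟨bar s.1, h⟩ else none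
  have io1 : ∀ s t, io s = some t ↔ t.1 = bar s.1 := fun s t => by
    simp only [io]
    split_ifs with h1
    · rw [Option.some.injEq, Subtype.ext_iff, eq_comm]
    · exact ⟨fun e => (by cases e), fun e => (h1 (e ▸ t.2)).elim⟩
  have io2 : ∀ s, io s = none ↔ bar s.1 ∈ W' := fun s => by
    have h1 := hφ.bar_mem (List.mem_append_right _ (mem s))
    simp only [io]
    split_ifs with h2
    · exact ⟨fun e => (by cases e), fun e => (dis _ e (List.mem_toFinset.1 h2)).elim⟩
    · exact ⟨fun _ => (List.mem_append.1 h1).resolve_right (List.mem_toFinset.not.1 h2),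
        fun _ => rfl⟩
  let Br : Finset L.toFinset := {s | ∃ f ∈ gs, f.op = true ∧ ∃ u, f.p = u ++ [s.1]}
  let Wr : Finset L.toFinset := {s | ∃ f ∈ gs, ∃ u, f.p = u ++ [s.1]}
  have cT : Fintype.card L.toFinset = per (gs.map (Face.map dt)) := by
    rw [Fintype.card_coe, List.toFinset_card_of_nodup ndL, per_map, hLd, List.length_flatMap, per]
  have cB : #Br ≤ 1 := by
    refine (card_last gs Face.op _ _ fun s hs => (mem_filter.1 hs).2).trans ?_
    have := h.1.cnt
    rw [List.countP_map] at this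
    exact (le_of_eq this).trans hn0
  have hF' : gs.length ≤ K + 1 := by simpa using hF
  have nbr : ∀ s, s ∉ Br → Γ.src (dt (φ s.1)) = Γ.src (β (dt s.1)) ∧ dt (φ s.1) ≠ β (dt s.1) := by
    intro s hs
    obtain ⟨f, hf, h1⟩ := List.mem_flatMap.1 (mem s)
    have hf' : f.map dt ∈ gs.map (Face.map dt) := List.mem_map_of_mem hf
    obtain ⟨a, b, k1, -, k2⟩ := h.1.ok _ hf'
    rcases (hφ.cf f hf).next h1 with ⟨u, v, e⟩ | ⟨u, e⟩
    · have k3 := h.rd hS hf'
      simp only [Face.map, e, List.map_append, List.map_cons] at k1 k3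
      obtain ⟨a', -, -, k4, -⟩ := path_append.1 k1
      exact ⟨k4, List.isChain_iff_forall_rel_of_append_cons_cons.1 k3 rfl⟩
    · have ho : f.op = false := by
        cases ho : f.op
        · rfl
        · exact (hs (mem_filter.2 ⟨mem_univ _, f, hf, ho, u, e⟩)).elim
      obtain rfl := k2 ho
      rcases Cyc.last (e ▸ hφ.cf f hf) with ⟨rfl, k3⟩ | ⟨r, rfl⟩
      · simp only [Face.map, e, List.nil_append, List.map_cons, List.map_nil] at k1
        rw [k3]
        exact ⟨k1.1.trans k1.2.symm, (hS.isM.ne_self _).symm⟩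
      · have k3 := h.cyc hS hf' ho (dt s.1) (r.map dt)
        simp only [Face.map, e, List.cons_append, List.map_cons, List.map_nil,
          List.map_append] at k1 k3
        obtain ⟨a', -, -, k4⟩ := path_append.1 k1.2
        exact ⟨k1.1.trans k4.symm, fun e => k3 (by rw [e])⟩
  have eu := euler (φ := φ) (ws := W' :: gs.map Face.p)
    (by simpa [List.map_map, Function.comp_def] using cj)
    (by simpa [hLd, List.flatMap_def] using nd)
    (by
      simp only [List.forall_mem_cons, List.forall_mem_map]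
      exact ⟨hφ.cW, hφ.cf⟩)
  have eL : (W' :: gs.map Face.p).flatten = W' ++ L := by simp [hLd, List.flatMap_def]
  rw [eL] at eu
  have fx : #{s ∈ (W' ++ L).toFinset | nu φ s = s} ≤ 1 := by
    refine le_trans (card_le_card_of_injOn (t := Br.map (Function.Embedding.subtype _)) bar
      (fun s hs => ?_) bar_injective.injOn) (by rwa [card_map])
    simp only [coe_filter, List.mem_toFinset, Set.mem_ofPred_eq, nu_apply] at hs
    have h1 := hφ.bar_mem hs.1
    rcases List.mem_append.1 h1 with h2 | h2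
    · exact (hb _ h2 (by rw [bar_bar, ← hs.2]; exact hφ.cW.mem h2)).elim
    · simp only [coe_map, Function.Embedding.coe_subtype, Set.mem_image, mem_coe]
      refine ⟨⟨bar s, List.mem_toFinset.2 h2⟩, ?_, rfl⟩
      by_contra h3
      obtain ⟨k1, k2⟩ := nbr _ h3
      refine k2 (Γ.inj _ _ k1 ?_)
      rw [hS.isM.lab_b, hlab _ h2, hlab _ (φL _ h2), hs.2]
      simp
  have := hL L.toFinset (φ.subtypePerm hLφ) (fun s => dt s.1) io Br Wr (fun s => L.idxOf s.1)
    (cT ▸ hlo) (cT ▸ hhi) ?_ cB ?_ ?_ ?_ nbr ?_ ?_ ?_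
  · rw [cT] at this
    refine this.trans (Nat.cast_le.2 ?_)
    rw [List.length_map]
    refine le_trans (card_le_card_of_injOn (t := W'.toFinset) (fun s => bar s.1)
      (fun s hs => ?_) (bar_injective.comp Subtype.val_injective).injOn)
      ((List.toFinset_card_le _).trans hW')
    simpa [io2] using hs
  · intro s t e
    rw [io1] at e ⊢
    refine ⟨by rw [e, bar_bar], by rw [hlab _ (mem s), hlab _ (mem t), e]; rfl, ?_⟩
    rw [e]
    exact no_orig hS hn0 h hl nd0 cj0 (mem s) (e ▸ mem t)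
  · intro s hs
    obtain ⟨f, hf, -, h1⟩ := (mem_filter.1 hs).2
    exact mem_filter.2 ⟨mem_univ _, f, hf, h1⟩
  · refine (card_last gs (fun _ => true) _ _ fun s hs => ?_).trans ?_
    · obtain ⟨f, hf, h1⟩ := (mem_filter.1 hs).2
      exact ⟨f, hf, rfl, h1⟩
    · exact List.countP_le_length.trans (by omega)
  · intro s hs
    obtain ⟨f, hf, ho, u, e⟩ := (mem_filter.1 hs).2
    obtain ⟨a, b, k1, k2, -⟩ := h.1.ok _ (List.mem_map_of_mem (f := Face.map dt) hf)
    obtain ⟨rfl, -⟩ := k2 ho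
    show Γ.src (dt (φ s.1)) = a
    rcases Cyc.last (e ▸ hφ.cf f hf) with ⟨rfl, k3⟩ | ⟨r, rfl⟩
    · simp only [Face.map, e, List.nil_append, List.map_cons, List.map_nil] at k1
      rw [k3]; exact k1.1
    · simp only [Face.map, e, List.cons_append, List.map_cons] at k1
      exact k1.1
  · intro s t e
    exact Subtype.ext ((List.idxOf_inj (mem s)).1 e)
  · intro s hs
    obtain ⟨f, hf, h1⟩ := List.mem_flatMap.1 (mem s)
    rcases (hφ.cf f hf).next h1 with ⟨u, v, e⟩ | ⟨u, e⟩
    · obtain ⟨g1, g2, e2⟩ := List.append_of_mem hf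
      have e3 : L = (g1.flatMap Face.p ++ u) ++ s.1 :: φ s.1 :: (v ++ g2.flatMap Face.p) := by
        refine hLd.trans ?_
        generalize s.1 = t at e
        rw [e2]; simp [e]
      show L.idxOf (φ s.1) = L.idxOf s.1 + 1
      generalize s.1 = t at e3
      rw [e3] at ndL ⊢
      exact idxOf_next ndL
    · exact (hs (mem_filter.2 ⟨mem_univ _, f, hf, u, e⟩)).elim
  · refine le_trans (card_le_card_of_injOn (t := {s ∈ (W' ++ L).toFinset | nu φ (nu φ s) ≠ s})
      (fun s => φ s.1) (fun s hs => ?_) (φ.injective.comp Subtype.val_injective).injOn) ?_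
    · simp only [coe_filter, List.mem_toFinset, Set.mem_ofPred_eq, mem_univ, true_and] at hs ⊢
      refine ⟨List.mem_append_right _ (φL _ (mem s)), fun e => hs ?_⟩
      rw [nu_apply, nu_apply] at e
      have e1 : φ (bar (φ s.1)) = bar s.1 := bar_injective (by rw [φ.injective e, bar_bar])
      rcases List.mem_append.1 (hφ.bar_mem (List.mem_append_right _ (φL _ (mem s)))) with k | k
      · exact Or.inl ⟨(io2 _).2 (e1 ▸ hφ.cW.mem k), (io2 _).2 k⟩
      · exact Or.inr ⟨⟨_, List.mem_toFinset.2 k⟩, (io1 _ _).2 rfl, (io1 _ _).2 e1⟩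
    · simp only [List.length_cons, List.length_map] at eu
      omega

end Crest.Agent.GSC
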