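import Mathlib

/-! A linear bound on the algebraic area of loops gives the four-point condition. -/

set_option autoImplicit false
set_option linter.unusedSectionVars false
set_option linter.style.haveILetI false

namespace Crest.Agent.GSC.Slim
open Finset

variable {X : Type*}

structure GM (d : X → X → ℕ) : Prop where
  refl : ∀ x, d x x = 0
  symm : ∀ x y, d x y = d y x
  tri : ∀ x y z, d x z ≤ d x y + d y z
  geo : ∀ x y, ∃ c : ℕ → X, c 0 = x ∧ c (d x y) = y ∧ ∀ i j, i ≤ j → j ≤ d x y →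
    d (c i) (c j) = j - i

inductive Pth (d : X → X → ℕ) (φ ψ : X → ℤ) : X → X → ℕ → ℤ → Prop
  | refl (x : X) : Pth d φ ψ x x 0 0
  | step {x x' y : X} {n : ℕ} {A : ℤ} : d x x' ≤ 1 → Pth d φ ψ x' y n A →
      Pth d φ ψ x y (n + 1) ((φ x + φ x') * (ψ x' - ψ x) + A)

def Lip (d : X → X → ℕ) (φ : X → ℤ) : Prop := ∀ x y, d x y ≤ 1 → |φ x - φ y| ≤ 1

def AB (d : X → X → ℕ) (C : ℕ) : Prop :=
  ∀ φ ψ, Lip d φ → Lip d ψ → ∀ x n A, Pth d φ ψ x x n A → |A| ≤ C * n

variable {d : X → X → ℕ} {φ ψ : X → ℤ}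

lemma Pth.cast {x y : X} {n n' : ℕ} {A A' : ℤ} (h : Pth d φ ψ x y n A) (h1 : n = n')
    (h2 : A = A') : Pth d φ ψ x y n' A' := h1 ▸ h2 ▸ h

lemma Pth.trans {x y z : X} {n m : ℕ} {A B : ℤ} (h : Pth d φ ψ x y n A) (h' : Pth d φ ψ y z m B) :
    Pth d φ ψ x z (n + m) (A + B) := by
  induction h with
  | refl => exact h'.cast (by simp) (by simp)
  | step h1 _ ih => exact (Pth.step h1 (ih h')).cast (by ring) (by ring)

lemma Pth.symm (hd : GM d) {x y : X} {n : ℕ} {A : ℤ} (h : Pth d φ ψ x y n A) :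
    Pth d φ ψ y x n (-A) := by
  induction h with
  | refl => exact (Pth.refl _).cast rfl (by simp)
  | step h1 _ ih =>
    exact (ih.trans (Pth.step (by rwa [hd.symm]) (Pth.refl _))).cast rfl (by ring)

lemma pth_seg (c : ℕ → X) (a n : ℕ) (hc : ∀ t < n, d (c (a + t)) (c (a + t + 1)) ≤ 1) :
    Pth d φ ψ (c a) (c (a + n)) n
      (∑ t ∈ range n, (φ (c (a + t)) + φ (c (a + t + 1))) * (ψ (c (a + t + 1)) - ψ (c (a + t)))) := by
  induction n with
  | zero => exact Pth.refl _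
  | succ n ih =>
    exact ((ih (fun t ht => hc t (by omega))).trans
      (Pth.step (hc n (by omega)) (Pth.refl _))).cast rfl (by rw [sum_range_succ]; ring)

lemma pth_short (hd : GM d) {k : ℕ} (h0 : ∀ x, 0 ≤ φ x ∧ φ x ≤ k) (hψ : Lip d ψ) (x y : X) :
    ∃ A, Pth d φ ψ x y (d x y) A ∧ |A| ≤ 2 * k * d x y := by
  obtain ⟨c, c0, c1, c2⟩ := hd.geo x y
  have hs : ∀ t < d x y, d (c (0 + t)) (c (0 + t + 1)) ≤ 1 := by
    intro t ht; rw [c2 _ _ (by omega) (by omega)]; omega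
  have := pth_seg (d := d) (φ := φ) (ψ := ψ) c 0 (d x y) hs
  rw [zero_add, c0, c1] at this
  refine ⟨_, this, (abs_sum_le_sum_abs _ _).trans ?_⟩
  refine (sum_le_card_nsmul _ _ (2 * k : ℤ) ?_).trans (by simp [mul_comm])
  intro t ht
  rw [abs_mul]
  have h1 := hψ _ _ (hs t (mem_range.1 ht))
  rw [abs_sub_comm] at h1
  have h2 := h0 (c (0 + t))
  have h3 := h0 (c (0 + t + 1))
  have h4 : |φ (c (0 + t)) + φ (c (0 + t + 1))| ≤ 2 * k := by
    rw [abs_of_nonneg (by linarith)]; linarith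
  calc _ ≤ (2 * k : ℤ) * 1 := mul_le_mul h4 h1 (abs_nonneg _) (by positivity)
    _ = _ := by ring

/-- a path all of whose points are far from the segment `c [a, a + n]` -/
def FarP (d : X → X → ℕ) (k : ℕ) (c : ℕ → X) (a n : ℕ) (x y : X) (m : ℕ) : Prop :=
  ∀ φ ψ : X → ℤ, (∀ z, (∀ s ≤ n, k ≤ d (c (a + s)) z) → φ z = 0) → Pth d φ ψ x y m 0

lemma farP_seg {k : ℕ} {c : ℕ → X} {a n : ℕ} (e : ℕ → X) (i m : ℕ)
    (he : ∀ t < m, d (e (i + t)) (e (i + t + 1)) ≤ 1)
    (hf : ∀ s ≤ n, ∀ t ≤ m, k ≤ d (c (a + s)) (e (i + t))) :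
    FarP d k c a n (e i) (e (i + m)) m := by
  intro φ ψ h
  refine (pth_seg e i m he).cast rfl (sum_eq_zero fun t ht => ?_)
  rw [mem_range] at ht
  rw [h _ (fun s hs => hf s hs t ht.le), h (e (i + t + 1)) (fun s hs => hf s hs (t + 1) ht)]
  simp

lemma FarP.symm (hd : GM d) {k : ℕ} {c : ℕ → X} {a n : ℕ} {x y : X} {m : ℕ}
    (h : FarP d k c a n x y m) : FarP d k c a n y x m := fun φ ψ h' =>
  ((h φ ψ h').symm hd).cast rfl (by simp)

lemma side (hd : GM d) {C : ℕ} (hC : AB d C) {k r : ℕ} {c : ℕ → X} {a n : ℕ}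
    (hc : ∀ i j, i ≤ j → j ≤ n → d (c (a + i)) (c (a + j)) = j - i)
    {x1 y1 x2 y2 : X} {m1 m2 : ℕ} (h1 : FarP d k c a n x1 y1 m1) (h2 : FarP d k c a n x2 y2 m2)
    (s1 : d (c (a + n)) x1 ≤ r) (s2 : d y1 x2 ≤ r) (s3 : d y2 (c a) ≤ r) :
    2 * k * n ≤ 6 * k * r + C * (n + m1 + m2 + 3 * r) := by
  let φ : X → ℤ := fun z => (((range (n + 1)).sup fun s => k - d (c (a + s)) z : ℕ) : ℤ)
  let ψ : X → ℤ := fun z => d (c a) z
  have hφk : ∀ z, ((range (n + 1)).sup fun s => k - d (c (a + s)) z) ≤ k :=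
    fun z => Finset.sup_le fun s _ => Nat.sub_le _ _
  have h0 : ∀ x, 0 ≤ φ x ∧ φ x ≤ k := fun x => ⟨by simp [φ], by simp only [φ]; exact_mod_cast hφk x⟩
  have hφ : Lip d φ := by
    have : ∀ x y, d x y ≤ 1 → φ x ≤ φ y + 1 := by
      intro x y hxy
      simp only [φ]
      norm_cast
      refine Finset.sup_le fun s hs => ?_
      have h1 := Finset.le_sup (f := fun s => k - d (c (a + s)) y) hs
      have h2 := hd.tri (c (a + s)) x y
      omega
    intro x y hxy
    have a1 := this x y hxy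
    have a2 := this y x (by rwa [hd.symm])
    rw [abs_le]; constructor <;> linarith
  have hψ : Lip d ψ := by
    intro x y hxy
    have a1 := hd.tri (c a) x y
    have a2 := hd.tri (c a) y x
    rw [hd.symm y x] at a2
    simp only [ψ]
    rw [abs_le]; constructor <;> omega
  have hz : ∀ z, (∀ s ≤ n, k ≤ d (c (a + s)) z) → φ z = 0 := by
    intro z hz
    simp only [φ, Nat.cast_eq_zero]
    refine Nat.eq_zero_of_le_zero (Finset.sup_le fun s hs => ?_)
    have := hz s (by rw [mem_range] at hs; omega)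
    omega
  have hcore : ∀ s ≤ n, φ (c (a + s)) = k := by
    intro s hs
    simp only [φ, Nat.cast_inj]
    refine le_antisymm (hφk _) ?_
    have := Finset.le_sup (f := fun s' => k - d (c (a + s')) (c (a + s)))
      (mem_range.2 (show s < n + 1 by omega))
    simpa [hd.refl] using this
  have p0 : Pth d φ ψ (c a) (c (a + n)) n (2 * k * n) := by
    refine (pth_seg c a n (fun t ht => by
      rw [add_assoc, hc _ _ (by omega) (by omega)]; omega)).cast rfl ?_
    rw [sum_congr rfl (g := fun _ => (2 * k : ℤ))]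
    · simp [mul_comm]
    · intro t ht
      rw [mem_range] at ht
      have a1 := hc 0 t (by omega) (by omega)
      have a2 := hc 0 (t + 1) (by omega) (by omega)
      simp only [add_zero, Nat.sub_zero] at a1 a2
      rw [add_assoc, hcore t ht.le, hcore (t + 1) ht]
      simp only [ψ, a1, a2]
      push_cast; ring
  obtain ⟨A1, q1, b1⟩ := pth_short hd h0 hψ (c (a + n)) x1
  obtain ⟨A2, q2, b2⟩ := pth_short hd h0 hψ y1 x2
  obtain ⟨A3, q3, b3⟩ := pth_short hd h0 hψ y2 (c a)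
  have := hC φ ψ hφ hψ _ _ _
    (((((p0.trans q1).trans (h1 φ ψ hz)).trans q2).trans (h2 φ ψ hz)).trans q3)
  rw [abs_le] at this b1 b2 b3
  have s1' : (d (c (a + n)) x1 : ℤ) ≤ r := by exact_mod_cast s1
  have s2' : (d y1 x2 : ℤ) ≤ r := by exact_mod_cast s2
  have s3' : (d y2 (c a) : ℤ) ≤ r := by exact_mod_cast s3
  have hk : (0 : ℤ) ≤ k := by positivity
  have hC0 : (0 : ℤ) ≤ C := by positivity
  have : (2 * k * n : ℤ) ≤ 6 * k * r + C * (n + m1 + m2 + 3 * r) := by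
    have := this.2
    push_cast at this
    nlinarith [b1.1, b2.1, b3.1]
  exact_mod_cast this

lemma hexagon (hd : GM d) {C : ℕ} (hC : AB d C) {k : ℕ} (hk : k = 4 * C + 1) {α e1 e2 : ℕ → X}
    {a n i j : ℕ} (hα : ∀ s t, s ≤ t → t ≤ n → d (α (a + s)) (α (a + t)) = t - s)
    (h1 : ∀ s t, s ≤ t → t ≤ i → d (e1 s) (e1 t) = t - s)
    (h2 : ∀ s t, s ≤ t → t ≤ j → d (e2 s) (e2 t) = t - s) (h0 : e1 0 = e2 0)
    (f1 : ∀ s ≤ n, ∀ t ≤ i, k < d (α (a + s)) (e1 t))
    (f2 : ∀ s ≤ n, ∀ t ≤ j, k < d (α (a + s)) (e2 t))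
    (n1 : d (e1 i) (α a) ≤ k + 1) (n2 : d (α (a + n)) (e2 j) ≤ k + 1) :
    n ≤ 12 * k * (k + 1) + 12 * C * (k + 1) := by
  classical
  let Pp : ℕ → Prop := fun r => ∃ r' ≤ j, d (e1 r) (e2 r') ≤ k
  have hP0 : Pp 0 := ⟨0, by omega, by rw [h0, hd.refl]; omega⟩
  set i' := Nat.findGreatest Pp i with hi'
  have hi'le : i' ≤ i := Nat.findGreatest_le i
  obtain ⟨j', hj', hd'⟩ : Pp i' := Nat.findGreatest_spec (Nat.zero_le i) hP0
  obtain ⟨a1, m1, ha1, hm1, hcase⟩ : ∃ a1 m1, a1 + m1 = i ∧ d (e2 j') (e1 a1) ≤ k + 1 ∧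
      (m1 = 0 ∨ a1 = i' + 1) := by
    rcases hi'le.lt_or_eq with h | h
    · refine ⟨i' + 1, i - (i' + 1), by omega, ?_, Or.inr rfl⟩
      have t1 := hd.tri (e2 j') (e1 i') (e1 (i' + 1))
      rw [h1 _ _ (by omega) (by omega), hd.symm (e2 j') (e1 i')] at t1
      omega
    · exact ⟨i, 0, rfl, by rw [hd.symm, ← h]; omega, Or.inl rfl⟩
  obtain ⟨m2, rfl⟩ := Nat.exists_eq_add_of_le hj'
  subst ha1
  have u1 : ∀ t < m1, d (e1 (a1 + t)) (e1 (a1 + t + 1)) ≤ 1 := by
    intro t ht; rw [h1 _ _ (by omega) (by omega)]; omega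
  have u2 : ∀ t < m2, d (e2 (j' + t)) (e2 (j' + t + 1)) ≤ 1 := by
    intro t ht; rw [h2 _ _ (by omega) (by omega)]; omega
  have u3 : ∀ t < n, d (α (a + t)) (α (a + t + 1)) ≤ 1 := by
    intro t ht; rw [add_assoc, hα _ _ (by omega) (by omega)]; omega
  have hβ : m2 ≤ n + m1 + 3 * (k + 1) := by
    have t0 := h2 j' (j' + m2) (by omega) le_rfl
    have t1 := hd.tri (e2 j') (e1 a1) (e2 (j' + m2))
    have t2 := hd.tri (e1 a1) (e1 (a1 + m1)) (e2 (j' + m2))
    have t3 := hd.tri (e1 (a1 + m1)) (α a) (e2 (j' + m2))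
    have t4 := hd.tri (α a) (α (a + n)) (e2 (j' + m2))
    have t5 := h1 a1 (a1 + m1) (by omega) le_rfl
    have t6 := hα 0 n (by omega) le_rfl
    rw [add_zero] at t6
    omega
  have S1 := side hd hC (k := k) (r := k + 1) hα
    ((farP_seg e2 j' m2 u2 (fun s hs t ht => (f2 s hs _ (by omega)).le)).symm hd)
    (farP_seg e1 a1 m1 u1 (fun s hs t ht => (f1 s hs _ (by omega)).le)) n2 hm1 n1
  have S2 : 2 * k * m1 ≤ 6 * k * (k + 1) + C * (m1 + n + m2 + 3 * (k + 1)) := by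
    rcases hcase with h | h
    · rw [h]; omega
    · refine side hd hC (k := k) (r := k + 1) (c := e1) (a := a1)
        (fun s t hs ht => by rw [h1 _ _ (by omega) (by omega)]; omega)
        (farP_seg α a n u3 (fun s hs t ht => by
          rw [hd.symm]; exact (f1 t ht _ (by omega)).le))
        ((farP_seg e2 j' m2 u2 (fun s hs t ht => ?_)).symm hd) n1 n2 hm1
      have := Nat.findGreatest_is_greatest (P := Pp) (k := a1 + s) (n := a1 + m1) (by omega)
        (by omega)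
      by_contra hc
      exact this ⟨j' + t, by omega, by omega⟩
  subst hk
  nlinarith

lemma slim (hd : GM d) {C : ℕ} (hC : AB d C) : ∃ δ : ℕ, ∀ (x y z : X) (α : ℕ → X), α 0 = x →
    α (d x y) = y → (∀ i j, i ≤ j → j ≤ d x y → d (α i) (α j) = j - i) → ∀ u ≤ d x y,
    (∃ p, d z p + d p x = d z x ∧ d (α u) p ≤ δ) ∨ (∃ p, d z p + d p y = d z y ∧ d (α u) p ≤ δ) := by
  classical
  set k := 4 * C + 1 with hk
  refine ⟨12 * k * (k + 1) + 12 * C * (k + 1) + k + 2, ?_⟩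
  intro x y z α a0 a1 a2 u hu
  obtain ⟨E1, b0, b1, b2⟩ := hd.geo z x
  obtain ⟨E2, c0, c1, c2⟩ := hd.geo z y
  let near : ℕ → Prop := fun r => (∃ t ≤ d z x, d (α r) (E1 t) ≤ k) ∨ ∃ t ≤ d z y, d (α r) (E2 t) ≤ k
  have nz : near 0 := Or.inl ⟨_, le_rfl, by rw [a0, b1, hd.refl]; omega⟩
  have ny : near (d x y) := Or.inr ⟨_, le_rfl, by rw [a1, c1, hd.refl]; omega⟩
  set s := Nat.findGreatest near u with hs
  have hsu : s ≤ u := Nat.findGreatest_le u
  have hns : near s := Nat.findGreatest_spec (Nat.zero_le u) nz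
  have hfin : u - s ≤ 12 * k * (k + 1) + 12 * C * (k + 1) + 2 := by
    rcases hsu.lt_or_eq with hlt | heq
    swap
    · omega
    have hex : ∃ t, u ≤ t ∧ near t := ⟨_, hu, ny⟩
    set t := Nat.find hex with ht
    have htu := (Nat.find_spec hex).1
    have hnt := (Nat.find_spec hex).2
    have htle : t ≤ d x y := Nat.find_min' hex ⟨hu, ny⟩
    rw [← ht] at htu hnt
    have hfar : ∀ r, s < r → r < t → ¬ near r := by
      intro r h1 h2 hr
      by_cases h3 : r ≤ u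
      · exact Nat.findGreatest_is_greatest h1 h3 hr
      · exact Nat.find_min hex h2 ⟨by omega, hr⟩
    by_cases hst : t ≤ s + 1
    · omega
    have key : ∀ r, near r → ∃ (e : ℕ → X) (i : ℕ), e 0 = z ∧
        (∀ s t, s ≤ t → t ≤ i → d (e s) (e t) = t - s) ∧ d (α r) (e i) ≤ k ∧
        ∀ r', ¬ near r' → ∀ t ≤ i, k < d (α r') (e t) := by
      rintro r (⟨i, hi, h⟩ | ⟨i, hi, h⟩)
      · refine ⟨E1, i, b0, fun s t h1 h2 => b2 s t h1 (by omega), h, fun r' hr' t ht => ?_⟩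
        by_contra hc
        exact hr' (Or.inl ⟨t, by omega, by omega⟩)
      · refine ⟨E2, i, c0, fun s t h1 h2 => c2 s t h1 (by omega), h, fun r' hr' t ht => ?_⟩
        by_contra hc
        exact hr' (Or.inr ⟨t, by omega, by omega⟩)
    obtain ⟨e1, i, p0, p1, p2, p3⟩ := key s hns
    obtain ⟨e2, j, q0, q1, q2, q3⟩ := key t hnt
    have := hexagon hd hC hk (α := α) (a := s + 1) (n := t - s - 2)
      (fun s' t' h1 h2 => by rw [a2 _ _ (by omega) (by omega)]; omega) p1 q1 (p0.trans q0.symm)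
      (fun s' h => p3 _ (hfar _ (by omega) (by omega)))
      (fun s' h => q3 _ (hfar _ (by omega) (by omega))) (by
        have t1 := hd.tri (e1 i) (α s) (α (s + 1))
        rw [a2 _ _ (by omega) (by omega), hd.symm (e1 i) (α s)] at t1
        omega) (by
        have t1 := hd.tri (α (s + 1 + (t - s - 2))) (α t) (e2 j)
        rw [a2 _ _ (by omega) (by omega)] at t1
        omega)
    omega
  have hus : d (α u) (α s) = u - s := by rw [hd.symm, a2 _ _ hsu hu]
  rcases hns with ⟨t, ht, h⟩ | ⟨t, ht, h⟩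
  · left
    refine ⟨E1 t, ?_, ?_⟩
    · have t1 := b2 0 t (by omega) ht
      have t2 := b2 t _ ht le_rfl
      rw [b0] at t1; rw [b1] at t2; omega
    · have := hd.tri (α u) (α s) (E1 t); omega
  · right
    refine ⟨E2 t, ?_, ?_⟩
    · have t1 := c2 0 t (by omega) ht
      have t2 := c2 t _ ht le_rfl
      rw [c0] at t1; rw [c1] at t2; omega
    · have := hd.tri (α u) (α s) (E2 t); omega

theorem four_point (hd : GM d) {C : ℕ} (hC : AB d C) : ∃ δ : ℕ, ∀ w x y z : X,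
    d x w + d y w + d x z ≤ d x w + d z w + d x y + δ ∨
      d y w + d z w + d x z ≤ d x w + d z w + d y z + δ := by
  classical
  obtain ⟨δ, hδ⟩ := slim hd hC
  refine ⟨6 * δ + 2, fun w x y z => ?_⟩
  obtain ⟨c, c0, c1, c2⟩ := hd.geo x z
  let Q1 : ℕ → Prop := fun u => ∃ p, d w p + d p x = d w x ∧ d (c u) p ≤ δ
  have h0 : Q1 0 := ⟨x, by rw [hd.refl]; rfl, by rw [c0, hd.refl]; omega⟩
  set u := Nat.findGreatest Q1 (d x z) with hu
  have hle : u ≤ d x z := Nat.findGreatest_le _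
  obtain ⟨p, p1, p2⟩ : Q1 u := Nat.findGreatest_spec (Nat.zero_le _) h0
  have e1 := c2 0 u (by omega) hle
  have e2 := c2 u _ hle le_rfl
  rw [c0] at e1; rw [c1] at e2
  have m1 : d w (c u) + u ≤ d w x + 2 * δ := by
    have t1 := hd.tri w p (c u)
    have t2 := hd.tri x p (c u)
    rw [hd.symm p (c u)] at t1 t2
    rw [hd.symm x p] at t2
    omega
  have m2 : d w (c u) + d x z ≤ d w z + u + 2 * δ + 2 := by
    rcases hle.lt_or_eq with h | h
    · rcases hδ x z w c c0 c1 c2 (u + 1) h with hq | ⟨q, q1, q2⟩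
      · exact (Nat.findGreatest_is_greatest (P := Q1) (k := u + 1) (n := d x z) (by omega) h
          hq).elim
      · have t0 := c2 (u + 1) _ h le_rfl
        have t1 := hd.tri w q (c (u + 1))
        have t2 := hd.tri (c (u + 1)) q z
        have t3 := hd.tri w (c (u + 1)) (c u)
        have t4 := c2 u (u + 1) (by omega) h
        rw [hd.symm q (c (u + 1))] at t1
        rw [hd.symm (c (u + 1)) (c u)] at t3
        rw [c1] at t0
        omega
    · rw [h, c1]; omega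
  rw [hd.symm x w, hd.symm y w, hd.symm z w]
  rcases hδ x z y c c0 c1 c2 u hle with ⟨q, q1, q2⟩ | ⟨q, q1, q2⟩
  · left
    have t1 := hd.tri w q x
    have t2 := hd.tri w q y
    have t3 := hd.tri w (c u) q
    rw [hd.symm q y] at t2
    rw [hd.symm x y]
    omega
  · right
    have t1 := hd.tri w q z
    have t2 := hd.tri w q y
    have t3 := hd.tri w (c u) q
    rw [hd.symm q y] at t2
    omega

end Crest.Agent.GSC.Slim
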