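import Crest.Agent.GSC.Switch

/-! (RA2) sparsity and diameter. -/

set_option autoImplicit false

namespace Crest.Agent.GSC

open Finset

namespace Design

variable {S V D C : Type} [Fintype D] [DecidableEq C] (Γ : Design S V D C)

open Classical in
theorem span_one [Fintype S] (Ω : Finset (D → D)) (hΩ : ∀ β ∈ Ω, Γ.IsM β) (M : ℕ) (L : ℝ)
    (hL : 0 ≤ L) (hE : EdgeBound Ω M L) (A : Finset V) (m : ℕ) (hm : m ≤ M) :
    (#{β ∈ Ω | m ≤ Γ.span β A} : ℝ) * L ^ m ≤
      2 ^ (A.card * (2 * Fintype.card S)) * A.card ^ m * #Ω := by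
  set DA : Finset D := univ.filter fun d => (Γ.lab d).2 = true ∧ Γ.src d ∈ A with hDA
  let tg : Finset D → D → Finset D := fun T d =>
    if d ∈ T then univ.filter fun e => Γ.src e ∈ A ∧ Γ.lab e = bar (Γ.lab d) else {d}
  have h1 : ∀ T : Finset D, T.card = m → (Fintype.piFinset (tg T)).card ≤ A.card ^ m := by
    intro T hT
    rw [Fintype.card_piFinset, ← hT, ← prod_const, ← prod_subset (subset_univ T)]
    · refine prod_le_prod' fun d hd => ?_
      simp only [tg, hd, if_true]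
      exact card_le_card_of_injOn Γ.src (fun e he => by simp at he; exact he.1) fun e he e' he' h => by
        simp at he he'
        exact Γ.inj _ _ h (he.2.trans he'.2.symm)
    · intro d _ hd; simp [tg, hd]
  have h2 : ∀ T ∈ powersetCard m DA, ∀ f : D → D,
      (#{β ∈ Ω | ∀ d ∈ T, β d = f d} : ℝ) * L ^ m ≤ #Ω := by
    intro T hT f
    obtain ⟨hT1, hT2⟩ := mem_powersetCard.1 hT
    rcases (Ω.filter fun β => ∀ d ∈ T, β d = f d).eq_empty_or_nonempty with h | ⟨β, hβ⟩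
    · rw [h]; simp
    obtain ⟨hβ1, hβ2⟩ := mem_filter.1 hβ
    have hM := hΩ β hβ1
    have hpos : ∀ d ∈ T, (Γ.lab d).2 = true := fun d hd => (mem_filter.1 (hT1 hd)).2.1
    have hneg : ∀ d ∈ T, (Γ.lab (f d)).2 = false := fun d hd => by
      rw [← hβ2 d hd, hM.lab]; simp [hpos d hd]
    have hne : ∀ d ∈ T, ∀ d' ∈ T, d ≠ f d' := fun d hd d' hd' h => by
      have := hpos d hd
      rw [h, hneg d' hd'] at this
      simp at this
    have := hE (T.toList.map fun d => (d, f d)) (by simp [hT2, hm]) (by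
      rw [List.nodup_flatMap]
      constructor
      · intro p hp
        obtain ⟨d, hd, rfl⟩ := List.mem_map.1 hp
        simpa using hne d (mem_toList.1 hd) d (mem_toList.1 hd)
      · rw [List.pairwise_map]
        refine (T.nodup_toList.imp_of_mem fun {a b} ha hb hab => ?_)
        have ha := mem_toList.1 ha
        have hb := mem_toList.1 hb
        have : f a ≠ f b := fun h => hab (hM.inj _ (by rw [hβ2 a ha, hβ2 b hb, h]))
        simp [Function.onFun, hab.symm, (hne a ha b hb).symm, hne b hb a ha, this.symm])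
    simp only [List.length_map, length_toList, hT2] at this
    refine le_trans (le_of_eq ?_) this
    congr 3
    ext β
    simp
  have h3 : (Ω.filter fun β => m ≤ Γ.span β A) ⊆ (powersetCard m DA).biUnion fun T =>
      (Fintype.piFinset (tg T)).biUnion fun f => Ω.filter fun β => ∀ d ∈ T, β d = f d := by
    intro β hβ
    obtain ⟨hβ1, hβ2⟩ := mem_filter.1 hβ
    obtain ⟨T, hT1, hT2⟩ := exists_subset_card_eq hβ2
    have hT : ∀ d ∈ T, (Γ.lab d).2 = true ∧ Γ.src d ∈ A ∧ Γ.src (β d) ∈ A := fun d hd => by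
      simpa using hT1 hd
    refine mem_biUnion.2 ⟨T, mem_powersetCard.2 ⟨fun d hd => ?_, hT2⟩,
      mem_biUnion.2 ⟨fun d => if d ∈ T then β d else d, Fintype.mem_piFinset.2 fun d => ?_,
        mem_filter.2 ⟨hβ1, fun d hd => by simp [hd]⟩⟩⟩
    · simp [hDA, (hT d hd).1, (hT d hd).2.1]
    · by_cases hd : d ∈ T
      · simp [tg, hd, (hT d hd).2.2, (hΩ β hβ1).lab]
      · simp [tg, hd]
  have h4 : (#{β ∈ Ω | m ≤ Γ.span β A} : ℝ) ≤ ∑ T ∈ powersetCard m DA,
      ∑ f ∈ Fintype.piFinset (tg T), (#{β ∈ Ω | ∀ d ∈ T, β d = f d} : ℝ) := by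
    exact_mod_cast (card_le_card h3).trans
      (card_biUnion_le.trans (sum_le_sum fun T _ => card_biUnion_le))
  have h5 : (powersetCard m DA).card ≤ 2 ^ (A.card * (2 * Fintype.card S)) := by
    refine (card_le_card (t := DA.powerset) fun T hT =>
      mem_powerset.2 (mem_powersetCard.1 hT).1).trans ?_
    rw [card_powerset]
    refine Nat.pow_le_pow_right (by norm_num) (le_trans (card_le_card fun d hd => ?_)
      (Γ.card_src_le A))
    simp only [hDA, mem_filter, mem_univ, true_and] at hd ⊢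
    exact hd.2
  refine (mul_le_mul_of_nonneg_right h4 (pow_nonneg hL _)).trans ?_
  rw [sum_mul]
  refine (sum_le_sum (g := fun _ => (A.card : ℝ) ^ m * #Ω) fun T hT => ?_).trans ?_
  · rw [sum_mul]
    refine (sum_le_sum fun f _ => h2 T hT f).trans ?_
    rw [sum_const, nsmul_eq_mul]
    refine mul_le_mul_of_nonneg_right ?_ (by positivity)
    exact_mod_cast h1 T (mem_powersetCard.1 hT).2
  · rw [sum_const, nsmul_eq_mul, mul_assoc]
    refine mul_le_mul_of_nonneg_right ?_ (by positivity)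
    exact_mod_cast h5

open Classical in
theorem span_all [Fintype S] [Fintype V] (Ω : Finset (D → D)) (hΩ : ∀ β ∈ Ω, Γ.IsM β)
    (N C0 : ℕ) (hN : 0 < N) (hV : Fintype.card V ≤ C0 * N) (hE : EdgeBound Ω (N / 8) (N / 2))
    (k j : ℕ) (hk : k + j ≤ N / 8) :
    (#{β ∈ Ω | ∃ A : Finset V, A.card = k ∧ k + j ≤ Γ.span β A} : ℝ) ≤
      (6 * C0 * 4 ^ Fintype.card S) ^ k * (2 * k / N) ^ j * #Ω := by
  have hN' : (0 : ℝ) < N := by exact_mod_cast hN
  have h1 : (#{β ∈ Ω | ∃ A : Finset V, A.card = k ∧ k + j ≤ Γ.span β A} : ℝ) ≤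
      ∑ A ∈ powersetCard k (univ : Finset V), (#{β ∈ Ω | k + j ≤ Γ.span β A} : ℝ) := by
    refine le_trans (Nat.cast_le.2 ((card_le_card (t := (powersetCard k univ).biUnion fun A =>
      Ω.filter fun β => k + j ≤ Γ.span β A) fun β hβ => ?_).trans card_biUnion_le)) (by simp)
    obtain ⟨h1, A, h2, h3⟩ := mem_filter.1 hβ
    exact mem_biUnion.2 ⟨A, by simp [h2], mem_filter.2 ⟨h1, h3⟩⟩
  have h2 : (#{β ∈ Ω | ∃ A : Finset V, A.card = k ∧ k + j ≤ Γ.span β A} : ℝ) * (N / 2) ^ (k + j) ≤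
      (Fintype.card V).choose k * (2 ^ (k * (2 * Fintype.card S)) * k ^ (k + j) * #Ω) := by
    refine (mul_le_mul_of_nonneg_right h1 (by positivity)).trans ?_
    rw [sum_mul]
    refine (sum_le_sum (g := fun _ => (2 : ℝ) ^ (k * (2 * Fintype.card S)) * k ^ (k + j) * #Ω)
      fun A hA => ?_).trans (by simp)
    have := Γ.span_one Ω hΩ _ _ (by positivity) hE A (k + j) hk
    rwa [(mem_powersetCard.1 hA).2] at this
  have h3 : ((Fintype.card V).choose k : ℝ) * k ^ k ≤ (3 * (C0 * N)) ^ k := by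
    have a1 : ((Fintype.card V).choose k : ℝ) ≤ (Fintype.card V : ℝ) ^ k / k.factorial :=
      Nat.choose_le_pow_div k _
    have a2 := Real.pow_div_factorial_le_exp (k : ℝ) (by positivity) k
    have a3 : Real.exp k ≤ 3 ^ k := by
      rw [← mul_one (k : ℝ), Real.exp_nat_mul]
      exact pow_le_pow_left₀ (Real.exp_pos _).le (by linarith [Real.exp_one_lt_d9]) _
    have a4 : (Fintype.card V : ℝ) ≤ C0 * N := by exact_mod_cast hV
    calc _ ≤ (Fintype.card V : ℝ) ^ k / k.factorial * k ^ k := by gcongr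
      _ = (k : ℝ) ^ k / k.factorial * (Fintype.card V : ℝ) ^ k := by ring
      _ ≤ 3 ^ k * (C0 * N) ^ k := by gcongr; exact a2.trans a3
      _ = _ := by rw [← mul_pow]
  refine le_of_mul_le_mul_right (h2.trans ?_) (by positivity : (0 : ℝ) < (N / 2) ^ (k + j))
  have e : (2 : ℝ) ^ (k * (2 * Fintype.card S)) = (4 ^ Fintype.card S) ^ k := by
    rw [mul_comm, pow_mul, pow_mul]; norm_num
  calc _ = ((Fintype.card V).choose k * k ^ k) * ((4 ^ Fintype.card S) ^ k * k ^ j * #Ω : ℝ) := by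
        rw [e, pow_add]; ring
    _ ≤ (3 * (C0 * N)) ^ k * ((4 ^ Fintype.card S) ^ k * k ^ j * #Ω : ℝ) := by gcongr
    _ = _ := by
        have e1 : (3 * (C0 * N) : ℝ) = (6 * C0) * (N / 2) := by ring
        have e2 : (k : ℝ) = (2 * k / N) * (N / 2) := by field_simp
        rw [e1, pow_add, mul_pow (6 * (C0 : ℝ)) (N / 2), mul_pow (6 * (C0 : ℝ)) (4 ^ _)]
        conv_lhs => rw [e2, mul_pow (2 * (k : ℝ) / N)]
        ring

theorem Reach.trans {β : D → D} {x y z : V} {r r' : ℕ} (h : Γ.Reach β x r y)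
    (h' : Γ.Reach β y r' z) : Γ.Reach β x (r + r') z := by
  obtain ⟨p, hp, hl⟩ := h
  obtain ⟨q, hq, hl'⟩ := h'
  exact ⟨p ++ q, (Γ.sw_path_append _ _ _ _ _).2 ⟨y, hp, hq⟩, by simp; omega⟩

theorem Reach.mono {β : D → D} {x y : V} {r r' : ℕ} (h : Γ.Reach β x r y) (hr : r ≤ r') :
    Γ.Reach β x r' y := by
  obtain ⟨p, hp, hl⟩ := h
  exact ⟨p, hp, hl.trans hr⟩

open Classical in
noncomputable def ball [Fintype V] (β : D → D) (x : V) (r : ℕ) : Finset V :=
  univ.filter fun y => Γ.Reach β x r y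

theorem mem_ball [Fintype V] {β : D → D} {x y : V} {r : ℕ} :
    y ∈ Γ.ball β x r ↔ Γ.Reach β x r y := by simp [ball]

open Classical in
theorem ball_span [Fintype V] {β : D → D} (hβ : Γ.IsM β) (hdeg : ∀ x, 3 ≤ #{d | Γ.src d = x})
    (x : V) (r : ℕ) : 3 * (Γ.ball β x r).card ≤ 2 * Γ.span β (Γ.ball β x (r + 1)) := by
  have h1 : 3 * (Γ.ball β x r).card ≤ #{d | Γ.src d ∈ Γ.ball β x r} := by
    rw [card_eq_sum_card_fiberwise (f := Γ.src) (t := Γ.ball β x r) (fun d hd => by simpa using hd),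
      mul_comm, ← smul_eq_mul, ← sum_const]
    refine sum_le_sum fun y hy => (hdeg y).trans (card_le_card fun d hd => ?_)
    simp only [mem_filter, mem_univ, true_and] at hd ⊢
    exact ⟨hd ▸ hy, hd⟩
  set P := univ.filter fun d => (Γ.lab d).2 = true ∧ Γ.src d ∈ Γ.ball β x (r + 1) ∧
    Γ.src (β d) ∈ Γ.ball β x (r + 1) with hP
  have h2 : (univ.filter fun d => Γ.src d ∈ Γ.ball β x r) ⊆ P ∪ P.image β := by
    intro d hd
    have hd : Γ.Reach β x r (Γ.src d) := Γ.mem_ball.1 (by simpa using hd)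
    have a1 : Γ.src d ∈ Γ.ball β x (r + 1) := Γ.mem_ball.2 (hd.mono Γ (by omega))
    have a2 : Γ.src (β d) ∈ Γ.ball β x (r + 1) :=
      Γ.mem_ball.2 (hd.trans Γ ⟨[d], ⟨rfl, rfl⟩, le_rfl⟩)
    by_cases h : (Γ.lab d).2 = true
    · exact mem_union_left _ (mem_filter.2 ⟨mem_univ _, h, a1, a2⟩)
    · refine mem_union_right _ (mem_image.2 ⟨β d, mem_filter.2 ⟨mem_univ _, ?_, a2, ?_⟩, (hβ d).1⟩)
      · rw [hβ.lab]; simpa using h
      · rw [(hβ d).1]; exact a1
  have h3 := (card_le_card h2).trans (card_union_le _ _)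
  have h4 : (P.image β).card ≤ P.card := card_image_le
  have h5 : Γ.span β (Γ.ball β x (r + 1)) = P.card := by
    unfold span; rw [hP]
  omega

open Classical in
theorem diam_of_exp [Fintype V] {β : D → D} (hβ : Γ.IsM β) (hdeg : ∀ x, 3 ≤ #{d | Γ.src d = x})
    (N Q C0 r0 : ℕ) (hV : Fintype.card V ≤ C0 * N)
    (hexp : ∀ A : Finset V, A.card * Q ≤ N → 4 * Γ.span β A ≤ 5 * A.card)
    (hr0 : 5 ^ r0 * N < 6 ^ r0) (hQ : 1 ≤ Q) : Γ.Diam β ((C0 * Q + 1) * (2 * r0 + 1)) := by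
  have hmono : ∀ x r r', r ≤ r' → Γ.ball β x r ⊆ Γ.ball β x r' := fun x r r' h y hy =>
    Γ.mem_ball.2 ((Γ.mem_ball.1 hy).mono Γ h)
  have h1 : ∀ x r, N < (Γ.ball β x r).card * Q ∨ 6 ^ r ≤ 5 ^ r * (Γ.ball β x r).card := by
    intro x r
    induction r with
    | zero =>
      right
      simpa using ⟨x, Γ.mem_ball.2 ⟨[], rfl, le_rfl⟩⟩
    | succ r ih =>
      by_cases h : N < (Γ.ball β x (r + 1)).card * Q
      · exact Or.inl h
      right
      have a1 := hexp _ (not_lt.1 h)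
      have a2 := Γ.ball_span hβ hdeg x r
      have a3 := Nat.mul_le_mul_right Q (card_le_card (hmono x r (r + 1) (by omega)))
      have a4 := ih.resolve_left (by omega)
      have a5 : 6 * (Γ.ball β x r).card ≤ 5 * (Γ.ball β x (r + 1)).card := by omega
      calc 6 ^ (r + 1) = 6 * 6 ^ r := by ring
        _ ≤ 6 * (5 ^ r * (Γ.ball β x r).card) := by gcongr
        _ = 5 ^ r * (6 * (Γ.ball β x r).card) := by ring
        _ ≤ 5 ^ r * (5 * (Γ.ball β x (r + 1)).card) := by gcongr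
        _ = _ := by ring
  have h2 : ∀ x, N < (Γ.ball β x r0).card * Q := by
    intro x
    rcases h1 x r0 with h | h
    · exact h
    · have := lt_of_mul_lt_mul_left (hr0.trans_le h) (Nat.zero_le _)
      exact this.trans_le (Nat.le_mul_of_pos_right _ hQ)
  intro x
  have h3 : ∀ ρ, (∀ z, Γ.Reach β x (ρ + 1) z → Γ.Reach β x ρ z) →
      ∀ y p, Γ.Path β x p y → Γ.Reach β x ρ y := by
    intro ρ h y p
    induction p using List.reverseRecOn generalizing y with
    | nil => exact fun hp => ⟨[], hp, Nat.zero_le _⟩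
    | append_singleton p d ih =>
      intro hp
      obtain ⟨z, a1, a2⟩ := (Γ.sw_path_append _ _ _ _ _).1 hp
      exact h _ ((ih z a1).trans Γ ⟨[d], a2, le_rfl⟩)
  have h4 : ∀ j, (∀ y p, Γ.Path β x p y → Γ.Reach β x (j * (2 * r0 + 1)) y) ∨
      j * (N + 1) ≤ (Γ.ball β x (j * (2 * r0 + 1))).card * Q := by
    intro j
    induction j with
    | zero => right; simp
    | succ j ih =>
      rcases ih with h | h
      · exact Or.inl fun y p hp => (h y p hp).mono Γ (Nat.mul_le_mul_right _ (by omega))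
      by_cases hs : ∀ z, Γ.Reach β x (j * (2 * r0 + 1) + r0 + 1) z →
          Γ.Reach β x (j * (2 * r0 + 1) + r0) z
      · exact Or.inl fun y p hp => (h3 _ hs y p hp).mono Γ (by rw [add_mul j 1, one_mul]; omega)
      right
      push Not at hs
      obtain ⟨z, z1, z2⟩ := hs
      have a1 : Disjoint (Γ.ball β x (j * (2 * r0 + 1))) (Γ.ball β z r0) := by
        rw [disjoint_left]
        intro y y1 y2
        exact z2 ((Γ.mem_ball.1 y1).trans Γ ((Γ.mem_ball.1 y2).symm Γ hβ))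
      have a2 : Γ.ball β x (j * (2 * r0 + 1)) ∪ Γ.ball β z r0 ⊆
          Γ.ball β x ((j + 1) * (2 * r0 + 1)) := by
        refine union_subset (hmono _ _ _ (Nat.mul_le_mul_right _ (by omega))) fun y hy => ?_
        exact Γ.mem_ball.2 ((z1.trans Γ (Γ.mem_ball.1 hy)).mono Γ (by rw [add_mul j 1, one_mul]; omega))
      have a3 := Nat.mul_le_mul_right Q (card_le_card a2)
      rw [card_union_of_disjoint a1, add_mul] at a3
      have := h2 z
      rw [Nat.succ_mul j (N + 1)]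
      omega
  rcases h4 (C0 * Q + 1) with h | h
  · exact h
  · exfalso
    have a1 := Nat.mul_le_mul_right Q ((card_le_univ (Γ.ball β x ((C0 * Q + 1) * (2 * r0 + 1)))).trans hV)
    nlinarith

end Design

theorem lin_le_two_pow (a : ℕ) : ∀ g ≥ 2 * a + 2, a * (g + 1) ≤ 2 ^ g := by
  intro g hg
  have h1 : a ≤ 2 ^ a := Nat.lt_two_pow_self.le
  have h2 : g / 2 < 2 ^ (g / 2) := Nat.lt_two_pow_self
  calc a * (g + 1) ≤ 2 ^ a * (2 ^ (g / 2) * 2) := Nat.mul_le_mul h1 (by omega)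
    _ = 2 ^ (a + g / 2 + 1) := by ring
    _ ≤ 2 ^ g := Nat.pow_le_pow_right (by norm_num) (by omega)

theorem sparseStmt : SparseStmt := by
  classical
  intro s C0
  set c1 : ℕ := 6 * C0 * 4 ^ s + 1 with hc1
  set Q : ℕ := 2 * (32 * c1) ^ 4 with hQ
  have hc1' : 1 ≤ c1 := by omega
  have hQ24 : 24 ≤ Q := by
    have : 32 ^ 4 ≤ (32 * c1) ^ 4 := Nat.pow_le_pow_left (by omega) _
    omega
  obtain ⟨r1, hr1⟩ : ∃ r1 : ℕ, 5 ^ r1 * (2 * s + 1) ≤ 6 ^ r1 := by
    obtain ⟨r, hr⟩ := pow_unbounded_of_one_lt ((2 * s + 1 : ℕ) : ℝ) (by norm_num : (1 : ℝ) < 6 / 5)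
    rw [div_pow, lt_div_iff₀ (by positivity)] at hr
    refine ⟨r, ?_⟩
    rw [mul_comm]
    exact_mod_cast hr.le
  refine ⟨(C0 * Q + 1) * (8 * r1 + 1), Nat.mul_pos (by omega) (by omega), fun K => ?_⟩
  set b := c1 ^ (2 * K) with hb
  refine ⟨b, 2 * (16 * K + 8 * (b + 1) + 8) + 2, ?_⟩
  intro S V D C _ _ _ _ Γ N g Ω hS hV hdeg hg hN1 hN2 hΩ hE
  have hlin := lin_le_two_pow _ g hg
  have hs : 1 ≤ s := by
    by_contra hc
    obtain rfl : s = 0 := by omega
    simp at hN1 hN2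
    omega
  have h4 : 2 ^ g * 2 ^ g ≤ N := by
    refine le_trans ?_ hN1
    rw [← mul_pow, pow_mul]
    exact Nat.pow_le_pow_left (by nlinarith) _
  have h2g : 1 ≤ 2 ^ g := Nat.one_le_two_pow
  have h5 : 2 ^ g ≤ N := le_trans (Nat.le_mul_of_pos_right _ h2g) h4
  have hN0 : 0 < N := by omega
  have hN0' : (0 : ℝ) < N := by exact_mod_cast hN0
  have e1 : (16 * K + 8 * (b + 1) + 8) * (g + 1) =
      16 * (K * g) + 16 * K + 8 * (b + 1) * g + 8 * (b + 1) + 8 * g + 8 := by ring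
  have hΩ0 : (0 : ℝ) ≤ #Ω := by positivity
  have hcc : (6 * C0 * 4 ^ Fintype.card S : ℝ) ≤ c1 := by
    rw [hc1, hS]; push_cast; linarith
  let Bad : ℕ → ℕ → Finset (D → D) := fun k j =>
    Ω.filter fun β => ∃ A : Finset V, A.card = k ∧ k + j ≤ Γ.span β A
  have hBad : ∀ k j, k + j ≤ N / 8 → ((Bad k j).card : ℝ) ≤ c1 ^ k * (2 * k / N) ^ j * #Ω := by
    intro k j hkj
    refine le_trans (by convert Γ.span_all Ω hΩ N C0 hN0 hV hE k j hkj) ?_
    gcongr
  have b1 : ∀ k ∈ range (2 * (K * g) + 1), ((Bad k (b + 1)).card : ℝ) ≤ 1 / 2 ^ g * #Ω := by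
    intro k hk
    have hk := mem_range.1 hk
    refine (hBad k (b + 1) (by omega)).trans (mul_le_mul_of_nonneg_right ?_ hΩ0)
    have a1 : (2 * k / N : ℝ) ≤ 1 / 2 ^ g := by
      rw [div_le_div_iff₀ hN0' (by positivity), one_mul]
      have : 2 * k * 2 ^ g ≤ N := le_trans (Nat.mul_le_mul_right _ (by omega)) h4
      exact_mod_cast this
    have a2 : (c1 : ℝ) ^ k ≤ (2 ^ g) ^ b := by
      have : c1 ^ k ≤ (2 ^ g) ^ b := by
        calc c1 ^ k ≤ c1 ^ (2 * K * g) := Nat.pow_le_pow_right hc1' (by rw [mul_assoc]; omega)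
          _ = b ^ g := by rw [pow_mul]
          _ ≤ (2 ^ b) ^ g := Nat.pow_le_pow_left Nat.lt_two_pow_self.le _
          _ = _ := by rw [← pow_mul, ← pow_mul, mul_comm]
      exact_mod_cast this
    calc _ ≤ ((2 : ℝ) ^ g) ^ b * (1 / 2 ^ g) ^ (b + 1) := by gcongr
      _ = _ := by rw [pow_succ, ← mul_assoc, ← mul_pow]; simp
  have b2 : ∀ k ∈ range (N / Q + 1), ((Bad k (k / 4 + 1)).card : ℝ) ≤ (1 / 2) ^ k * (1 / 16 * #Ω) := by
    intro k hk
    have hk : k * Q ≤ N := (Nat.le_div_iff_mul_le (by omega)).1 (Nat.lt_succ_iff.1 (mem_range.1 hk))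
    have hk' : k * 24 ≤ N := le_trans (Nat.mul_le_mul_left _ hQ24) hk
    have hk8 : 8 * (b + 1) ≤ N := by omega
    refine (hBad k (k / 4 + 1) (by omega)).trans ?_
    rw [← mul_assoc]
    refine mul_le_mul_of_nonneg_right ?_ hΩ0
    rcases Nat.eq_zero_or_pos k with rfl | hk0
    · simp
    have hc1r : (1 : ℝ) ≤ c1 := by exact_mod_cast hc1'
    have a1 : (2 * k / N : ℝ) ≤ (1 / (32 * c1)) ^ 4 := by
      rw [div_pow, one_pow, div_le_div_iff₀ hN0' (by positivity), one_mul]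
      have : 2 * k * (32 * c1) ^ 4 ≤ N := le_trans (le_of_eq (by rw [hQ]; ring)) hk
      exact_mod_cast this
    have a2 : (1 / (32 * c1) : ℝ) ≤ 1 := by rw [div_le_one (by positivity)]; linarith
    calc _ ≤ (c1 : ℝ) ^ k * ((1 / (32 * c1)) ^ 4) ^ (k / 4 + 1) := by gcongr
      _ ≤ (c1 : ℝ) ^ k * (1 / (32 * c1)) ^ k := by
          rw [← pow_mul]
          exact mul_le_mul_of_nonneg_left
            (pow_le_pow_of_le_one (by positivity) a2 (by omega)) (by positivity)
      _ = (1 / 2) ^ k * (1 / 16) ^ k := by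
          rw [← mul_pow, ← mul_pow]; congr 1; field_simp; norm_num
      _ ≤ _ := mul_le_mul_of_nonneg_left
          (pow_le_of_le_one (by norm_num) (by norm_num) hk0.ne') (by positivity)
  have hsub : (Ω.filter fun β => ¬ (Γ.Sparse β (2 * (K * g)) b ∧
      Γ.Diam β ((C0 * Q + 1) * (8 * r1 + 1) * g))) ⊆
      ((range (2 * (K * g) + 1)).biUnion fun k => Bad k (b + 1)) ∪
        ((range (N / Q + 1)).biUnion fun k => Bad k (k / 4 + 1)) := by
    intro β hβ
    obtain ⟨hβ, hn⟩ := mem_filter.1 hβ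
    by_contra hc
    simp only [mem_union, mem_biUnion, mem_range, Bad, mem_filter, hβ, true_and, not_or,
      not_exists, not_and, not_le] at hc
    refine hn ⟨fun A hA => ?_, fun x y p hp => ?_⟩
    · have := hc.1 A.card (by omega) A rfl
      omega
    · obtain ⟨q, hq, hl⟩ := Γ.diam_of_exp (hΩ β hβ) (fun x => by convert hdeg x) N Q C0
        (r1 * (2 * g + 2)) hV (fun A hA => by
          have := hc.2 A.card (Nat.lt_succ_iff.2 ((Nat.le_div_iff_mul_le (by omega)).2 hA)) A rfl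
          omega) (by
          calc 5 ^ (r1 * (2 * g + 2)) * N < 5 ^ (r1 * (2 * g + 2)) * (2 * s + 1) ^ (2 * g + 2) :=
                Nat.mul_lt_mul_of_pos_left hN2 (by positivity)
            _ = (5 ^ r1 * (2 * s + 1)) ^ (2 * g + 2) := by rw [mul_pow, ← pow_mul]
            _ ≤ (6 ^ r1) ^ (2 * g + 2) := Nat.pow_le_pow_left hr1 _
            _ = _ := by rw [← pow_mul]) (by omega) x y p hp
      refine ⟨q, hq, hl.trans ?_⟩
      rw [mul_assoc]
      refine Nat.mul_le_mul_left _ ?_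
      have : 1 ≤ g := by omega
      nlinarith
  have c3 : (((range (2 * (K * g) + 1)).biUnion fun k => Bad k (b + 1)).card : ℝ) ≤ 1 / 8 * #Ω := by
    refine le_trans (Nat.cast_le.2 card_biUnion_le) ?_
    push_cast
    refine (sum_le_sum b1).trans ?_
    rw [sum_const, card_range, nsmul_eq_mul, ← mul_assoc]
    refine mul_le_mul_of_nonneg_right ?_ hΩ0
    rw [mul_one_div, div_le_div_iff₀ (by positivity) (by norm_num), one_mul]
    have : (2 * (K * g) + 1) * 8 ≤ 2 ^ g := by omega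
    exact_mod_cast this
  have c4 : (((range (N / Q + 1)).biUnion fun k => Bad k (k / 4 + 1)).card : ℝ) ≤ 1 / 8 * #Ω := by
    refine le_trans (Nat.cast_le.2 card_biUnion_le) ?_
    push_cast
    refine (sum_le_sum b2).trans ?_
    rw [← sum_mul]
    have := sum_geometric_two_le (N / Q + 1)
    nlinarith
  have c5 := Nat.cast_le (α := ℝ).2 ((card_le_card hsub).trans (card_union_le _ _))
  push_cast at c5
  have c6 : (4 * (Ω.filter fun β => ¬ (Γ.Sparse β (2 * (K * g)) b ∧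
      Γ.Diam β ((C0 * Q + 1) * (8 * r1 + 1) * g))).card : ℝ) ≤ #Ω := by linarith
  exact_mod_cast c6

end Crest.Agent.GSC
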