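import Crest.Agent.GSC.RIface

/-! (RA1) switchings. -/

set_option autoImplicit false

namespace Crest.Agent.GSC

open Finset

namespace Design

variable {S V D C : Type} [Fintype D] [DecidableEq C] (Γ : Design S V D C)

theorem sw_path_append (β : D → D) (p q : List D) (x y : V) :
    Γ.Path β x (p ++ q) y ↔ ∃ z, Γ.Path β x p z ∧ Γ.Path β z q y := by
  induction p generalizing x with
  | nil => simp [Path]
  | cons d p ih =>
    simp only [List.cons_append, Path, ih]
    constructor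
    · rintro ⟨h, z, h1, h2⟩; exact ⟨z, ⟨h, h1⟩, h2⟩
    · rintro ⟨z, ⟨h, h1⟩, h2⟩; exact ⟨h, z, h1, h2⟩

theorem sw_path_congr {β β' : D → D} (p : List D) (h : ∀ a ∈ p, β' a = β a) (x y : V)
    (hp : Γ.Path β' x p y) : Γ.Path β x p y := by
  induction p generalizing x with
  | nil => exact hp
  | cons d p ih =>
    refine ⟨hp.1, ih (fun a ha => h a (List.mem_cons_of_mem _ ha)) _ ?_⟩
    rw [← h d List.mem_cons_self]; exact hp.2

omit [Fintype D] in
theorem sw_rd_congr {β β' : D → D} (p : List D) (h : ∀ a ∈ p, β' a = β a) (hp : Rd β' p) :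
    Rd β p := by
  unfold Rd at hp ⊢
  exact hp.imp_of_mem_imp fun a b ha _ hab => by rwa [← h a ha]

theorem lab_eq_of_cl {d e : D} (h : Γ.cl e = Γ.cl d) : Γ.lab e = Γ.lab d := by
  have h1 : 0 < #{x | Γ.cl x = Γ.ci (Γ.cl d)} := by
    rw [← Γ.card_cl]; exact card_pos.2 ⟨d, by simp⟩
  obtain ⟨x, hx⟩ := card_pos.1 h1
  have hx : Γ.cl x = Γ.ci (Γ.cl d) := by simpa using hx
  exact bar_injective ((Γ.lab_cl e x (h ▸ hx)).symm.trans (Γ.lab_cl d x hx))

theorem IsM.lab {β : D → D} (h : Γ.IsM β) (d : D) : Γ.lab (β d) = bar (Γ.lab d) :=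
  Γ.lab_cl _ _ (h d).2

theorem IsM.inj {β : D → D} (h : Γ.IsM β) : Function.Injective β :=
  Function.Involutive.injective fun d => (h d).1

theorem exists_isM : ∃ β, Γ.IsM β := by
  classical
  let σ : D ≃ D := Equiv.ofFiberEquiv (f := fun d => Γ.ci (Γ.cl d)) (g := Γ.cl) fun c =>
    Fintype.equivOfCardEq (by
      rw [Fintype.card_subtype, Fintype.card_subtype, Γ.card_cl c]
      congr 1
      ext d
      simp only [mem_filter, mem_univ, true_and]
      exact ⟨fun h => by rw [← h, Γ.ci_ci], fun h => by rw [h, Γ.ci_ci]⟩)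
  have hσ : ∀ d, Γ.cl (σ d) = Γ.ci (Γ.cl d) := fun d => Equiv.ofFiberEquiv_map _ d
  refine ⟨fun d => if (Γ.lab d).2 then σ d else σ.symm d, fun d => ?_⟩
  by_cases h : (Γ.lab d).2 = true
  · have h1 : (Γ.lab (σ d)).2 = false := by rw [Γ.lab_cl _ _ (hσ d)]; simp [h]
    simp [h, h1, hσ]
  · have h0 := hσ (σ.symm d)
    rw [Equiv.apply_symm_apply] at h0
    have h1 : (Γ.lab (σ.symm d)).2 = true := by
      have := Γ.lab_cl _ _ h0
      rw [this] at h
      simpa using h
    simp only [h, h1, if_true, if_false, Bool.false_eq_true, Equiv.apply_symm_apply, true_and]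
    rw [h0, Γ.ci_ci]

/-- `y` is within distance `r` of `x` -/
def Reach (β : D → D) (x : V) (r : ℕ) (y : V) : Prop := ∃ p, Γ.Path β x p y ∧ p.length ≤ r

open Classical in
theorem card_src_le [Fintype S] (X : Finset V) :
    #{d | Γ.src d ∈ X} ≤ X.card * (2 * Fintype.card S) := by
  refine le_trans (card_le_card_of_injOn (t := X ×ˢ (univ : Finset (S × Bool)))
    (fun d => (Γ.src d, Γ.lab d)) (fun d hd => by simpa using hd) fun d _ e _ h => ?_) ?_
  · exact Γ.inj d e (congrArg Prod.fst h) (congrArg Prod.snd h)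
  · simp [mul_comm]

theorem exists_ball [Fintype S] (β : D → D) (r : ℕ) (X : Finset V) :
    ∃ Y : Finset V, Y.card ≤ X.card * (2 * Fintype.card S + 1) ^ r ∧
      ∀ x ∈ X, ∀ y, Γ.Reach β x r y → y ∈ Y := by
  classical
  induction r generalizing X with
  | zero =>
    refine ⟨X, by simp, fun x hx y ⟨p, hp, hl⟩ => ?_⟩
    obtain rfl : p = [] := List.length_eq_zero_iff.1 (by omega)
    exact (show x = y from hp) ▸ hx
  | succ r ih =>
    obtain ⟨Y, h1, h2⟩ := ih (X ∪ (univ.filter fun d => Γ.src d ∈ X).image fun d => Γ.src (β d))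
    refine ⟨Y, h1.trans ?_, fun x hx y ⟨p, hp, hl⟩ => ?_⟩
    · rw [pow_succ', ← mul_assoc]
      refine Nat.mul_le_mul_right _ ((card_union_le _ _).trans ?_)
      have := Γ.card_src_le X
      rw [mul_add, mul_one, add_comm]
      exact Nat.add_le_add_right (card_image_le.trans (by convert this)) _
    · cases p with
      | nil => exact h2 x (mem_union_left _ hx) y ⟨[], hp, by simp⟩
      | cons d p =>
        refine h2 _ (mem_union_right _ (mem_image.2 ⟨d, ?_, rfl⟩)) y ⟨p, hp.2, by simpa using hl⟩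
        simp [hp.1, hx]

/-- the switching partner `e` is far from `d` -/
def Far (β : D → D) (h : ℕ) (d e : D) : Prop :=
  ∀ x y, (x = Γ.src d ∨ x = Γ.src (β d)) → (y = Γ.src e ∨ y = Γ.src (β e)) → ¬ Γ.Reach β x h y

open Classical in
theorem card_not_far [Fintype S] {β : D → D} (hβ : Γ.IsM β) (h : ℕ) (d : D) :
    #{e | Γ.cl e = Γ.cl d ∧ ¬ Γ.Far β h d e} ≤ 4 * (2 * Fintype.card S + 1) ^ h := by
  obtain ⟨Y, h1, h2⟩ := Γ.exists_ball β h {Γ.src d, Γ.src (β d)}
  have a1 : #{e | Γ.cl e = Γ.cl d ∧ Γ.src e ∈ Y} ≤ Y.card :=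
    card_le_card_of_injOn Γ.src (fun e he => by simp at he; exact he.2) fun e he e' he' h => by
      simp at he he'
      exact Γ.inj _ _ h ((Γ.lab_eq_of_cl he.1).trans (Γ.lab_eq_of_cl he'.1).symm)
  have a2 : #{e | Γ.cl e = Γ.cl d ∧ Γ.src (β e) ∈ Y} ≤ Y.card :=
    card_le_card_of_injOn (fun e => Γ.src (β e)) (fun e he => by simp at he; exact he.2)
      fun e he e' he' h => by
        simp at he he'
        refine hβ.inj _ (Γ.inj _ _ h ?_)
        rw [hβ.lab, hβ.lab, Γ.lab_eq_of_cl he.1, Γ.lab_eq_of_cl he'.1]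
  have a3 : Y.card ≤ 2 * (2 * Fintype.card S + 1) ^ h :=
    h1.trans (Nat.mul_le_mul_right _ card_le_two)
  refine le_trans (card_le_card (t := (univ.filter fun e => Γ.cl e = Γ.cl d ∧ Γ.src e ∈ Y) ∪
    (univ.filter fun e => Γ.cl e = Γ.cl d ∧ Γ.src (β e) ∈ Y)) fun e he => ?_)
    ((card_union_le _ _).trans (by omega))
  simp only [Far, mem_filter, mem_univ, true_and, mem_union] at he ⊢
  obtain ⟨he, hf⟩ := he
  push Not at hf
  obtain ⟨x, y, hx, hy, hr⟩ := hf
  have := h2 x (by simpa using hx) y hr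
  rcases hy with rfl | rfl
  · exact Or.inl ⟨he, this⟩
  · exact Or.inr ⟨he, this⟩

theorem sw_rev {β : D → D} (hβ : Γ.IsM β) (p : List D) (x y : V) (hp : Γ.Path β x p y) :
    Γ.Path β y (p.map β).reverse x := by
  induction p generalizing x with
  | nil => exact hp.symm
  | cons d p ih =>
    rw [List.map_cons, List.reverse_cons, sw_path_append]
    exact ⟨_, ih _ hp.2, rfl, by rw [(hβ d).1]; exact hp.1⟩

theorem Reach.symm {β : D → D} (hβ : Γ.IsM β) {x y : V} {r : ℕ} (h : Γ.Reach β x r y) :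
    Γ.Reach β y r x := by
  obtain ⟨p, hp, hl⟩ := h
  exact ⟨_, Γ.sw_rev hβ p x y hp, by simpa using hl⟩

theorem sw_first {α : Type*} (P : α → Prop) (p : List α) :
    (∀ a ∈ p, ¬ P a) ∨ ∃ q s r, p = q ++ s :: r ∧ (∀ a ∈ q, ¬ P a) ∧ P s := by
  induction p with
  | nil => simp
  | cons a p ih =>
    by_cases h : P a
    · exact Or.inr ⟨[], a, p, rfl, by simp, h⟩
    · rcases ih with h' | ⟨q, s, r, rfl, h1, h2⟩
      · exact Or.inl (by simpa [h] using h')
      · exact Or.inr ⟨a :: q, s, r, rfl, by simpa [h] using h1, h2⟩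

open Classical in
/-- the switched matching -/
noncomputable def sw (β : D → D) (d e : D) : D → D :=
  fun a => Equiv.swap d e (β (Equiv.swap d e a))

theorem sw_isM {β : D → D} (hβ : Γ.IsM β) {d e : D} (he : Γ.cl e = Γ.cl d) :
    Γ.IsM (sw β d e) := by
  classical
  have h : ∀ a, Γ.cl (Equiv.swap d e a) = Γ.cl a := by
    intro a
    rw [Equiv.swap_apply_def]
    split_ifs with h1 h2
    · rw [h1, he]
    · rw [h2, he]
    · rfl
  intro a
  refine ⟨by simp [sw, (hβ _).1], ?_⟩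
  unfold sw
  convert (h _).trans (hβ _).2 using 2
  exact (h a).symm

/-- the switching lemma -/
theorem switch {β : D → D} (hβ : Γ.IsM β) {h : ℕ} (hg : Γ.Girth β h) {d e : D}
    (he : Γ.cl e = Γ.cl d) (hf : Γ.Far β h d e) (x : V) (p : List D)
    (hp : Γ.Path (sw β d e) x p x) (hr : Rd (sw β d e) p) (hl : p.length ≤ h) :
    d ∉ p ∧ Γ.Path β x p x ∧ Rd β p := by
  classical
  have hle := Γ.lab_eq_of_cl he
  have n1 : β d ≠ d := fun h => bar_ne _ (by rw [← hβ.lab, h])
  have n2 : β d ≠ e := fun h => bar_ne (Γ.lab d) (by rw [← hβ.lab, h, hle])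
  have n3 : β e ≠ d := fun h => bar_ne (Γ.lab d) (by rw [← hle, ← hβ.lab, h, hle])
  have n4 : β e ≠ e := fun h => bar_ne _ (by rw [← hβ.lab, h])
  have s1 : sw β d e d = β e := by simp [sw, Equiv.swap_apply_of_ne_of_ne n3 n4]
  have s2 : sw β d e e = β d := by simp [sw, Equiv.swap_apply_of_ne_of_ne n1 n2]
  have s3 : sw β d e (β d) = e := by simp [sw, Equiv.swap_apply_of_ne_of_ne n1 n2, (hβ d).1]
  have s4 : sw β d e (β e) = d := by simp [sw, Equiv.swap_apply_of_ne_of_ne n3 n4, (hβ e).1]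
  let Sp : D → Prop := fun a => (a = d ∨ a = β d) ∨ (a = e ∨ a = β e)
  have s5 : ∀ a, ¬ Sp a → sw β d e a = β a := by
    intro a ha
    simp only [Sp, not_or] at ha
    have b1 : β a ≠ d := fun h => ha.1.2 (by rw [← h, (hβ a).1])
    have b2 : β a ≠ e := fun h => ha.2.2 (by rw [← h, (hβ a).1])
    simp [sw, Equiv.swap_apply_of_ne_of_ne ha.1.1 ha.2.1, Equiv.swap_apply_of_ne_of_ne b1 b2]
  -- no short path between the two sides
  have far : ∀ a b, (a = d ∨ a = β d) → (b = e ∨ b = β e) →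
      ¬ Γ.Reach β (Γ.src a) h (Γ.src b) ∧ ¬ Γ.Reach β (Γ.src b) h (Γ.src a) := by
    intro a b ha hb
    have := hf (Γ.src a) (Γ.src b) (ha.imp (congrArg _) (congrArg _))
      (hb.imp (congrArg _) (congrArg _))
    exact ⟨this, fun h' => this (h'.symm Γ hβ)⟩
  have cross : ∀ s, ((s = d ∨ s = β d) ∧ (sw β d e s = e ∨ sw β d e s = β e)) ∨
      ((s = e ∨ s = β e) ∧ (sw β d e s = d ∨ sw β d e s = β d)) ∨ ¬ Sp s := by
    intro s
    by_cases hs : Sp s
    · rcases hs with (rfl | rfl) | (rfl | rfl)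
      · exact Or.inl ⟨Or.inl rfl, Or.inr s1⟩
      · exact Or.inl ⟨Or.inr rfl, Or.inl s3⟩
      · exact Or.inr (Or.inl ⟨Or.inl rfl, Or.inr s2⟩)
      · exact Or.inr (Or.inl ⟨Or.inr rfl, Or.inl s4⟩)
    · exact Or.inr (Or.inr hs)
  have spβ : ∀ a, Sp (β a) → Sp a := by
    intro a ha
    rcases ha with (h | h) | (h | h)
    · exact Or.inl (Or.inr (by rw [← h, (hβ a).1]))
    · exact Or.inl (Or.inl (hβ.inj _ h))
    · exact Or.inr (Or.inr (by rw [← h, (hβ a).1]))
    · exact Or.inr (Or.inl (hβ.inj _ h))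
  have key : ∀ a ∈ p, ¬ Sp a := by
    rcases sw_first Sp p with h0 | ⟨q0, s, r, rfl, hq0, hs⟩
    · exact h0
    exfalso
    obtain ⟨z, p1, p2, p3⟩ := (Γ.sw_path_append _ _ _ _ _).1 hp
    have p1' := Γ.sw_path_congr q0 (fun a ha => s5 a (hq0 a ha)) _ _ p1
    simp only [List.length_append, List.length_cons] at hl
    rcases sw_first Sp r with h1 | ⟨q1, s', r', rfl, hq1, hs'⟩
    · have p3' := Γ.sw_path_congr r (fun a ha => s5 a (h1 a ha)) _ _ p3
      have : Γ.Reach β (Γ.src (sw β d e s)) h (Γ.src s) :=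
        ⟨r ++ q0, (Γ.sw_path_append _ _ _ _ _).2 ⟨x, p3', p2 ▸ p1'⟩, by simp; omega⟩
      rcases cross s with ⟨c1, c2⟩ | ⟨c1, c2⟩ | c
      · exact (far _ _ c1 c2).2 this
      · exact (far _ _ c2 c1).1 this
      · exact c hs
    · obtain ⟨z', p4, p5, -⟩ := (Γ.sw_path_append _ _ _ _ _).1 p3
      have p4' := Γ.sw_path_congr q1 (fun a ha => s5 a (hq1 a ha)) _ _ p4
      simp only [List.length_append, List.length_cons] at hl
      have hre : Γ.Reach β (Γ.src (sw β d e s)) h (Γ.src s') := ⟨q1, p5 ▸ p4', by omega⟩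
      have hr1 : Rd (sw β d e) (s :: (q1 ++ [s'])) := by
        unfold Rd at hr ⊢
        have := hr.right_of_append
        rw [show s :: (q1 ++ s' :: r') = (s :: (q1 ++ [s'])) ++ r' by simp] at this
        exact this.left_of_append
      have hq : Rd β q1 := by
        refine sw_rd_congr q1 (fun a ha => s5 a (hq1 a ha)) ?_
        unfold Rd at hr1 ⊢
        exact hr1.tail.left_of_append
      have hst : Sp (sw β d e s) ∧ (s' = sw β d e s ∨ s' = β (sw β d e s)) := by
        rcases cross s with ⟨-, c2⟩ | ⟨-, c2⟩ | c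
        · refine ⟨Or.inr c2, ?_⟩
          rcases hs' with c3 | c3
          · exact absurd hre (far _ _ c3 c2).2
          · rcases c2 with c2 | c2 <;> rcases c3 with c3 | c3 <;> simp [c2, c3, (hβ e).1]
        · refine ⟨Or.inl c2, ?_⟩
          rcases hs' with c3 | c3
          · rcases c2 with c2 | c2 <;> rcases c3 with c3 | c3 <;> simp [c2, c3, (hβ d).1]
          · exact absurd hre (far _ _ c2 c3).1
        · exact absurd hs c
      have hne0 : q1 = [] → s' ≠ sw β d e s := by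
        rintro rfl
        simpa [Rd] using hr1
      generalize sw β d e s = t at *
      obtain ⟨ht, rfl | rfl⟩ := hst
      · have hne : q1 ≠ [] := fun h => hne0 h rfl
        have := hg _ q1 (p5 ▸ p4') hq hne
        omega
      · have hp6 : Γ.Path β (Γ.src t) (q1 ++ [β t]) (Γ.src t) :=
          (Γ.sw_path_append _ _ _ _ _).2 ⟨_, p4', p5, by rw [(hβ t).1]; rfl⟩
        have hr6 : Rd β (q1 ++ [β t]) := by
          unfold Rd at hq ⊢
          rw [List.isChain_append]
          refine ⟨hq, by simp, fun a ha b hb => ?_⟩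
          obtain rfl : β t = b := by simpa using hb
          intro hab
          exact hq1 a (List.mem_of_mem_getLast? ha) (hβ.inj _ hab ▸ ht)
        have := hg _ _ hp6 hr6 (by simp)
        simp at this
        omega
  exact ⟨fun hd => key d hd (Or.inl (Or.inl rfl)),
    Γ.sw_path_congr p (fun a ha => s5 a (key a ha)) _ _ hp,
    sw_rd_congr p (fun a ha => s5 a (key a ha)) hr⟩

theorem sw_girth {β : D → D} (hβ : Γ.IsM β) {h : ℕ} (hg : Γ.Girth β h) {d e : D}
    (he : Γ.cl e = Γ.cl d) (hf : Γ.Far β h d e) : Γ.Girth (sw β d e) h := by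
  intro x p hp hr hne
  by_contra hc
  obtain ⟨-, h1, h2⟩ := Γ.switch hβ hg he hf x p hp hr (by omega)
  exact hc (hg x p h1 h2 hne)

theorem omega_nonempty [Fintype S] (N g : ℕ) (hN : ∀ d, N ≤ #{e | Γ.cl e = Γ.cl d})
    (h4 : 4 * (2 * Fintype.card S + 1) ^ g < N) : ∀ h ≤ g, ∃ β, Γ.IsM β ∧ Γ.Girth β h := by
  classical
  intro h
  induction h with
  | zero => exact fun _ => (Γ.exists_isM).imp fun β hβ => ⟨hβ, fun _ _ _ _ _ => Nat.zero_le _⟩
  | succ h ih =>
    intro hh
    obtain ⟨β₀, hβ₀⟩ := ih (by omega)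
    let cyc : (D → D) → Finset (List.Vector D h) := fun β =>
      univ.filter fun p => (∃ x, Γ.Path β x p.1 x) ∧ Rd β p.1
    obtain ⟨β, hβ, hmin⟩ := exists_min_image (univ.filter fun β => Γ.IsM β ∧ Γ.Girth β h)
      (fun β => (cyc β).card) ⟨β₀, by simpa using hβ₀⟩
    simp only [mem_filter, mem_univ, true_and] at hβ hmin
    refine ⟨β, hβ.1, fun x p hp hr hne => ?_⟩
    by_contra hc
    have hl : p.length = h := by have := hβ.2 x p hp hr hne; omega
    obtain ⟨d, hd⟩ := List.exists_mem_of_ne_nil p hne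
    obtain ⟨e, he, he'⟩ := exists_mem_notMem_of_card_lt_card
      (s := univ.filter fun e => Γ.cl e = Γ.cl d ∧ ¬ Γ.Far β h d e)
      (t := univ.filter fun e => Γ.cl e = Γ.cl d) (by
        refine lt_of_le_of_lt (by convert Γ.card_not_far hβ.1 h d) (lt_of_lt_of_le ?_ (hN d))
        refine lt_of_le_of_lt (Nat.mul_le_mul_left _ (Nat.pow_le_pow_right (by omega) ?_)) h4
        omega)
    simp only [mem_filter, mem_univ, true_and, not_and, not_not] at he he'
    have hf := he' he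
    refine absurd (hmin _ ⟨Γ.sw_isM hβ.1 he, Γ.sw_girth hβ.1 hβ.2 he hf⟩) (not_le.2 ?_)
    refine card_lt_card ⟨fun q hq => ?_, fun hs => ?_⟩
    · simp only [cyc, mem_filter, mem_univ, true_and] at hq ⊢
      obtain ⟨⟨y, hy⟩, hq⟩ := hq
      obtain ⟨-, a1, a2⟩ := Γ.switch hβ.1 hβ.2 he hf y q.1 hy hq q.2.le
      exact ⟨⟨y, a1⟩, a2⟩
    · have := @hs ⟨p, hl⟩ (by simp only [cyc, mem_filter, mem_univ, true_and]; exact ⟨⟨x, hp⟩, hr⟩)
      simp only [cyc, mem_filter, mem_univ, true_and] at this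
      obtain ⟨⟨y, hy⟩, hq⟩ := this
      exact (Γ.switch hβ.1 hβ.2 he hf y p hy hq hl.le).1 hd

open Classical in
theorem edge_step [Fintype S] (N g : ℕ) (hN : ∀ d, N ≤ #{e | Γ.cl e = Γ.cl d})
    (a b : D) (F : List (D × D)) (hF : (((a, b) :: F).flatMap fun p => [p.1, p.2]).Nodup) :
    #{β ∈ Γ.Omega g | ∀ p ∈ (a, b) :: F, β p.1 = p.2} *
      (N - 4 * (2 * Fintype.card S + 1) ^ g - 2 * F.length) ≤
      #{β ∈ Γ.Omega g | ∀ p ∈ F, β p.1 = p.2} := by
  set DF := (F.flatMap fun p => [p.1, p.2]).toFinset with hDF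
  have hDFc : DF.card ≤ 2 * F.length := by
    refine (List.toFinset_card_le _).trans (le_of_eq ?_)
    simp [List.length_flatMap, mul_comm]
  have hmem : ∀ p ∈ F, p.1 ∈ DF ∧ p.2 ∈ DF := by
    intro p hp
    simp only [hDF, List.mem_toFinset, List.mem_flatMap]
    exact ⟨⟨p, hp, by simp⟩, ⟨p, hp, by simp⟩⟩
  have ha : a ∉ DF := by
    simp only [List.flatMap_cons, List.cons_append, List.nil_append, List.nodup_cons] at hF
    rw [hDF, List.mem_toFinset]
    exact fun h => hF.1 (List.mem_cons_of_mem _ h)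
  let Good : (D → D) → Finset D := fun β =>
    univ.filter fun e => Γ.cl e = Γ.cl a ∧ Γ.Far β g a e ∧ e ∉ DF
  set Ω1 := (Γ.Omega g).filter fun β => ∀ p ∈ (a, b) :: F, β p.1 = p.2 with hΩ1
  have hΩ : ∀ β ∈ Ω1, Γ.IsM β ∧ Γ.Girth β g ∧ β a = b ∧ ∀ p ∈ F, β p.1 = p.2 := by
    intro β hβ
    simpa [hΩ1, Omega, and_assoc] using hβ
  have h1 : ∀ β ∈ Ω1, N - 4 * (2 * Fintype.card S + 1) ^ g - 2 * F.length ≤ (Good β).card := by
    intro β hβ
    have a1 := Γ.card_not_far (hΩ β hβ).1 g a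
    have a2 : #{e | Γ.cl e = Γ.cl a} ≤
        (Good β ∪ ((univ.filter fun e => Γ.cl e = Γ.cl a ∧ ¬ Γ.Far β g a e) ∪ DF)).card := by
      refine card_le_card fun e he => ?_
      simp only [Good, mem_filter, mem_univ, true_and, mem_union] at he ⊢
      tauto
    have a3 := card_union_le (Good β)
      ((univ.filter fun e => Γ.cl e = Γ.cl a ∧ ¬ Γ.Far β g a e) ∪ DF)
    have a4 := card_union_le (univ.filter fun e => Γ.cl e = Γ.cl a ∧ ¬ Γ.Far β g a e) DF
    have a5 := hN a
    omega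
  have hb : ∀ β ∈ Ω1, ∀ e ∈ Good β, sw β a e b = e := by
    intro β hβ e he
    obtain ⟨c1, -, c3, -⟩ := hΩ β hβ
    have hle := Γ.lab_eq_of_cl (mem_filter.1 he).2.1
    have n1 : β a ≠ a := fun h => bar_ne _ (by rw [← c1.lab, h])
    have n2 : β a ≠ e := fun h => bar_ne (Γ.lab a) (by rw [← c1.lab, h, hle])
    rw [← c3]
    simp [sw, Equiv.swap_apply_of_ne_of_ne n1 n2, (c1 a).1]
  rw [← smul_eq_mul, ← sum_const]
  refine (sum_le_sum h1).trans ?_
  rw [← card_sigma]
  refine card_le_card_of_injOn (fun x => sw x.1 a x.2) (fun x hx => ?_) fun x hx y hy hxy => ?_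
  · obtain ⟨h2, h3⟩ := mem_sigma.1 hx
    obtain ⟨c1, c2, -, c4⟩ := hΩ _ h2
    obtain ⟨c5, c6, c7⟩ := (mem_filter.1 h3).2
    simp only [Omega, coe_filter, mem_filter, mem_univ, true_and, Set.mem_ofPred_eq]
    refine ⟨⟨Γ.sw_isM c1 c5, Γ.sw_girth c1 c2 c5 c6⟩, fun p hp => ?_⟩
    have n : ∀ y ∈ DF, Equiv.swap a x.2 y = y := fun y hy =>
      Equiv.swap_apply_of_ne_of_ne (fun h => ha (h ▸ hy)) (fun h => c7 (h ▸ hy))
    unfold sw
    convert (show Equiv.swap a x.2 (x.1 (Equiv.swap a x.2 p.1)) = p.2 by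
      rw [n _ (hmem p hp).1, c4 p hp, n _ (hmem p hp).2])
  · obtain ⟨β, e⟩ := x
    obtain ⟨β', e'⟩ := y
    obtain ⟨h2, h3⟩ := mem_sigma.1 hx
    obtain ⟨h4, h5⟩ := mem_sigma.1 hy
    have hxy : sw β a e = sw β' a e' := hxy
    obtain rfl : e = e' := by rw [← hb β h2 e h3, hxy, hb β' h4 e' h5]
    obtain rfl : β = β' := by
      funext z
      have := congrFun hxy (Equiv.swap a e z)
      simpa [sw] using this
    rfl

end Design

theorem switchStmt : SwitchStmt := by
  classical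
  intro S V D C _ _ _ Γ N g M hN h
  have hg : (2 * Fintype.card S + 1) ^ g ≤ (2 * Fintype.card S + 1) ^ (g + 1) :=
    Nat.pow_le_pow_right (by omega) (by omega)
  refine ⟨?_, fun F hF hn => ?_⟩
  · obtain ⟨β, hβ⟩ := Γ.omega_nonempty N g hN (by omega) g le_rfl
    exact ⟨β, by simpa [Design.Omega] using hβ⟩
  set L : ℝ := (N : ℝ) - 4 * (2 * Fintype.card S + 1) ^ (g + 1) - 2 * M - 4 with hL
  have hL0 : 0 ≤ L := by
    have : ((4 * (2 * Fintype.card S + 1) ^ (g + 1) + 2 * M + 4 : ℕ) : ℝ) < N := by exact_mod_cast h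
    push_cast at this
    linarith
  induction F with
  | nil => simp
  | cons p F ih =>
    obtain ⟨a, b⟩ := p
    simp only [List.length_cons] at hF ⊢
    have h1 := Γ.edge_step N g hN a b F hn
    have h2 := ih (by omega) (by
      rw [List.flatMap_cons] at hn; exact hn.of_append_right)
    have h3 : L ≤ ((N - 4 * (2 * Fintype.card S + 1) ^ g - 2 * F.length : ℕ) : ℝ) := by
      rw [Nat.cast_sub (by omega), Nat.cast_sub (by omega)]
      have a1 : ((2 * Fintype.card S + 1 : ℝ)) ^ g ≤ (2 * Fintype.card S + 1) ^ (g + 1) := by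
        exact_mod_cast hg
      have a2 : (F.length : ℝ) ≤ M := by exact_mod_cast (by omega : F.length ≤ M)
      push_cast
      linarith
    refine le_trans ?_ h2
    rw [pow_succ', ← mul_assoc]
    refine mul_le_mul_of_nonneg_right ?_ (pow_nonneg hL0 _)
    refine (mul_le_mul_of_nonneg_left h3 (by positivity)).trans ?_
    exact_mod_cast (by convert h1)

end Crest.Agent.GSC
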