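import Crest.Agent.GSC.Cj

/-! Van Kampen lemma in algebraic form: tagging letters so that every signed letter occurs once. -/

set_option autoImplicit false

namespace Crest.Agent.GSC

open FreeGroup (mk of lift invRev mul_mk inv_mk)

/-- relabelling of signed letters -/
def lm {E A : Type} (lb : E → A) (x : E × Bool) : A × Bool := (lb x.1, x.2)

@[simp] theorem lm_bar {E A : Type} (lb : E → A) (x : E × Bool) : lm lb (bar x) = bar (lm lb x) :=
  rfl
@[simp] theorem lm_fst {E A : Type} (lb : E → A) (x : E × Bool) : (lm lb x).1 = lb x.1 := rfl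
@[simp] theorem lm_snd {E A : Type} (lb : E → A) (x : E × Bool) : (lm lb x).2 = x.2 := rfl
theorem lm_lm {E A B : Type} (lb : E → A) (lb' : A → B) (x : E × Bool) :
    lm lb' (lm lb x) = lm (lb' ∘ lb) x := rfl
theorem lm_injective {E A : Type} {lb : E → A} (h : Function.Injective lb) :
    Function.Injective (lm lb) := by
  rintro ⟨a, b⟩ ⟨c, d⟩ e
  simp only [lm, Prod.mk.injEq] at e
  exact Prod.ext (h e.1) e.2

theorem map_lm_lm {E A B : Type} (lb : E → A) (lb' : A → B) (l : List (E × Bool)) :
    (l.map (lm lb)).map (lm lb') = l.map (lm (lb' ∘ lb)) := by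
  rw [List.map_map]; rfl

theorem map_mk {E A : Type} (lb : E → A) (l : List (E × Bool)) :
    FreeGroup.map lb (mk l) = mk (l.map (lm lb)) := FreeGroup.map.mk

theorem Cj.relabel {E A : Type} (lb : E → A) {ws : List (List (E × Bool))}
    (h : Cj (ws.map mk)) : Cj ((ws.map (List.map (lm lb))).map mk) := by
  have := h.map (FreeGroup.map lb)
  rw [List.map_map] at this ⊢
  exact this

variable {A : Type}

/-- A diagram with boundary word `W` and faces `ws`. -/
def Diag (W : List (A × Bool)) (ws : List (List (A × Bool))) : Prop :=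
  ∃ (E : Type) (_ : Finite E) (lb : E → A) (W' : List (E × Bool))
    (ws' : List (List (E × Bool))),
    W'.map (lm lb) = W ∧ ws'.map (List.map (lm lb)) = ws ∧ (W' :: ws').flatten.Nodup ∧
      Cj ((W' :: ws').map mk)

theorem Diag.nil : Diag ([] : List (A × Bool)) [] :=
  ⟨Empty, inferInstance, fun e => e.elim, [], [], rfl, rfl, by simp,
    by simpa [mk_nil, Cj.one_cons] using Cj.nil⟩

theorem Diag.rot {u v : List (A × Bool)} {ws} (h : Diag (u ++ v) ws) : Diag (v ++ u) ws := by
  obtain ⟨E, hE, lb, W', ws', h1, h2, h3, h4⟩ := h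
  obtain ⟨u', v', rfl, rfl, rfl⟩ := List.map_eq_append_iff.1 h1
  refine ⟨E, hE, lb, v' ++ u', ws', by simp, h2, ?_, ?_⟩
  · refine (List.Perm.nodup_iff ?_).1 h3
    simpa using (List.perm_append_comm (l₁ := u') (l₂ := v')).append_right ws'.flatten
  · exact Cj.of_isConj (isConj_rot _ _) h4

theorem Diag.spike {W : List (A × Bool)} {ws} (h : Diag W ws) (a : A × Bool) :
    Diag (a :: bar a :: W) ws := by
  obtain ⟨E, hE, lb, W', ws', rfl, rfl, h3, h4⟩ := h
  refine ⟨Option E, inferInstance, fun o => o.elim a.1 lb,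
    (none, a.2) :: (none, !a.2) :: W'.map (lm some), ws'.map (List.map (lm some)), ?_, ?_, ?_, ?_⟩
  · simp [lm, bar, List.map_map, Function.comp_def]
  · simp [lm, List.map_map, Function.comp_def]
  · have h5 : ((W' :: ws').flatten.map (lm some)).Nodup :=
      h3.map (lm_injective (Option.some_injective E))
    rw [List.map_flatten] at h5
    simp only [List.map_cons, List.flatten_cons, List.cons_append, List.nodup_cons] at h5 ⊢
    refine ⟨?_, ?_, h5⟩
    · simp [lm]
    · simp [lm]
  · have h5 := h4.relabel some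
    simp only [List.map_cons] at h5 ⊢
    convert h5 using 2
    rw [mk_cons, mk_cons (none, !a.2)]
    have : mk [((none : Option E), !a.2)] = (mk [((none : Option E), a.2)])⁻¹ :=
      mk_bar (none, a.2)
    rw [this]; group

theorem Diag.fold {W : List (A × Bool)} {ws} {a : A × Bool} (h : Diag (a :: bar a :: W) ws) :
    Diag W ws := by
  classical
  obtain ⟨E, hE, lb, W', ws', h1, rfl, h3, h4⟩ := h
  obtain ⟨x, W1, rfl, hx, h1⟩ := List.map_eq_cons_iff.1 h1
  obtain ⟨y, W2, rfl, hy, rfl⟩ := List.map_eq_cons_iff.1 h1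
  have hs : y.2 = !x.2 := by
    have := congrArg Prod.snd hy
    rw [← hx] at this
    simpa using this
  have hl : lb y.1 = lb x.1 := by
    have := congrArg Prod.fst hy
    rw [← hx] at this
    simpa using this
  let s : E → E := fun e => if e = y.1 then x.1 else e
  have hls : lb ∘ s = lb := by
    funext e
    by_cases he : e = y.1 <;> simp [s, he, hl]
  simp only [List.flatten_cons, List.cons_append, List.nodup_cons, List.mem_cons, not_or] at h3
  refine ⟨E, hE, lb, W2.map (lm s), ws'.map (List.map (lm s)), ?_, ?_, ?_, ?_⟩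
  · rw [map_lm_lm, hls]
  · rw [List.map_map]
    refine List.map_congr_left fun w _ => ?_
    rw [Function.comp_apply, map_lm_lm, hls]
  · have : (W2.map (lm s) :: ws'.map (List.map (lm s))).flatten =
        (W2 ++ ws'.flatten).map (lm s) := by simp [List.map_flatten]
    rw [this]
    refine List.Nodup.map_on ?_ h3.2.2
    have key : ∀ z ∈ W2 ++ ws'.flatten, ∀ z' ∈ W2 ++ ws'.flatten, z.2 = z'.2 → z.1 = x.1 →
        z'.1 = y.1 → False := by
      intro z hz z' hz' e1 e2 e3
      by_cases hb : z.2 = x.2
      · exact h3.1.2 (by rwa [← show z = x from Prod.ext e2 hb])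
      · have : z' = y := Prod.ext e3 (by rw [hs, ← e1]; cases h : z.2 <;> cases h' : x.2 <;> simp_all)
        exact h3.2.1 (this ▸ hz')
    intro z hz z' hz' e
    have e1 : z.2 = z'.2 := (Prod.ext_iff.1 e).2
    have e2 : s z.1 = s z'.1 := congrArg Prod.fst e
    by_cases h1 : z.1 = y.1 <;> by_cases h2 : z'.1 = y.1
    · exact Prod.ext (h1.trans h2.symm) e1
    · simp only [s, h1, h2, if_true, if_false] at e2
      exact (key z' hz' z hz e1.symm e2.symm h1).elim
    · simp only [s, h1, h2, if_true, if_false] at e2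
      exact (key z hz z' hz' e1 e2 h2).elim
    · simp only [s, h1, h2, if_false] at e2
      exact Prod.ext e2 e1
  · have h5 := h4.relabel s
    simp only [List.map_cons] at h5 ⊢
    convert h5 using 2
    rw [mk_cons, mk_cons (lm s y)]
    have e1 : lm s y = bar (lm s x) := by
      refine Prod.ext ?_ hs
      by_cases he : x.1 = y.1 <;> simp [s, he]
    rw [e1, mk_bar]; group

theorem Diag.step {W W' : List (A × Bool)} {ws} (h : FreeGroup.Red.Step W W') :
    Diag W ws ↔ Diag W' ws := by
  rcases h with @⟨u, v, x, b⟩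
  constructor
  · intro h
    have h1 : Diag ((x, b) :: bar (x, b) :: (v ++ u)) ws := by
      have := Diag.rot h
      simpa [bar] using this
    exact h1.fold.rot
  · intro h
    have h1 := (Diag.rot h).spike (x, b)
    have h2 : Diag (((x, b) :: (x, !b) :: v) ++ u) ws := by simpa [bar] using h1
    exact h2.rot

theorem Diag.of_mk_eq {W W' : List (A × Bool)} {ws} (e : mk W = mk W') (h : Diag W ws) :
    Diag W' ws := by
  have e1 : Relation.EqvGen FreeGroup.Red.Step W W' :=
    FreeGroup.eqvGen_step_iff_join_red.2 (FreeGroup.Red.exact.1 e)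
  have : Diag W ws ↔ Diag W' ws := by
    clear e h
    induction e1 with
    | rel _ _ h => exact Diag.step h
    | refl => rfl
    | symm _ _ _ ih => exact ih.symm
    | trans _ _ _ _ _ ih1 ih2 => exact ih1.trans ih2
  exact this.1 h

theorem Diag.peel {W r : List (A × Bool)} {ws} (h : Diag (W ++ r) ws) : Diag W (r :: ws) := by
  obtain ⟨E, hE, lb, W', ws', h1, rfl, h3, h4⟩ := h
  obtain ⟨u', v', rfl, rfl, rfl⟩ := List.map_eq_append_iff.1 h1
  refine ⟨E, hE, lb, u', v' :: ws', rfl, rfl, by simpa using h3, ?_⟩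
  simp only [List.map_cons, mk_append] at h4 ⊢
  exact h4.of_mul

theorem diag_of_cj : ∀ (ws : List (List (A × Bool))) (W : List (A × Bool)),
    Cj (mk W :: ws.map mk) → Diag W ws
  | [], W, h => by
    rw [List.map_nil, Cj.cons_iff, CjP.nil_iff, inv_eq_one] at h
    exact Diag.nil.of_mk_eq h.symm
  | r :: ws, W, h => by
    obtain ⟨g, hg⟩ := Cj.exists_mul h
    obtain ⟨u, rfl⟩ : ∃ u, mk u = g := Quot.exists_rep g
    have h1 : Cj (mk ((invRev u ++ (W ++ u)) ++ r) :: ws.map mk) := by
      refine Cj.of_isConj (isConj_iff.2 ⟨(mk u)⁻¹, ?_⟩) hg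
      rw [mk_append, mk_append, mk_append, ← inv_mk]; group
    have h2 := ((diag_of_cj ws _ h1).peel).rot
    refine h2.of_mk_eq ?_
    rw [mk_append, mk_append, ← inv_mk]; group

/-- The tagging lemma for an indexed family of faces. -/
theorem exists_tag {ι : Type} (wd : ι → List (A × Bool)) (fs : List ι) (W : List (A × Bool))
    (h : Cj (mk W :: fs.map fun f => mk (wd f))) :
    ∃ (E : Type) (_ : Finite E) (lb : E → A) (W' : List (E × Bool))
      (gs : List (ι × List (E × Bool))),
      W'.map (lm lb) = W ∧ gs.map Prod.fst = fs ∧ (∀ p ∈ gs, p.2.map (lm lb) = wd p.1) ∧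
      (W' ++ gs.flatMap Prod.snd).Nodup ∧ Cj (mk W' :: gs.map fun p => mk p.2) := by
  have h1 : Cj (mk W :: (fs.map wd).map mk) := by simpa [List.map_map, Function.comp_def] using h
  obtain ⟨E, hE, lb, W', ws', h2, h3, h4, h5⟩ := diag_of_cj _ _ h1
  have hl : fs.length = ws'.length := by simpa using (congrArg List.length h3).symm
  have hs : (fs.zip ws').map Prod.snd = ws' := List.map_snd_zip hl.ge
  refine ⟨E, hE, lb, W', fs.zip ws', h2, List.map_fst_zip hl.le, ?_, ?_, ?_⟩
  · intro p hp
    obtain ⟨i, hi, rfl⟩ := List.getElem_of_mem hp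
    simp only [List.length_zip, lt_min_iff] at hi
    have := congrArg (fun l => l[i]?) h3
    simpa [hi.1, hi.2] using this
  · rw [List.flatMap_def, hs]; simpa using h4
  · have : ((fs.zip ws').map fun p => mk p.2) = ws'.map mk := by
      conv_rhs => rw [← hs]
      simp
    rw [this]; simpa using h5

end Crest.Agent.GSC
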