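import Crest.Agent.GSC.TopoPS
import Crest.Agent.GSC.TopoAlg

/-! Contractibility of an abstract Cayley complex of an aspherical presentation. -/

set_option autoImplicit false

open scoped unitInterval Topology

namespace Crest.Agent.GSC.Topo

section halves
variable {X : Type*} [TopologicalSpace X] {a b : X}

theorem mid00 : mid 0 0 = 0 := by ext; simp [mid]
theorem mid11 : mid 1 1 = 1 := by ext; simp [mid]

/-- first half of a path -/
noncomputable def fh (p : Path a b) {m : X} (h : p (mid 1 0) = m) : Path a m where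
  toFun u := p (mid u 0)
  continuous_toFun := p.continuous.comp (continuous_mid.comp (continuous_id.prodMk continuous_const))
  source' := by simp [mid00]
  target' := h

/-- second half of a path -/
noncomputable def sh (p : Path a b) {m : X} (h : p (mid 1 0) = m) : Path m b where
  toFun u := p (mid u 1)
  continuous_toFun := p.continuous.comp (continuous_mid.comp (continuous_id.prodMk continuous_const))
  source' := by rw [mid_comm]; exact h
  target' := by simp [mid11]

theorem mid_cases (τ : I) : (∃ x, τ = mid x 0) ∨ ∃ x, τ = mid x 1 := by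
  rcases le_total (τ : ℝ) (1 / 2) with h | h
  · left
    exact ⟨⟨2 * τ, by constructor <;> linarith [τ.2.1]⟩, by ext; simp [mid]⟩
  · right
    exact ⟨⟨2 * τ - 1, by constructor <;> linarith [τ.2.2]⟩, by ext; simp [mid]⟩

theorem fh_trans_sh (p : Path a b) {m : X} (h : p (mid 1 0) = m) :
    (fh p h).trans (sh p h) = p := by
  ext τ
  rcases mid_cases τ with ⟨x, rfl⟩ | ⟨x, rfl⟩
  · exact trans_mid_left _ _ _
  · exact trans_mid_right _ _ _

end halves

variable {P J G B Y : Type} [Group G] [TopologicalSpace B] [TopologicalSpace Y]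

/-- the lifts of `γ` given by `S` and `S'` differ by `α` -/
def Good (y0 : Y) (S S' : B → C(I, Y)) (γ : I → B) (α : A2g y0) : Prop :=
  ∀ (D : Type) [TopologicalSpace D] (t : C(D, Y)) (j : C(I, D)) (q0 q1 : PS y0 t)
    (p p' : Path q0 q1), (∀ u, (p u).1 = (j u, S (γ u))) → (∀ u, (p' u).1 = (j u, S' (γ u))) →
    Rel α (cl p) (cl p')

variable {y0 : Y} {S S' : B → C(I, Y)}

omit [TopologicalSpace B] in
theorem Good.const {b : B} (h : S b = S' b) : Good y0 S S' (fun _ => b) 0 := by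
  intro D _ t j q0 q1 p p' hp hp'
  have : p = p' := by
    ext1; funext u
    exact Subtype.ext (by rw [hp, hp', h])
  rw [this]
  exact Rel.refl _

omit [TopologicalSpace B] in
theorem Good.symm {γ : I → B} {α : A2g y0} (h : Good y0 S S' γ α) :
    Good y0 S S' (fun u => γ (σ u)) (-α) := by
  intro D _ t j q0 q1 p p' hp hp'
  have := (h D t (j.comp ⟨σ, unitInterval.continuous_symm⟩) q1 q0 p.symm p'.symm
    (fun u => by simp [hp]) (fun u => by simp [hp'])).symm
  simpa [← Path.Homotopic.Quotient.mk_symm] using this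

theorem Good.trans {b0 b1 b2 : B} {γ : Path b0 b1} {γ' : Path b1 b2} {α β : A2g y0}
    (h : Good y0 S S' γ α) (h' : Good y0 S S' γ' β) (hb : S b1 = S' b1) :
    Good y0 S S' (γ.trans γ') (α + β) := by
  intro D _ t j q0 q1 p p' hp hp'
  have hm : p' (mid 1 0) = p (mid 1 0) := by
    apply Subtype.ext
    rw [hp, hp', trans_mid_left, γ.target, hb]
  have c0 : Continuous fun u : I => mid u 0 :=
    continuous_mid.comp (continuous_id.prodMk continuous_const)
  have c1 : Continuous fun u : I => mid u 1 :=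
    continuous_mid.comp (continuous_id.prodMk continuous_const)
  have a1 := h D t (j.comp ⟨_, c0⟩) _ _ (fh p rfl) (fh p' hm)
    (fun u => (hp _).trans (by rw [trans_mid_left]; rfl))
    (fun u => (hp' _).trans (by rw [trans_mid_left]; rfl))
  have a2 := h' D t (j.comp ⟨_, c1⟩) _ _ (sh p rfl) (sh p' hm)
    (fun u => (hp _).trans (by rw [trans_mid_right]; rfl))
    (fun u => (hp' _).trans (by rw [trans_mid_right]; rfl))
  have := a1.trans a2
  rwa [← Path.Homotopic.Quotient.mk_trans, ← Path.Homotopic.Quotient.mk_trans, fh_trans_sh,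
    fh_trans_sh] at this

omit [TopologicalSpace B] in
theorem Good.of_rel {γ : I → B} {α : A2g y0} {e : C(I, Y)} {Q0 Q1 : PS y0 e} (p0 p0' : Path Q0 Q1)
    (h0 : ∀ u, (p0 u).1 = (u, S (γ u))) (h0' : ∀ u, (p0' u).1 = (u, S' (γ u)))
    (h : Rel α (cl p0) (cl p0')) : Good y0 S S' γ α := by
  intro D _ t j q0 q1 p p' hp hp'
  have hj : ∀ u, e u = t (j u) := by
    intro u
    have a := (p0 u).2.2
    have b := (p u).2.2
    rw [h0] at a
    rw [hp] at b
    exact a.symm.trans b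
  have k : ∀ u, p u = bc j hj (p0 u) := fun u => Subtype.ext (by
    rw [hp]; show _ = (j (p0 u).1.1, (p0 u).1.2); rw [h0])
  have k' : ∀ u, p' u = bc j hj (p0' u) := fun u => Subtype.ext (by
    rw [hp']; show _ = (j (p0' u).1.1, (p0' u).1.2); rw [h0'])
  obtain rfl : q0 = bc j hj Q0 := by rw [← p.source, k, p0.source]
  obtain rfl : q1 = bc j hj Q1 := by rw [← p.target, k, p0.target]
  obtain rfl : p = p0.map (bc j hj).continuous := by ext1; funext u; exact k u
  obtain rfl : p' = p0'.map (bc j hj).continuous := by ext1; funext u; exact k' u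
  exact h.bc j hj

section
variable {gen : P → G} {v : G → B} (ε : ∀ g s, Path (v g) (v (g * gen s)))

/-- the path of a letter -/
def lp (g : G) : (x : P × Bool) → Path (v g) (v (g * lv gen x))
  | (s, true) => ε g s
  | (s, false) => ((ε (g * (gen s)⁻¹) s).symm).cast (by simp) rfl

/-- the path of a word -/
noncomputable def wp : (g : G) → (l : List (P × Bool)) → Path (v g) (v (endp gen g l))
  | _, [] => Path.refl _
  | g, x :: l => (lp ε g x).trans (wp (g * lv gen x) l)

theorem good_wp (u : G → P → A2g y0) (hv : ∀ g, S (v g) = S' (v g))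
    (he : ∀ g s, Good y0 S S' (ε g s) (u g s)) :
    ∀ (l : List (P × Bool)) (g : G), Good y0 S S' (wp ε g l) (csum gen u g l)
  | [], g => Good.const (hv g)
  | (s, b) :: l, g => by
    refine Good.trans ?_ (good_wp u hv he l _) (hv _)
    cases b
    · exact (he _ s).symm
    · exact he g s

omit [Group G] in
theorem sig_eq (y : G → Y) {g g' : G} (h : g = g') (c : PQ y0 (y g)) (d : PQ (y g) (y g'))
    (hd : d = (Path.Homotopic.Quotient.refl (y g)).cast rfl (congrArg y h.symm)) :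
    (⟨g', c.trans d⟩ : Σ g, PQ y0 (y g)) = ⟨g, c⟩ := by
  subst h
  rw [hd]; simp

theorem symm_cast_trans (ι : C(B, Y)) {x x' z : B} (e : Path z x) (h : x' = x) :
    ((cl (e.symm.cast h rfl)).map ι).trans ((cl e).map ι) =
      (Path.Homotopic.Quotient.refl (ι x')).cast rfl (congrArg ι h.symm) := by
  subst h
  rw [← map_trans]
  simp [map_refl]

/-- right multiplication by a path class -/
noncomputable def rmul {a b : Y} (d : PQ a b) : PQ y0 a ≃ PQ y0 b where
  toFun c := c.trans d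
  invFun c := c.trans d.symm
  left_inv c := by simp [Path.Homotopic.Quotient.trans_assoc]
  right_inv c := by simp [Path.Homotopic.Quotient.trans_assoc]

theorem actL_wp (ι : C(B, Y)) : ∀ (l : List (P × Bool)) (g : G) (c : PQ y0 (ι (v g))),
    actL (fun s => (Equiv.sigmaCongr (Equiv.mulRight (gen s))
      (fun g => rmul ((cl (ε g s)).map ι)) : Equiv.Perm (Σ g, PQ y0 (ι (v g))))) l ⟨g, c⟩ =
      ⟨endp gen g l, c.trans ((cl (wp ε g l)).map ι)⟩
  | [], g, c => (sig_eq (fun g => ι (v g)) rfl c _ rfl).symm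
  | (s, b) :: l, g, c => by
    have : lv (fun s => (Equiv.sigmaCongr (Equiv.mulRight (gen s))
        (fun g => rmul ((cl (ε g s)).map ι)) : Equiv.Perm (Σ g, PQ y0 (ι (v g))))) (s, b) ⟨g, c⟩ =
        ⟨g * lv gen (s, b), c.trans ((cl (lp ε g (s, b))).map ι)⟩ := by
      cases b
      · refine Equiv.Perm.inv_eq_iff_eq.2 (Eq.symm ?_)
        refine Eq.trans ?_ (sig_eq (fun g => ι (v g)) (g' := g * (gen s)⁻¹ * gen s) (by simp) c _
          (symm_cast_trans ι (ε (g * (gen s)⁻¹) s) (by simp)))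
        rw [← Path.Homotopic.Quotient.trans_assoc]
        rfl
      · rfl
    rw [actL, this, actL_wp ι l, Path.Homotopic.Quotient.trans_assoc, ← map_trans]
    rfl

end

theorem contractible_of {r : J → FreeGroup P} {pi : FreeGroup P →* G}
    (hsurj : Function.Surjective pi) (hker : pi.ker = Subgroup.normalClosure (Set.range r))
    (asph : ∀ l, sev r l = 1 → scl pi l = 0) (w : J → List (P × Bool))
    (hw : ∀ i, FreeGroup.mk (w i) = r i) (v : G → B)
    (ε : ∀ g s, Path (v g) (v (g * pi (FreeGroup.of s))))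
    (UP1 : ∀ (a : G → C(I, Y)) (ω : G → P → C(I, C(I, Y))), (∀ g s, ω g s 0 = a g) →
      (∀ g s, ω g s 1 = a (g * pi (FreeGroup.of s))) →
      ∃ S : C(B, C(I, Y)), (∀ g, S (v g) = a g) ∧ ∀ g s u, S (ε g s u) = ω g s u)
    (sj1 : ∀ b, (∃ g, b = v g) ∨ ∃ g s u, b = ε g s u)
    (ι : C(B, Y)) (t : G → J → C(I × I, Y))
    (tb : ∀ g i u, t g i (u, 0) = ι (wp ε g (w i) u)) (tr : ∀ g i u, t g i (1, u) = ι (v g))
    (tl : ∀ g i u, t g i (0, u) = ι (v g)) (tt : ∀ g i u, t g i (u, 1) = ι (v g))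
    (UP2 : ∀ (S1 : C(B, C(I, Y))) (T : G → J → C(I × I, C(I, Y))),
      (∀ g i u, T g i (u, 0) = S1 (wp ε g (w i) u)) → (∀ g i u, T g i (1, u) = S1 (v g)) →
      (∀ g i u, T g i (0, u) = S1 (v g)) → (∀ g i u, T g i (u, 1) = S1 (v g)) →
      ∃ S : C(Y, C(I, Y)), (∀ b, S (ι b) = S1 b) ∧ ∀ g i z, S (t g i z) = T g i z)
    (sj2 : ∀ y, (∃ b, y = ι b) ∨ ∃ g i z, y = t g i z) : ContractibleSpace Y := by
  set y0 : Y := ι (v 1) with hy0
  have hend : ∀ g i, endp (fun s => pi (FreeGroup.of s)) g (w i) = g := by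
    intro g i
    have hr : pi (r i) = 1 := by
      rw [← MonoidHom.mem_ker, hker]
      exact Subgroup.subset_normalClosure ⟨i, rfl⟩
    rw [endp_eq, hw, hr, mul_one]
  -- paths to the vertices
  obtain ⟨c, hc⟩ := exists_section hsurj hker w hw (fun g => PQ y0 (ι (v g)))
    (fun g s => rmul ((cl (ε g s)).map ι)) (Path.Homotopic.Quotient.refl _) (by
      rintro i ⟨g, c⟩
      refine (actL_wp ε ι (w i) g c).trans (sig_eq (fun g => ι (v g)) (hend g i).symm c _ ?_)
      refine Path.Homotopic.Quotient.eq.2 ⟨⟨⟨⟨fun z => t g i (z.2, z.1), by fun_prop⟩,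
        fun u => tb g i u, fun u => tt g i u⟩, ?_⟩⟩
      rintro τ u (rfl | rfl)
      · exact (tl g i τ).trans (by simp)
      · exact (tr g i τ).trans (by simp [hend]))
  choose a ha using fun g => Path.Homotopic.Quotient.mk_surjective (c g)
  have hF : ∀ g s, ∃ F : C(I × I, Y), (∀ x, F (x, 0) = y0) ∧
      (∀ y, F (1, y) = a (g * pi (FreeGroup.of s)) y) ∧ (∀ y, F (0, y) = a g y) ∧
      ∀ x, F (x, 1) = ι (ε g s x) := by
    intro g s
    apply fill_square (Path.refl y0) (a _) (a g) ((ε g s).map ι.continuous)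
    apply Path.Homotopic.Quotient.eq.1
    rw [Path.Homotopic.Quotient.mk_trans, Path.Homotopic.Quotient.mk_trans, ha, ha, hc]
    simp [rmul, Path.Homotopic.Quotient.mk_map]
  choose F hF0 hFr hFl hF1 using hF
  let e : G → P → C(I, Y) := fun g s => ι.comp (ε g s).toContinuousMap
  let Q0 : ∀ g s, PS y0 (e g s) := fun g s => ⟨(0, (a g).toContinuousMap), by simp, by simp [e]⟩
  let Q1 : ∀ g s, PS y0 (e g s) := fun g s =>
    ⟨(1, (a (g * pi (FreeGroup.of s))).toContinuousMap), by simp, by simp [e]⟩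
  -- sections over the one-skeleton
  have hsec : ∀ p : ∀ g s, Path (Q0 g s) (Q1 g s), (∀ g s u, (p g s u).1.1 = u) →
      ∃ S : C(B, C(I, Y)), (∀ g, S (v g) = (a g).toContinuousMap) ∧
        (∀ g s u, (p g s u).1 = (u, S (ε g s u))) ∧ (∀ b, S b 0 = y0) ∧ ∀ b, S b 1 = ι b := by
    intro p hp
    obtain ⟨S, h1, h2⟩ := UP1 (fun g => (a g).toContinuousMap)
      (fun g s => ⟨fun u => (p g s u).1.2, by fun_prop⟩) (fun g s => by simp [Q0])
      (fun g s => by simp [Q1])
    refine ⟨S, h1, fun g s u => Prod.ext (hp g s u) (h2 g s u).symm, fun b => ?_, fun b => ?_⟩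
    · rcases sj1 b with ⟨g, rfl⟩ | ⟨g, s, u, rfl⟩
      · simp [h1]
      · rw [h2]; exact (p g s u).2.1
    · rcases sj1 b with ⟨g, rfl⟩ | ⟨g, s, u, rfl⟩
      · simp [h1]
      · rw [h2]
        refine (p g s u).2.2.trans ?_
        rw [hp]; rfl
  let p0 : ∀ g s, Path (Q0 g s) (Q1 g s) := fun g s =>
    ⟨mkPS (fun u => u) continuous_id (F g s) (F g s).continuous (hF0 g s) (hF1 g s),
      PS.ext rfl (hFl g s), PS.ext rfl (hFr g s)⟩
  obtain ⟨S0, hS0v, hS0e, hS00, hS01⟩ := hsec p0 (fun _ _ _ => rfl)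
  -- the faces
  let Z : ∀ g i (x : I × I), t g i x = ι (v g) → PS y0 (t g i) := fun g i x h =>
    ⟨(x, (a g).toContinuousMap), by simp, by simp [h]⟩
  let lf : ∀ g i, Path (Z g i (0, 0) (tl g i 0)) (Z g i (0, 1) (tl g i 1)) := fun g i =>
    ⟨⟨fun u => Z g i (0, u) (tl g i u), by fun_prop⟩, rfl, rfl⟩
  let rt : ∀ g i, Path (Z g i (1, 0) (tr g i 0)) (Z g i (1, 1) (tr g i 1)) := fun g i =>
    ⟨⟨fun u => Z g i (1, u) (tr g i u), by fun_prop⟩, rfl, rfl⟩
  let tp : ∀ g i, Path (Z g i (0, 1) (tl g i 1)) (Z g i (1, 1) (tr g i 1)) := fun g i =>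
    ⟨⟨fun u => Z g i (u, 1) (tt g i u), by fun_prop⟩, rfl, rfl⟩
  have hbt : ∀ S : C(B, C(I, Y)), (∀ g, S (v g) = (a g).toContinuousMap) → (∀ b, S b 0 = y0) →
      (∀ b, S b 1 = ι b) → ∀ g i, ∃ p : Path (Z g i (0, 0) (tl g i 0)) (Z g i (1, 0) (tr g i 0)),
        ∀ u, (p u).1 = ((u, 0), S (wp ε g (w i) u)) := by
    intro S h1 h2 h3 g i
    refine ⟨⟨⟨fun u => ⟨((u, 0), S (wp ε g (w i) u)), h2 _, (h3 _).trans (tb g i u).symm⟩,
      by fun_prop⟩, Subtype.ext ?_, Subtype.ext ?_⟩, fun u => rfl⟩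
    · simp [Z, h1]
    · simp [Z, h1, hend]
  choose bt0 hbt0 using hbt S0 hS0v hS00 hS01
  choose o ho using fun g i => Rel.exists_left (cl (bt0 g i))
    (((cl (lf g i)).trans (cl (tp g i))).trans (cl (rt g i)).symm)
  obtain ⟨u, hu⟩ := exists_cochain hsurj hker asph w hw o
  choose h' hh' using fun g s => Rel.exists_right (u g s) (cl (p0 g s))
  choose p1 hp1 hp1' using fun g s => straighten (q := Q0 g s) (q' := Q1 g s) rfl rfl (h' g s)
  obtain ⟨S1, hS1v, hS1e, hS10, hS11⟩ := hsec p1 hp1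
  choose bt1 hbt1 using hbt S1 hS1v hS10 hS11
  have hgood := good_wp (S := S0) (S' := S1) ε u (fun g => by rw [hS0v, hS1v])
    (fun g s => Good.of_rel (p0 g s) (p1 g s) (hS0e g s) (hS1e g s) (by rw [hp1']; exact hh' g s))
  have hT : ∀ g i, ∃ T : C(I × I, C(I, Y)), (∀ u, T (u, 0) = S1 (wp ε g (w i) u)) ∧
      (∀ u, T (1, u) = S1 (v g)) ∧ (∀ u, T (0, u) = S1 (v g)) ∧ (∀ u, T (u, 1) = S1 (v g)) ∧
      (∀ z, T z 0 = y0) ∧ ∀ z, T z 1 = t g i z := by
    intro g i
    have h1 := hgood (w i) g (I × I) (t g i) ⟨fun u => (u, 0), by fun_prop⟩ _ _ (bt0 g i) (bt1 g i)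
      (hbt0 g i) (hbt1 g i)
    rw [hu] at h1
    have h2 := h1.unique (ho g i)
    obtain ⟨K, k1, k2, k3, k4⟩ := fill_square (bt1 g i) (rt g i) (lf g i) (tp g i) (by
      apply Path.Homotopic.Quotient.eq.1
      rw [Path.Homotopic.Quotient.mk_trans, Path.Homotopic.Quotient.mk_trans]
      rw [show Path.Homotopic.Quotient.mk (bt1 g i) = _ from h2]
      simp [Path.Homotopic.Quotient.trans_assoc])
    refine ⟨⟨fun z => (lam (t g i) (K z, z)).1.2, by fun_prop⟩, fun u => ?_, fun u => ?_,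
      fun u => ?_, fun u => ?_, fun z => (lam (t g i) (K z, z)).2.1,
      fun z => (lam (t g i) (K z, z)).2.2⟩
    · show (lam (t g i) (K _, _)).1.2 = _
      rw [k1, lam_self _ (by rw [hbt1]), hbt1]
    · show (lam (t g i) (K _, _)).1.2 = _
      rw [k2, lam_self (rt g i u) (x := (1, u)) rfl, hS1v]; rfl
    · show (lam (t g i) (K _, _)).1.2 = _
      rw [k3, lam_self (lf g i u) (x := (0, u)) rfl, hS1v]; rfl
    · show (lam (t g i) (K _, _)).1.2 = _
      rw [k4, lam_self (tp g i u) (x := (u, 1)) rfl, hS1v]; rfl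
  choose T hT1 hT2 hT3 hT4 hT5 hT6 using hT
  obtain ⟨S, hS1, hS2⟩ := UP2 S1 T hT1 hT2 hT3 hT4
  rw [contractible_iff_id_nullhomotopic]
  refine ⟨y0, ContinuousMap.Homotopic.symm ⟨⟨⟨fun z => S z.2 z.1, by fun_prop⟩, fun y => ?_,
    fun y => ?_⟩⟩⟩
  · rcases sj2 y with ⟨b, rfl⟩ | ⟨g, i, z, rfl⟩
    · exact (congrArg (fun f : C(I, Y) => f 0) (hS1 b)).trans (hS10 b)
    · exact (congrArg (fun f : C(I, Y) => f 0) (hS2 g i z)).trans (hT5 g i z)
  · rcases sj2 y with ⟨b, rfl⟩ | ⟨g, i, z, rfl⟩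
    · exact (congrArg (fun f : C(I, Y) => f 1) (hS1 b)).trans (hS11 b)
    · exact (congrArg (fun f : C(I, Y) => f 1) (hS2 g i z)).trans (hT6 g i z)

end Crest.Agent.GSC.Topo
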