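import Crest.Agent.GSC.TopoPath

/-! Pullbacks of the path fibration, a regular lifting function and the action of loops. -/

set_option autoImplicit false

open scoped unitInterval Topology

namespace Crest.Agent.GSC.Topo

variable {Y : Type} [TopologicalSpace Y]

/-- evaluation of a path at a real parameter -/
noncomputable def ev (ω : C(I, Y)) (r : ℝ) : Y := ω (Set.projIcc 0 1 zero_le_one r)

@[fun_prop]
theorem Continuous.ev {W : Type*} [TopologicalSpace W] {f : W → C(I, Y)} {g : W → ℝ}
    (hf : Continuous f) (hg : Continuous g) : Continuous fun w => ev (f w) (g w) := by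
  unfold Topo.ev
  exact hf.eval (continuous_projIcc.comp hg)

theorem ev_coe (ω : C(I, Y)) (τ : I) : ev ω τ = ω τ := by simp [ev]

theorem ev_of_le (ω : C(I, Y)) {r : ℝ} (h : r ≤ 0) : ev ω r = ω 0 := by
  unfold ev; rw [Set.projIcc_of_le_left _ h]; rfl

theorem ev_of_ge (ω : C(I, Y)) {r : ℝ} (h : 1 ≤ r) : ev ω r = ω 1 := by
  unfold ev; rw [Set.projIcc_of_right_le _ h]; rfl

/-- pullback of the path fibration along `t` -/
abbrev PS (y0 : Y) {D : Type} [TopologicalSpace D] (t : C(D, Y)) : Type :=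
  {q : D × C(I, Y) // q.2 0 = y0 ∧ q.2 1 = t q.1}

variable {y0 : Y} {D D' : Type}

section
variable [TopologicalSpace D] [TopologicalSpace D'] {t : C(D, Y)} {t' : C(D', Y)}

/-- a map into `PS` from its components -/
def mkPS {W : Type} [TopologicalSpace W] (b : W → D) (hb : Continuous b) (f : W × I → Y)
    (hf : Continuous f) (h0 : ∀ w, f (w, 0) = y0) (h1 : ∀ w, f (w, 1) = t (b w)) :
    C(W, PS y0 t) where
  toFun w := ⟨(b w, (ContinuousMap.curry ⟨f, hf⟩) w), h0 w, h1 w⟩
  continuous_toFun := by fun_prop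

theorem PS.ext {q q' : PS y0 t} (h1 : q.1.1 = q'.1.1) (h2 : ∀ τ, q.1.2 τ = q'.1.2 τ) : q = q' :=
  Subtype.ext (Prod.ext h1 (ContinuousMap.ext h2))

/-- base change -/
def bc (j : C(D', D)) (h : ∀ x, t' x = t (j x)) : C(PS y0 t', PS y0 t) where
  toFun q := ⟨(j q.1.1, q.1.2), q.2.1, q.2.2.trans (h _)⟩
  continuous_toFun := by fun_prop

/-- the loop space -/
abbrev Om (y0 : Y) : Type := PS y0 (ContinuousMap.const Unit y0)

/-- the constant loop -/
def om0 (y0 : Y) : Om y0 := ⟨((), ContinuousMap.const I y0), rfl, rfl⟩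

/-- concatenation -/
noncomputable def catF (z : (Om y0 × PS y0 t) × I) : Y :=
  if (z.2 : ℝ) ≤ 1 / 2 then ev z.1.1.1.2 (2 * z.2) else ev z.1.2.1.2 (2 * z.2 - 1)

theorem continuous_catF : Continuous (catF (y0 := y0) (t := t)) := by
  unfold catF
  refine Continuous.if_le (by fun_prop) (by fun_prop) (by fun_prop) continuous_const ?_
  intro z hz
  rw [hz, ev_of_ge _ (by norm_num), ev_of_le _ (by norm_num), z.1.1.2.2, z.1.2.2.1]
  rfl

/-- the action of loops -/
noncomputable def mu (t : C(D, Y)) : C(Om y0 × PS y0 t, PS y0 t) :=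
  mkPS (fun z => z.2.1.1) (by fun_prop) catF continuous_catF
    (fun w => by
      simp only [catF]
      rw [if_pos (by simp), ev_of_le _ (by simp), w.1.2.1])
    (fun w => by
      simp only [catF]
      rw [if_neg (by norm_num), ev_of_ge _ (by norm_num), w.2.2.2])

/-- action of the constant loop -/
noncomputable def Mf (t : C(D, Y)) : C(PS y0 t, PS y0 t) where
  toFun q := mu t (om0 y0, q)
  continuous_toFun := by fun_prop

theorem Mf_homotopic : (Mf (y0 := y0) t).Homotopic (.id _) := by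
  let H : C(I × PS y0 t, PS y0 t) := mkPS (fun z => z.2.1.1) (by fun_prop)
    (fun z => ev z.1.2.1.2 ((1 - z.1.1) * (2 * z.2 - 1) + z.1.1 * z.2)) (by fun_prop)
    (fun w => by
      rw [ev_of_le _ (by simp; exact w.1.2.2), w.2.2.1])
    (fun w => by
      rw [ev_of_ge _ (by norm_num), w.2.2.2])
  refine ⟨⟨H, fun q => PS.ext rfl fun τ => ?_, fun q => PS.ext rfl fun τ => ?_⟩⟩
  · show ev q.1.2 ((1 - (0 : I)) * (2 * τ - 1) + (0 : I) * τ) = catF ((om0 y0, q), τ)
    simp only [catF]
    split_ifs with h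
    · rw [ev_of_le _ (by simp; linarith), q.2.1]; rfl
    · simp
  · show ev q.1.2 ((1 - (1 : I)) * (2 * τ - 1) + (1 : I) * τ) = q.1.2 τ
    simp [ev_coe]

theorem Mf_ff : FF (Mf (y0 := y0) t) := FF.of_homotopic Mf_homotopic FF.id

/-- right multiplication by the constant loop -/
noncomputable def Rf (y0 : Y) : C(Om y0, Om y0) where
  toFun a := mu _ (a, om0 y0)
  continuous_toFun := by fun_prop

theorem Rf_homotopic : (Rf y0).Homotopic (.id _) := by
  let H : C(I × Om y0, Om y0) := mkPS (fun z => z.2.1.1) (by fun_prop)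
    (fun z => ev z.1.2.1.2 ((1 - z.1.1) * (2 * z.2) + z.1.1 * z.2)) (by fun_prop)
    (fun w => by
      rw [ev_of_le _ (by simp), w.2.2.1])
    (fun w => by
      rw [ev_of_ge _ (by simp; linarith [w.1.2.2]), w.2.2.2])
  refine ⟨⟨H, fun q => PS.ext rfl fun τ => ?_, fun q => PS.ext rfl fun τ => ?_⟩⟩
  · show ev q.1.2 ((1 - (0 : I)) * (2 * τ) + (0 : I) * τ) = catF ((q, om0 y0), τ)
    simp only [catF]
    split_ifs with h
    · simp
    · rw [ev_of_ge _ (by simp; linarith), q.2.2]; rfl
  · show ev q.1.2 ((1 - (1 : I)) * (2 * τ) + (1 : I) * τ) = q.1.2 τ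
    simp [ev_coe]

theorem Rf_ff : FF (Rf y0) := FF.of_homotopic Rf_homotopic FF.id

/-- the second homotopy group, as classes of loops in the loop space -/
abbrev A2 (y0 : Y) : Type := PQ (om0 y0) (om0 y0)

/-- the central action of `A2` -/
noncomputable def th (q : PS y0 t) (α : A2 y0) : PQ (Mf t q) (Mf t q) :=
  (Path.Homotopic.prod α (Path.Homotopic.Quotient.refl q)).map (mu t)

theorem map_Mf {q q' : PS y0 t} (h : PQ q q') :
    h.map (Mf t) = (Path.Homotopic.prod (Path.Homotopic.Quotient.refl (om0 y0)) h).map (mu t) := by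
  induction h using Path.Homotopic.Quotient.ind with | mk p => rfl

theorem th_comm {q q' : PS y0 t} (h : PQ q q') (α : A2 y0) :
    (th q α).trans (h.map (Mf t)) = (h.map (Mf t)).trans (th q' α) := by
  rw [map_Mf]
  unfold th
  erw [← map_trans, ← map_trans, Path.Homotopic.comp_prod_eq_prod_comp,
    Path.Homotopic.comp_prod_eq_prod_comp]
  simp

theorem th_trans (q : PS y0 t) (α β : A2 y0) : th q (α.trans β) = (th q α).trans (th q β) := by
  unfold th
  erw [← map_trans, Path.Homotopic.comp_prod_eq_prod_comp]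
  simp

theorem th_refl (q : PS y0 t) :
    th q (Path.Homotopic.Quotient.refl _) = Path.Homotopic.Quotient.refl _ := rfl

theorem th_symm (q : PS y0 t) (α : A2 y0) : th q α.symm = (th q α).symm := by
  apply trans_left_cancel (th q α)
  rw [← th_trans]
  simp [th_refl]

theorem th_bc (j : C(D', D)) (h : ∀ x, t' x = t (j x)) (q : PS y0 t') (α : A2 y0) :
    th (bc j h q) α = (th q α).map (bc j h) := by
  induction α using Path.Homotopic.Quotient.ind with | mk p => rfl

theorem Mf_bc (j : C(D', D)) (h : ∀ x, t' x = t (j x)) {q q' : PS y0 t'} (p : PQ q q') :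
    (p.map (bc j h)).map (Mf t) = (p.map (Mf t')).map (bc j h) := by
  induction p using Path.Homotopic.Quotient.ind with | mk p => rfl

theorem th_om0 (α : A2 y0) : th (om0 y0) α = α.map (Rf y0) := by
  induction α using Path.Homotopic.Quotient.ind with | mk p => rfl

theorem A2_comm (α β : A2 y0) : α.trans β = β.trans α := by
  apply (Rf_ff _ _).1
  simp only
  rw [← th_om0, ← th_om0, th_trans, th_trans]
  obtain ⟨k, hk⟩ := (Mf_ff _ _).2 (th (om0 y0) β)
  simp only at hk
  rw [← hk, th_comm]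

/-- `A2` as an additive group -/
def A2g (y0 : Y) : Type := A2 y0

noncomputable instance : Add (A2g y0) := ⟨fun α β => Path.Homotopic.Quotient.trans α β⟩
noncomputable instance : Zero (A2g y0) := ⟨Path.Homotopic.Quotient.refl _⟩
noncomputable instance : Neg (A2g y0) := ⟨fun α => Path.Homotopic.Quotient.symm α⟩

noncomputable instance : AddCommGroup (A2g y0) where
  add_assoc := Path.Homotopic.Quotient.trans_assoc
  zero_add := Path.Homotopic.Quotient.refl_trans
  add_zero := Path.Homotopic.Quotient.trans_refl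
  neg_add_cancel := Path.Homotopic.Quotient.symm_trans
  add_comm := A2_comm
  nsmul := nsmulRec
  zsmul := zsmulRec

/-- `h'` differs from `h` by `α` -/
def Rel (α : A2g y0) {q q' : PS y0 t} (h h' : PQ q q') : Prop :=
  h'.map (Mf t) = (th q α).trans (h.map (Mf t))

theorem Rel.refl {q q' : PS y0 t} (h : PQ q q') : Rel 0 h h :=
  (Path.Homotopic.Quotient.refl_trans _).symm

theorem Rel.trans {α β : A2g y0} {q q' q'' : PS y0 t} {h h' : PQ q q'} {k k' : PQ q' q''}
    (H : Rel α h h') (K : Rel β k k') : Rel (α + β) (h.trans k) (h'.trans k') := by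
  unfold Rel at *
  rw [map_trans, map_trans, H, K]
  erw [th_trans]
  simp only [Path.Homotopic.Quotient.trans_assoc]
  congr 1
  rw [← Path.Homotopic.Quotient.trans_assoc, ← th_comm, Path.Homotopic.Quotient.trans_assoc]

theorem Rel.symm {α : A2g y0} {q q' : PS y0 t} {h h' : PQ q q'}
    (H : Rel α h h') : Rel (-α) h.symm h'.symm := by
  unfold Rel at *
  rw [map_symm, map_symm, H]
  erw [th_symm]
  apply trans_left_cancel ((th q α).trans (h.map (Mf t)))
  rw [Path.Homotopic.Quotient.trans_symm, th_comm]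
  simp [Path.Homotopic.Quotient.trans_assoc, ← Path.Homotopic.Quotient.trans_assoc (th q' α)]

theorem Rel.bc {α : A2g y0} (j : C(D', D)) (hj : ∀ x, t' x = t (j x)) {q q' : PS y0 t'}
    {h h' : PQ q q'} (H : Rel α h h') : Rel α (h.map (bc j hj)) (h'.map (bc j hj)) := by
  unfold Rel at *
  rw [Mf_bc, Mf_bc, H, th_bc]
  exact map_trans _ _ _

theorem Rel.exists_right (α : A2g y0) {q q' : PS y0 t} (h : PQ q q') : ∃ h', Rel α h h' :=
  (Mf_ff _ _).2 _

theorem Rel.unique {α : A2g y0} {q q' : PS y0 t} {h h1 h2 : PQ q q'} (H1 : Rel α h h1)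
    (H2 : Rel α h h2) : h1 = h2 :=
  (Mf_ff _ _).1 (Eq.trans H1 (Eq.symm H2))

end

/-- spaces with a continuous way of moving from `b` towards `x` by an amount `η` -/
class Clamp (D : Type) [PseudoMetricSpace D] where
  /-- the point reached -/
  c : D → D → ℝ → D
  cont : Continuous fun z : D × D × ℝ => c z.1 z.2.1 z.2.2
  c_zero : ∀ b x η, η ≤ 0 → c b x η = b
  c_far : ∀ b x η, dist b x ≤ η → c b x η = x

@[fun_prop]
theorem Continuous.clamp [PseudoMetricSpace D] [Clamp D] {W : Type*} [TopologicalSpace W]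
    {f g : W → D} {e : W → ℝ} (hf : Continuous f) (hg : Continuous g) (he : Continuous e) :
    Continuous fun w => Clamp.c (f w) (g w) (e w) :=
  Clamp.cont.comp (hf.prodMk (hg.prodMk he))

noncomputable instance : Clamp I where
  c b x η := Set.projIcc 0 1 zero_le_one (max (b - max η 0) (min (b + max η 0) x))
  cont := continuous_projIcc.comp (by fun_prop)
  c_zero b x η h := by
    rw [max_eq_right h]
    simp
  c_far b x η h := by
    have h0 : 0 ≤ η := dist_nonneg.trans h
    rw [Subtype.dist_eq, Real.dist_eq, abs_le] at h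
    rw [max_eq_left h0, min_eq_right (by linarith [h.1]), max_eq_right (by linarith [h.2])]
    simp

instance [PseudoMetricSpace D] [Clamp D] [PseudoMetricSpace D'] [Clamp D'] : Clamp (D × D') where
  c b x η := (Clamp.c b.1 x.1 η, Clamp.c b.2 x.2 η)
  cont := by fun_prop
  c_zero b x η h := by rw [Clamp.c_zero _ _ _ h, Clamp.c_zero _ _ _ h]
  c_far b x η h := by
    rw [Prod.dist_eq, max_le_iff] at h
    rw [Clamp.c_far _ _ _ h.1, Clamp.c_far _ _ _ h.2]

section
variable [PseudoMetricSpace D] [Clamp D] {t : C(D, Y)}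

/-- the path of the regular lifting function -/
noncomputable def lamF (z : (PS y0 t × D) × I) : Y :=
  if (z.2 : ℝ) * (1 + dist z.1.1.1.1 z.1.2) ≤ 1 then
    ev z.1.1.1.2 (z.2 * (1 + dist z.1.1.1.1 z.1.2))
  else t (Clamp.c z.1.1.1.1 z.1.2 (z.2 * (1 + dist z.1.1.1.1 z.1.2) - 1))

theorem continuous_lamF : Continuous (lamF (y0 := y0) (t := t)) := by
  unfold lamF
  refine Continuous.if_le (by fun_prop) (by fun_prop) (by fun_prop) continuous_const ?_
  intro z hz
  rw [hz, ev_of_ge _ le_rfl, Clamp.c_zero _ _ _ (by simp), z.1.1.2.2]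

/-- the regular lifting function -/
noncomputable def lam (t : C(D, Y)) : C(PS y0 t × D, PS y0 t) :=
  mkPS (fun z => z.2) (by fun_prop) lamF continuous_lamF
    (fun w => by
      simp only [lamF]
      rw [if_pos (by simp), ev_of_le _ (by simp), w.1.2.1])
    (fun w => by
      simp only [lamF]
      split_ifs with h
      · have hd : dist w.1.1.1 w.2 ≤ 0 := by simpa using h
        rw [ev_of_ge _ (by simp), w.1.2.2]
        congr 1
        rw [← Clamp.c_zero w.1.1.1 w.2 0 le_rfl, Clamp.c_far _ _ _ hd]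
      · rw [Clamp.c_far _ _ _ (by simp)])

theorem lam_fst (q : PS y0 t) (x : D) : (lam t (q, x)).1.1 = x := rfl

theorem lam_self (q : PS y0 t) {x : D} (h : q.1.1 = x) : lam t (q, x) = q := by
  subst h
  refine PS.ext rfl fun τ => ?_
  show lamF ((q, q.1.1), τ) = _
  simp only [lamF]
  rw [if_pos (by simpa using τ.2.2)]
  simp [ev_coe]

/-- the deformation of a point towards the fibre over `x` -/
noncomputable def slide (t : C(D, Y)) : C(I × PS y0 t × D, PS y0 t) where
  toFun z := lam t (z.2.1, Clamp.c z.2.1.1.1 z.2.2 (z.1 * dist z.2.1.1.1 z.2.2))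
  continuous_toFun := by fun_prop

theorem slide_zero (q : PS y0 t) (x : D) : slide t (0, q, x) = q :=
  lam_self q (Clamp.c_zero _ _ _ (by simp)).symm

theorem slide_one (q : PS y0 t) (x : D) : slide t (1, q, x) = lam t (q, x) := by
  show lam t (q, Clamp.c _ _ _) = _
  rw [Clamp.c_far _ _ _ (by simp)]

theorem slide_self (v : I) (q : PS y0 t) {x : D} (h : q.1.1 = x) : slide t (v, q, x) = q := by
  subst h
  exact lam_self q (Clamp.c_zero _ _ _ (by simp)).symm

theorem fib_ff (x : D) {y : Y} (h : ∀ _ : Unit, y = t x) :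
    FF (bc (y0 := y0) (t' := ContinuousMap.const Unit y) (t := t) (.const Unit x) h) := by
  let ρ : C(PS y0 t, PS y0 (ContinuousMap.const Unit y)) :=
    ⟨fun q => ⟨((), (lam t (q, x)).1.2), (lam t (q, x)).2.1, (lam t (q, x)).2.2.trans (h ()).symm⟩,
      by fun_prop⟩
  apply FF.of_inv _ ρ
  · have : ρ.comp (bc (y0 := y0) (t' := ContinuousMap.const Unit y) (t := t) (.const Unit x) h)
        = .id _ := by
      ext1 q
      refine PS.ext rfl fun τ => ?_
      have := lam_self (bc (y0 := y0) (t' := ContinuousMap.const Unit y) (t := t)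
        (.const Unit x) h q) (x := x) rfl
      exact congrArg (fun z => z.1.2 τ) this
    rw [this]
  · refine ContinuousMap.Homotopic.symm ⟨⟨⟨fun z => slide t (z.1, z.2, x), by fun_prop⟩,
      fun q => slide_zero q x, fun q => ?_⟩⟩
    show slide t (1, q, x) = _
    rw [slide_one]
    exact PS.ext rfl fun τ => rfl

end

section
variable [TopologicalSpace D] [TopologicalSpace D'] {t : C(D, Y)} {t' : C(D', Y)}

/-- the action of `A2` is onto at `q` -/
def Srj (q : PS y0 t) : Prop := Function.Surjective (th q)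

theorem Srj.of_path {q q' : PS y0 t} (h : PQ q q') (H : Srj q) : Srj q' := by
  intro β
  obtain ⟨α, hα⟩ := H (((h.map (Mf t)).trans β).trans (h.map (Mf t)).symm)
  refine ⟨α, trans_left_cancel (h.map (Mf t)) ?_⟩
  rw [← th_comm, hα]
  simp [Path.Homotopic.Quotient.trans_assoc]

theorem srj_bc (j : C(D', D)) (hj : ∀ x, t' x = t (j x)) (hf : FF (bc (y0 := y0) j hj))
    (q : PS y0 t') : Srj (bc j hj q) ↔ Srj q := by
  constructor
  · intro H β
    obtain ⟨α, hα⟩ := H (β.map (bc j hj))
    rw [th_bc] at hα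
    exact ⟨α, (hf _ _).1 hα⟩
  · intro H β
    obtain ⟨γ, hγ⟩ := (hf (Mf t' q) (Mf t' q)).2 β
    obtain ⟨α, hα⟩ := H γ
    exact ⟨α, by rw [th_bc, hα]; exact hγ⟩

theorem srj_om0 : Srj (om0 y0) := by
  intro β
  obtain ⟨α, hα⟩ := (Rf_ff (om0 y0) (om0 y0)).2 β
  exact ⟨α, by rw [th_om0]; exact hα⟩

theorem srj_const {y : Y} (q : PS y0 (ContinuousMap.const Unit y)) : Srj q := by
  have h0 : ∀ _ : Unit, y0 = q.1.2 0 := fun _ => q.2.1.symm
  have h1 : ∀ _ : Unit, y = q.1.2 1 := fun _ => q.2.2.symm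
  rw [← srj_bc _ h1 (fib_ff 1 h1)]
  have := (srj_bc _ h0 (fib_ff 0 h0) (om0 y0)).2 srj_om0
  let p : C(I, PS y0 q.1.2) := mkPS (fun u => u) continuous_id
    (fun z => ev q.1.2 (z.1 * z.2)) (by fun_prop)
    (fun w => by rw [ev_of_le _ (by simp), q.2.1]) (fun w => by simp [ev_coe])
  refine Srj.of_path (q := bc (ContinuousMap.const Unit 0) h0 (om0 y0))
    (cl ⟨p, PS.ext rfl fun τ => ?_, PS.ext rfl fun τ => ?_⟩) this
  · show ev q.1.2 ((0 : I) * τ) = y0
    rw [ev_of_le _ (by simp), q.2.1]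
  · show ev q.1.2 ((1 : I) * τ) = q.1.2 τ
    simp [ev_coe]

end

section
variable [PseudoMetricSpace D] [Clamp D] {t : C(D, Y)}

theorem srj_all (q : PS y0 t) : Srj q := by
  have h : ∀ _ : Unit, t q.1.1 = t q.1.1 := fun _ => rfl
  exact (srj_bc _ h (fib_ff q.1.1 h) ⟨((), q.1.2), q.2.1, q.2.2⟩).2 (srj_const _)

theorem Rel.exists_left {q q' : PS y0 t} (h h' : PQ q q') : ∃ α, Rel α h h' := by
  obtain ⟨α, hα⟩ := srj_all q ((h'.map (Mf t)).trans (h.map (Mf t)).symm)
  refine ⟨α, ?_⟩
  unfold Rel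
  rw [hα]
  simp [Path.Homotopic.Quotient.trans_assoc]

end

/-- every class over an edge is represented by a section -/
theorem straighten {e : C(I, Y)} {q q' : PS y0 e} (hq : q.1.1 = 0) (hq' : q'.1.1 = 1)
    (h : PQ q q') : ∃ p : Path q q', (∀ u, (p u).1.1 = u) ∧ cl p = h := by
  induction h using Path.Homotopic.Quotient.ind with | mk p =>
  refine ⟨⟨⟨fun u => lam e (p u, u), by fun_prop⟩, ?_, ?_⟩, fun u => rfl, ?_⟩
  · simpa using lam_self q hq
  · simpa using lam_self q' hq'
  · refine Path.Homotopic.Quotient.eq.2 (Path.Homotopic.symm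
      ⟨⟨⟨⟨fun z => slide e (z.1, p z.2, z.2), by fun_prop⟩, fun u => slide_zero _ _,
        fun u => slide_one _ _⟩, ?_⟩⟩)
    rintro v u (rfl | rfl)
    · exact slide_self _ _ (by simpa using hq)
    · exact slide_self _ _ (by simpa using hq')

end Crest.Agent.GSC.Topo
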