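import Mathlib

/-! Path classes: full faithfulness of homotopy equivalences and filling of squares. -/

set_option autoImplicit false

open scoped unitInterval Topology

namespace Crest.Agent.GSC.Topo

variable {X Y Z : Type*} [TopologicalSpace X] [TopologicalSpace Y] [TopologicalSpace Z]

/-- homotopy classes of paths -/
abbrev PQ (x y : X) : Type _ := Path.Homotopic.Quotient x y

/-- the class of a path -/
abbrev cl {x y : X} (p : Path x y) : PQ x y := Path.Homotopic.Quotient.mk p

theorem map_trans {x y z : X} (p : PQ x y) (q : PQ y z) (f : C(X, Y)) :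
    (p.trans q).map f = (p.map f).trans (q.map f) :=
  (FundamentalGroupoid.map f).map_comp (X := ⟨x⟩) (Y := ⟨y⟩) (Z := ⟨z⟩) p q

theorem map_refl (x : X) (f : C(X, Y)) :
    (Path.Homotopic.Quotient.refl x).map f = Path.Homotopic.Quotient.refl (f x) := rfl

theorem map_symm {x y : X} (p : PQ x y) (f : C(X, Y)) : p.symm.map f = (p.map f).symm := by
  induction p using Path.Homotopic.Quotient.ind with | mk p => rfl

theorem trans_left_cancel {x y z : X} (p : PQ x y) {q q' : PQ y z}
    (h : p.trans q = p.trans q') : q = q' := by
  have := congrArg (p.symm.trans ·) h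
  simpa [← Path.Homotopic.Quotient.trans_assoc] using this

theorem trans_right_cancel {x y z : X} {p p' : PQ x y} (q : PQ y z)
    (h : p.trans q = p'.trans q) : p = p' := by
  have := congrArg (·.trans q.symm) h
  simpa [Path.Homotopic.Quotient.trans_assoc] using this

/-- `f` is bijective on path classes -/
def FF (f : C(X, Y)) : Prop := ∀ x y : X, Function.Bijective fun p : PQ x y => p.map f

theorem FF.of_homotopic {f g : C(X, Y)} (h : f.Homotopic g) (hg : FF g) : FF f := by
  obtain ⟨H⟩ := h
  intro x y
  have key : ∀ p : PQ x y, (p.map f).trans (cl (H.evalAt y)) = (cl (H.evalAt x)).trans (p.map g) := by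
    intro p
    induction p using Path.Homotopic.Quotient.ind with | mk p =>
    exact Path.Homotopic.Quotient.eq.2 (Path.Homotopic.map_trans_evalAt H p)
  constructor
  · intro p p' hp
    apply (hg x y).1
    apply trans_left_cancel (cl (H.evalAt x))
    simp only at hp
    rw [← key, ← key, hp]
  · intro q
    obtain ⟨p, hp⟩ := (hg x y).2 (((cl (H.evalAt x)).symm.trans q).trans (cl (H.evalAt y)))
    refine ⟨p, trans_right_cancel (cl (H.evalAt y)) ?_⟩
    simp only at hp ⊢
    rw [key, hp]
    simp [← Path.Homotopic.Quotient.trans_assoc]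

theorem FF.id : FF (ContinuousMap.id X) := by
  intro x y
  have : (fun p : PQ x y => p.map (ContinuousMap.id X)) = _root_.id := by
    funext p
    induction p using Path.Homotopic.Quotient.ind with | mk p => rfl
  rw [this]
  exact Function.bijective_id

theorem FF.of_inv (f : C(X, Y)) (g : C(Y, X)) (h1 : (g.comp f).Homotopic (.id X))
    (h2 : (f.comp g).Homotopic (.id Y)) : FF f := by
  have a1 := FF.of_homotopic h1 FF.id
  have a2 := FF.of_homotopic h2 FF.id
  intro x y
  constructor
  · intro p p' hp
    apply (a1 x y).1
    simp only at hp ⊢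
    rw [Path.Homotopic.Quotient.map_comp, Path.Homotopic.Quotient.map_comp, hp]
  · intro q
    obtain ⟨p, hp⟩ := (a1 x y).2 (q.map g)
    refine ⟨p, (a2 _ _).1 ?_⟩
    simp only at hp ⊢
    rw [Path.Homotopic.Quotient.map_comp] at hp
    rw [Path.Homotopic.Quotient.map_comp, Path.Homotopic.Quotient.map_comp, hp]

theorem continuousAt_of_const (L : C(I × I, Z)) (u w : X → I) {x0 : X} (hu : ContinuousAt u x0)
    (hL : ∀ v, L (v, u x0) = L (w x0, u x0)) : ContinuousAt (fun x => L (w x, u x)) x0 := by
  intro U hU
  have : ∀ᶠ x in 𝓝 x0, ∀ v ∈ (Set.univ : Set I), L (v, u x) ∈ U := by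
    apply isCompact_univ.eventually_forall_of_forall_eventually
    intro v _
    have hc : ContinuousAt (fun z : X × I => L (z.2, u z.1)) (x0, v) :=
      L.continuous.continuousAt.comp (continuousAt_snd.prodMk
        (ContinuousAt.comp (f := Prod.fst) (x := (x0, v)) hu continuousAt_fst))
    apply hc
    simpa [hL v] using hU
  exact this.mono fun x hx => hx _ trivial

/-- the midpoint of two points of the unit interval -/
noncomputable def mid (x y : I) : I :=
  ⟨(x + y) / 2, by
    constructor <;> linarith [x.2.1, x.2.2, y.2.1, y.2.2]⟩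

theorem continuous_mid : Continuous fun z : I × I => mid z.1 z.2 := by
  unfold mid; fun_prop

theorem trans_mid_left {a b c : X} (p : Path a b) (q : Path b c) (x : I) :
    p.trans q (mid x 0) = p x := by
  have : ((mid x 0 : I) : ℝ) ≤ 1 / 2 := by simp [mid]; linarith [x.2.2]
  rw [Path.trans_apply, dif_pos this]
  congr 1; ext; simp [mid]; ring

theorem trans_mid_right {a b c : X} (p : Path a b) (q : Path b c) (x : I) :
    p.trans q (mid x 1) = q x := by
  rw [Path.trans_apply]
  split_ifs with h
  · have hx : x = 0 := by
      apply Subtype.ext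
      have h' : ((x : ℝ) + 1) / 2 ≤ 1 / 2 := h
      show (x : ℝ) = 0
      linarith [x.2.1]
    subst hx
    have : (⟨2 * (mid 0 1 : I), (unitInterval.mul_pos_mem_iff zero_lt_two).2
      ⟨(mid 0 1 : I).2.1, h⟩⟩ : I) = 1 := by ext; simp [mid]
    rw [this]; simp
  · congr 1; ext; simp [mid]; ring

theorem mid_comm (x y : I) : mid x y = mid y x := by ext; simp [mid, add_comm]

/-- Filling a square whose boundary commutes up to homotopy. -/
theorem fill_square {z00 z10 z01 z11 : Z} (bt : Path z00 z10) (rt : Path z10 z11)
    (lf : Path z00 z01) (tp : Path z01 z11) (h : (bt.trans rt).Homotopic (lf.trans tp)) :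
    ∃ F : C(I × I, Z), (∀ x, F (x, 0) = bt x) ∧ (∀ y, F (1, y) = rt y) ∧
      (∀ y, F (0, y) = lf y) ∧ ∀ x, F (x, 1) = tp x := by
  obtain ⟨L⟩ := h
  let w : I × I → I := fun z => Set.projIcc 0 1 zero_le_one
    ((z.2 * (1 - z.1) : ℝ) / (z.2 * (1 - z.1) + z.1 * (1 - z.2)))
  have hc : Continuous fun z : I × I => L.toContinuousMap (w z, mid z.1 z.2) := by
    rw [continuous_iff_continuousAt]
    intro z
    by_cases hz : (z.2 * (1 - z.1) + z.1 * (1 - z.2) : ℝ) = 0
    · apply continuousAt_of_const L.toContinuousMap (fun z : I × I => mid z.1 z.2) w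
        continuous_mid.continuousAt
      intro v
      have h1 := z.1.2.1; have h2 := z.1.2.2; have h3 := z.2.2.1; have h4 := z.2.2.2
      have e1 : (z.2 * (1 - z.1) : ℝ) = 0 := by nlinarith [mul_nonneg h3 (sub_nonneg.2 h2), mul_nonneg h1 (sub_nonneg.2 h4)]
      have e2 : (z.1 * (1 - z.2) : ℝ) = 0 := by linarith
      have : mid z.1 z.2 = 0 ∨ mid z.1 z.2 = 1 := by
        rcases mul_eq_zero.1 e1 with a | a <;> rcases mul_eq_zero.1 e2 with b | b
        · left; ext; simp [mid, a, b]
        · exfalso; linarith
        · exfalso; linarith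
        · right; ext; simp [mid]; linarith
      rcases this with e | e <;> rw [e]
      · exact (L.source v).trans (L.source _).symm
      · exact (L.target v).trans (L.target _).symm
    · apply L.toContinuousMap.continuous.continuousAt.comp
      refine ContinuousAt.prodMk ?_ continuous_mid.continuousAt
      apply continuous_projIcc.continuousAt.comp
      exact ContinuousAt.div (by fun_prop) (by fun_prop) hz
  refine ⟨⟨_, hc⟩, fun x => ?_, fun y => ?_, fun y => ?_, fun x => ?_⟩
  · have : w (x, 0) = 0 := by simp [w]
    simp only [ContinuousMap.coe_mk, this]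
    exact (L.apply_zero _).trans (trans_mid_left _ _ _)
  · have : w (1, y) = 0 := by simp [w]
    simp only [ContinuousMap.coe_mk, this]
    rw [mid_comm]
    exact (L.apply_zero _).trans (trans_mid_right _ _ _)
  · by_cases hy : y = 0
    · subst hy
      have : mid 0 0 = 0 := by ext; simp [mid]
      simp only [ContinuousMap.coe_mk, this]
      exact (L.source _).trans lf.source.symm
    · have hy' : (y : ℝ) ≠ 0 := fun e => hy (Subtype.ext e)
      have : w (0, y) = 1 := by simp [w, hy']
      simp only [ContinuousMap.coe_mk, this]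
      rw [mid_comm]
      exact (L.apply_one _).trans (trans_mid_left _ _ _)
  · by_cases hx : x = 1
    · subst hx
      have : mid 1 1 = 1 := by ext; simp [mid]
      simp only [ContinuousMap.coe_mk, this]
      exact (L.target _).trans tp.target.symm
    · have hx' : (1 - x : ℝ) ≠ 0 := fun e => hx (Subtype.ext (by show (x : ℝ) = 1; linarith))
      have : w (x, 1) = 1 := by simp [w, hx']
      simp only [ContinuousMap.coe_mk, this]
      exact (L.apply_one _).trans (trans_mid_right _ _ _)

end Crest.Agent.GSC.Topo
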