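import Crest.Agent.GSC.Pair

/-! Designs given by vertex types with multiplicities. -/

set_option autoImplicit false

namespace Crest.Agent.GSC

open Finset

/-- vertex types with links, multiplicities and dart classes -/
structure TData (S Λ Ty C : Type) [Fintype Λ] [DecidableEq Λ] [Fintype Ty] [DecidableEq C] where
  ell : Λ → S × Bool
  ell_inj : Function.Injective ell
  io : Λ → Λ
  ell_io : ∀ a, ell (io a) = bar (ell a)
  link : Ty → Finset Λ
  mult : Ty → ℕ
  cls : Ty → Λ → C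
  ci : C → C
  ci_ci : ∀ c, ci (ci c) = c
  cl_let : ∀ t a t' a', cls t' a' = ci (cls t a) → a' = io a
  bal : ∀ c, ∑ t, mult t * #{a ∈ link t | cls t a = c} =
    ∑ t, mult t * #{a ∈ link t | cls t a = ci c}

namespace TData

variable {S Λ Ty C : Type} [Fintype Λ] [DecidableEq Λ] [Fintype Ty] [DecidableEq C]
  (T : TData S Λ Ty C)

abbrev VV : Type := Σ t : Ty, Fin (T.mult t)

abbrev DD : Type := {x : T.VV × Λ // x.2 ∈ T.link x.1.1}

theorem card_dd (R : Ty → Λ → Prop) [∀ t a, Decidable (R t a)] :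
    #{d : T.DD | R d.1.1.1 d.1.2} = ∑ t, T.mult t * #{a ∈ T.link t | R t a} := by
  classical
  have e1 : #{d : T.DD | R d.1.1.1 d.1.2} =
      #{x : T.VV × Λ | x.2 ∈ T.link x.1.1 ∧ R x.1.1 x.2} := by
    refine Finset.card_bij (fun d _ => d.1) (fun d hd => ?_) (fun _ _ _ _ h => Subtype.ext h)
      fun x hx => ?_
    · simpa using ⟨d.2, by simpa using hd⟩
    · obtain ⟨h1, h2⟩ := (mem_filter.1 hx).2
      exact ⟨⟨x, h1⟩, by simpa using h2, rfl⟩
  rw [e1, Finset.card_filter, Fintype.sum_prod_type, Fintype.sum_sigma]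
  refine Finset.sum_congr rfl fun t _ => ?_
  rw [Finset.sum_congr rfl (g := fun _ => #{a ∈ T.link t | R t a})]
  · simp
  intro i _
  rw [← Finset.card_filter]
  congr 1
  ext a
  simp

/-- the associated design -/
def design : Design S T.VV T.DD C where
  src d := d.1.1
  lab d := T.ell d.1.2
  cl d := T.cls d.1.1.1 d.1.2
  ci := T.ci
  inj _ _ h1 h2 := Subtype.ext (Prod.ext h1 (T.ell_inj h2))
  ci_ci := T.ci_ci
  lab_cl d e h := by rw [T.cl_let _ _ _ _ h, T.ell_io]
  card_cl c := by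
    rw [T.card_dd (fun t a => T.cls t a = c), T.card_dd (fun t a => T.cls t a = T.ci c), T.bal]

theorem sum_src {M : Type*} [AddCommMonoid M] (x : T.VV) (f : T.DD → M) (g : Λ → M)
    (h : ∀ a (ha : a ∈ T.link x.1), f ⟨(x, a), ha⟩ = g a)
    [DecidablePred fun d => T.design.src d = x] :
    ∑ d ∈ univ.filter (fun d => T.design.src d = x), f d = ∑ a ∈ T.link x.1, g a := by
  refine Finset.sum_bij (fun d _ => d.1.2) (fun d hd => ?_) (fun d hd e he hde => ?_)
    (fun a ha => ⟨⟨(x, a), ha⟩, mem_filter.2 ⟨mem_univ _, rfl⟩, rfl⟩) fun d hd => ?_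
  · have : d.1.1 = x := (mem_filter.1 hd).2
    exact this ▸ d.2
  · have h1 : d.1.1 = x := (mem_filter.1 hd).2
    have h2 : e.1.1 = x := (mem_filter.1 he).2
    exact Subtype.ext (Prod.ext (h1.trans h2.symm) hde)
  · obtain ⟨⟨y, a⟩, ha⟩ := d
    have h1 : y = x := (mem_filter.1 hd).2
    subst h1
    exact h a ha

theorem om_eq {K : Type} [Field K] (wt : Ty → Λ → K) (x y : T.VV) :
    T.design.om (fun d => wt d.1.1.1 d.1.2) x y =
      ∑ a ∈ T.link x.1 ∩ T.link y.1, wt x.1 a * wt y.1 a := by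
  classical
  unfold Design.om
  rw [T.sum_src x _ (fun a => if a ∈ T.link y.1 then wt x.1 a * wt y.1 a else 0),
    Finset.sum_ite_mem]
  intro a ha
  rw [T.sum_src y _ (fun b => if a = b then wt x.1 a * wt y.1 b else 0), Finset.sum_ite_eq]
  intro b hb
  simp only [design, T.ell_inj.eq_iff]

theorem deg_eq (x : T.VV) [DecidablePred fun d => T.design.src d = x] :
    #{d | T.design.src d = x} = (T.link x.1).card := by
  rw [Finset.card_eq_sum_ones, T.sum_src x _ (fun _ => 1) (fun _ _ => rfl)]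
  simp

open Classical in
theorem cnt_eq (d : T.DD) (b : S × Bool) : T.design.cnt d b =
    ∑ t, T.mult t * #{a ∈ T.link t | T.cls t a = T.ci (T.cls d.1.1.1 d.1.2) ∧
      ∃ a' ∈ T.link t, T.ell a' = b} := by
  rw [← T.card_dd (fun t a => T.cls t a = T.ci (T.cls d.1.1.1 d.1.2) ∧
      ∃ a' ∈ T.link t, T.ell a' = b), Design.cnt]
  congr 1
  ext e
  simp only [mem_filter, mem_univ, true_and]
  refine and_congr Iff.rfl ⟨?_, ?_⟩
  · rintro ⟨e', h1, h2⟩
    have h1' : e'.1.1 = e.1.1 := h1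
    exact ⟨e'.1.2, h1' ▸ e'.2, h2⟩
  · rintro ⟨a', h1, h2⟩
    exact ⟨⟨(e.1.1, a'), h1⟩, rfl, h2⟩

theorem cl_eq (c : C) : #{e | T.design.cl e = c} = ∑ t, T.mult t * #{a ∈ T.link t | T.cls t a = c} :=
  T.card_dd (fun t a => T.cls t a = c)

theorem card_VV : Fintype.card T.VV = ∑ t, T.mult t := by simp

end TData

end Crest.Agent.GSC
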